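import Vale.Agent.P159.H30.D0

/-!
START, part D1 (helper30): `R` of the neutral model is at most `R` of the integer model (supremum
over the constant backgrounds); the neutral cells.
-/

namespace Vale.Agent.P159.H30

open Finset Matrix MeasureTheory
open Vale.Agent.P159.TM.H104 (EM Ex Cv K3 Lg li nh Gr)
open Vale.Agent.P159.H37
open Vale.Agent.P159.H963 (GW MF nM Neu ntr pin nwt)

section neu

variable {V : Type} [Fintype V] [DecidableEq V] [Nonempty V]

/-- **the neutral model is controlled by the integer model** (logarithm) -/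
theorem Lg_neu_le {w : (V → ℤ) → ℝ} (hw : GW w) {M : Matrix V V ℝ} {m : ℝ} (hM : MF M m) (x₀ : V)
    {J : V → ℝ} (hJ : Neu J) (hG : bf (Gm (wM w M)) J (fun _ => 1) = 0) {η : ℝ}
    (h : ∀ c : ℝ, 0 ≤ c → c ≤ 1 → Rs (wM w M) (J + fun _ => m * c) ≤ η) :
    Lg (nM w M m x₀) J - Lg (nM w M m x₀) 0 ≤ qf (Gm (wM w M)) J / 2 + η := by
  set μ := wM w M with hμ
  have hE : EM μ := hw.em_wM hM
  have hEn : EM (nM w M m x₀) := hw.em_nM hM x₀
  have hev : Ev μ := ev_wM hw.ev _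
  have hpk : PK μ := hw.pk_wM hM
  have hLg : ∀ J' : V → ℝ, Zs μ J' = Real.exp (Lg μ 0 + qf (Gm μ) J' / 2 + Rs μ J') := by
    intro J'
    have e : Lg μ 0 + qf (Gm μ) J' / 2 + Rs μ J' = Lg μ J' := by
      unfold Rs; ring
    rw [e]
    exact (Real.exp_log (H37.Zs_pos hE J')).symm
  have key : ∀ c ∈ Set.Icc (0 : ℝ) 1,
      H963.Zc w M m J c ≤ Real.exp (qf (Gm μ) J / 2 + η) * H963.Zc w M m 0 c := by
    intro c hc
    unfold H963.Zc
    rw [← hμ, hLg, hLg]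
    have e1 : (fun _ : V => m * c) = (m * c) • fun _ : V => (1 : ℝ) := by
      funext x; simp
    have e2 : qf (Gm μ) (J + fun _ => m * c) = qf (Gm μ) J + qf (Gm μ) fun _ => m * c := by
      rw [qf_add_vec (H114.Gm_transpose μ), e1, bf_smul_right, hG]
      ring
    have e3 : (0 : V → ℝ) + (fun _ => m * c) = fun _ => m * c := zero_add _
    rw [e2, e3]
    have h1 := h c hc.1 hc.2
    have h2 : 0 ≤ Rs μ fun _ => m * c := H789.Rs_nonneg hE hev hpk _
    have e4 : Real.exp (qf (Gm μ) J / 2 + η) * (Real.exp (-(m * Fintype.card V / 2 * c ^ 2)) *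
        Real.exp (Lg μ 0 + (qf (Gm μ) fun _ => m * c) / 2 + Rs μ fun _ => m * c)) =
        Real.exp (-(m * Fintype.card V / 2 * c ^ 2)) * Real.exp (Lg μ 0 +
          (qf (Gm μ) J + qf (Gm μ) fun _ => m * c) / 2 + (η + Rs μ fun _ => m * c)) := by
      rw [← Real.exp_add, ← Real.exp_add, ← Real.exp_add]
      congr 1
      ring
    rw [e4]
    refine mul_le_mul_of_nonneg_left (Real.exp_le_exp.2 ?_) (Real.exp_pos _).le
    linarith
  have i1 := H963.int_Zc hw.grd hw.nn hM.symm hM.pos hM.row hEn hJ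
  have i0 := H963.int_Zc hw.grd hw.nn hM.symm hM.pos hM.row hEn (Neu.zero (V := V))
  have hcJ := H963.continuous_Zc hE m J
  have hc0 := H963.continuous_Zc hE m (0 : V → ℝ)
  have h3 : ∫ c in (0 : ℝ)..1, H963.Zc w M m J c ≤
      ∫ c in (0 : ℝ)..1, Real.exp (qf (Gm μ) J / 2 + η) * H963.Zc w M m 0 c :=
    intervalIntegral.integral_mono_on zero_le_one (hcJ.intervalIntegrable _ _)
      ((continuous_const.mul hc0).intervalIntegrable _ _) key
  rw [intervalIntegral.integral_const_mul, i1, i0] at h3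
  have hs : 0 < Real.sqrt (2 * Real.pi / (m * Fintype.card V)) := by
    have := hM.pos
    have hN : (0 : ℝ) < Fintype.card V := Nat.cast_pos.2 Fintype.card_pos
    positivity
  have h4 : Zs (nM w M m x₀) J ≤ Real.exp (qf (Gm μ) J / 2 + η) * Zs (nM w M m x₀) 0 := by
    refine le_of_mul_le_mul_left (a := Real.sqrt (2 * Real.pi / (m * Fintype.card V))) ?_ hs
    refine h3.trans (le_of_eq ?_)
    unfold nM
    ring
  have hp1 := H37.Zs_pos hEn J
  have hp0 := H37.Zs_pos hEn (0 : V → ℝ)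
  have h5 := Real.log_le_log hp1 h4
  rw [Real.log_mul (Real.exp_pos _).ne' hp0.ne', Real.log_exp] at h5
  have h7 : Lg (nM w M m x₀) J ≤ qf (Gm μ) J / 2 + η + Lg (nM w M m x₀) 0 := h5
  linarith

/-- **the neutral model is controlled by the integer model** -/
theorem Rs_neu_le {w : (V → ℤ) → ℝ} (hw : GW w) {M : Matrix V V ℝ} {m : ℝ} (hM : MF M m) (x₀ : V)
    {J : V → ℝ} (hJ : Neu J) (hG : bf (Gm (wM w M)) J (fun _ => 1) = 0) {η : ℝ}
    (h : ∀ c : ℝ, 0 ≤ c → c ≤ 1 → Rs (wM w M) (J + fun _ => m * c) ≤ η) :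
    Rs (nM w M m x₀) J ≤ η := by
  have h1 := Lg_neu_le hw hM x₀ hJ hG h
  have h6 := hw.Gm_int_le_neu hM x₀ hJ
  unfold Rs
  linarith

/-- the neutral variance is at most the integer variance plus `2 η` -/
theorem Gm_neu_le {w : (V → ℤ) → ℝ} (hw : GW w) {M : Matrix V V ℝ} {m : ℝ} (hM : MF M m) (x₀ : V)
    {J : V → ℝ} (hJ : Neu J) (hG : bf (Gm (wM w M)) J (fun _ => 1) = 0) {η : ℝ}
    (h : ∀ c : ℝ, 0 ≤ c → c ≤ 1 → Rs (wM w M) (J + fun _ => m * c) ≤ η) :
    qf (Gm (nM w M m x₀)) J ≤ qf (Gm (wM w M)) J + 2 * η := by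
  have h1 := Lg_neu_le hw hM x₀ hJ hG h
  have h2 := H789.Rs_nonneg (hw.em_nM hM x₀) (hw.ev_nM M m x₀) (hw.pk_nM hM x₀) J
  unfold Rs at h2
  linarith


end neu

section torus

open Vale.Agent.P159.TM.Spec (V)
open Vale.Agent.P159.TM.SpecC (Tor wT)

variable {N : ℕ} [NeZero N] {b : ℝ}

lemma bf_one {A : Matrix (V N) (V N) ℝ} (hA : H864.TI A) {u : V N → ℝ} (hu : Neu u) :
    bf A u (fun _ => 1) = 0 := by
  have h1 := hA.mulVec_cN 0
  have h2 : (fun x : V N => TM.H764.cN (TM.H764.dt 0 x)) = fun _ => (1 : ℝ) := by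
    funext x
    rw [H864.dt_zero_left]
    exact TM.H764.cN_zero
  rw [h2] at h1
  rw [bf_eq, h1]
  have h3 : u ⬝ᵥ H864.sym A 0 • (fun _ : V N => (1 : ℝ)) = H864.sym A 0 * ∑ x, u x := by
    rw [dotProduct_smul, smul_eq_mul]
    congr 1
    simp [dotProduct]
  rw [h3, show ∑ x, u x = 0 from hu, mul_zero]

/-- **torus**: the neutral `R` at the source `τ F` -/
theorem Rs_nwt_le (hb : 0 ≤ b) {τ : ℝ} (hτ : 0 < τ) (x₀ : V N) {F : V N → ℝ} (hF : Neu F) {η : ℝ}
    (h : ∀ c : ℝ, 0 ≤ c → c ≤ 1 → Rs (wt N b τ) (τ • fun x => F x + c) ≤ η) :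
    Rs (nwt N b τ x₀) (τ • F) ≤ η := by
  refine Rs_neu_le (H963.gw_wT hb) (H963.mf_smul hτ) x₀ (hF.smul τ)
    (bf_one (H864.ti_Gm_wt τ) (hF.smul τ)) fun c h0 h1 => ?_
  have e : (τ • F + fun _ : V N => τ * c) = τ • fun x => F x + c := by
    funext x
    simp only [Pi.add_apply, Pi.smul_apply, smul_eq_mul]
    ring
  rw [e]
  exact h c h0 h1

/-- **torus**: the neutral variance at the source `τ F` -/
theorem Gm_nwt_le (hb : 0 ≤ b) {τ : ℝ} (hτ : 0 < τ) (x₀ : V N) {F : V N → ℝ} (hF : Neu F) {η : ℝ}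
    (h : ∀ c : ℝ, 0 ≤ c → c ≤ 1 → Rs (wt N b τ) (τ • fun x => F x + c) ≤ η) :
    qf (Gm (nwt N b τ x₀)) (τ • F) ≤ qf (Gm (wt N b τ)) (τ • F) + 2 * η := by
  refine Gm_neu_le (H963.gw_wT hb) (H963.mf_smul hτ) x₀ (hF.smul τ)
    (bf_one (H864.ti_Gm_wt τ) (hF.smul τ)) fun c h0 h1 => ?_
  have e : (τ • F + fun _ : V N => τ * c) = τ • fun x => F x + c := by
    funext x
    simp only [Pi.add_apply, Pi.smul_apply, smul_eq_mul]
    ring
  rw [e]
  exact h c h0 h1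

end torus

end Vale.Agent.P159.H30
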