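import Vale.Agent.P159.H30.Ap0
import Vale.Agent.P159.H972.Good

/-!
START, part G (helper30): the fields (i) `D` and (ii) `ap` of `H972.GP` at the start, at all real
masses of the octave; more generally `StN` and `APS` with every power of `e`.
-/

namespace Vale.Agent.P159.H30

open Finset Matrix MeasureTheory Filter Topology
open Vale.Agent.P159 Vale.Agent.P159.TM
open Vale.Agent.P159.TM.H104 (EM Ex Cv K3 Lg li nh Gr)
open Vale.Agent.P159.H37
open Vale.Agent.P159.H963 (GW MF nM Neu ntr pin nwt)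
open Vale.Agent.P159.TM.Spec (V)
open Vale.Agent.P159.TM.SpecC (Tor wT)
open Vale.Agent.P159.H864 (cobV cl ce)
open Vale.Agent.P159.H447 (K4S SN CN)
open Vale.Agent.P159.H972 (Par lg tn DN cobB)

lemma tn_eq (n : ℕ) : tn n = 1 / (2 ^ n : ℝ) ^ 2 := by
  unfold tn
  rw [one_div, ← pow_mul, mul_comm n 2, pow_mul]
  norm_num

section block

variable {N l : ℕ} [NeZero N] [NeZero (N / l)]

/-- the selection of a block of cells -/
def Lb (N l q : ℕ) [NeZero N] [NeZero (N / l)] (B : ℕ × ℕ) :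
    Matrix (V (N / l)) (Fin (N / l) × Fin (N / l)) ℝ :=
  Matrix.of fun c j => if ce (N / l) c = j then
    (if j.1.val / q = B.1 ∧ j.2.val / q = B.2 then 1 else 0) else 0

lemma cobB_eq (hl : l ∣ N) (q : ℕ) (B : ℕ × ℕ) :
    cobB N l q B = (cobV N l)ᵀ * Lb N l q B := by
  ext x j
  rw [Matrix.mul_apply, Finset.sum_eq_single ((ce (N / l)).symm j)]
  · unfold Lb H972.cobB
    rw [Matrix.transpose_apply, ← H864.cob_ce hl]
    simp only [Matrix.of_apply, Equiv.apply_symm_apply, if_true]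
    split_ifs
    · ring
    · ring
  · intro c _ hc
    unfold Lb
    rw [Matrix.of_apply, if_neg, mul_zero]
    intro h
    exact hc (by rw [← h, Equiv.symm_apply_apply])
  · intro h
    exact absurd (Finset.mem_univ _) h

lemma Lb_row (q : ℕ) (B : ℕ × ℕ) (c : V (N / l)) : ∑ j, Lb N l q B c j ^ 2 ≤ 1 := by
  unfold Lb
  simp only [Matrix.of_apply]
  rw [Finset.sum_eq_single (ce (N / l) c)]
  · rw [if_pos rfl]
    split_ifs <;> norm_num
  · intro j _ hj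
    rw [if_neg (Ne.symm hj)]
    norm_num
  · intro h
    exact absurd (Finset.mem_univ _) h

end block

lemma lg_le {c e : ℝ} (hc : 0 ≤ c) (h : 1 ≤ Real.logb 2 (1 / e)) :
    (lg c e : ℝ) ≤ (c + 1) * Real.logb 2 (1 / e) := by
  have h1 : (lg c e : ℝ) ≤ c * Real.logb 2 (1 / e) + 1 :=
    (Nat.ceil_lt_add_one (by positivity)).le
  linarith

lemma lg_ge (c e : ℝ) : c * Real.logb 2 (1 / e) ≤ (lg c e : ℝ) := Nat.le_ceil _

/-- **START, letters of `H972.Good`**, every power `p` of `e` -/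
theorem start_Good {b : ℝ} (hb : 0 < b) (hY : 2 / Real.pi ≤ helicity b) {th C0 x1 : ℝ}
    (hth : 0 < th) (hC0 : 0 < C0) (hx1 : 0 < x1) (p : ℕ) :
    ∃ es0 : ℝ, 0 < es0 ∧ ∀ P : Par, P.th = th → P.C0 = C0 → P.x1 = x1 → P.es ≤ es0 →
      ∀ e0 : ℝ, 0 < e0 → ∃ n0 : ℕ, ∀ n : ℕ, n0 ≤ n → ∀ e : ℝ, e0 ≤ e → e ≤ P.es →
      lg P.C0 e ≤ n ∧ ∀ τ : ℝ, tn n ≤ τ → τ ≤ 4 * tn n → ∀ r : ℕ,
      (P.TT n e r ∨ r = n + 3 * P.xE e) → ∀ _ : NeZero (2 ^ r / 2 ^ P.sE n e),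
      StN b (2 ^ r) (2 ^ P.sE n e) (2 ^ n) ((1 / e) ^ p) (e ^ p) τ ∧
      APS b (2 ^ r) (2 ^ P.sE n e) ((1 / e) ^ p) (e ^ p) τ := by
  set μ : ℝ := min th (3 * x1) with hμ
  have hμ0 : 0 < μ := lt_min hth (by positivity)
  obtain ⟨A, hA⟩ := exists_nat_ge ((C0 + 1 + p) / μ + 2)
  have hA2 : 2 ≤ A := by
    have : (2 : ℝ) ≤ A := le_trans (by
      have : 0 ≤ (C0 + 1 + p) / μ := by positivity
      linarith) hA
    exact_mod_cast this
  have hAμ : C0 + 1 + p ≤ A * μ := by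
    have h1 : (C0 + 1 + p) / μ ≤ A := by linarith
    rwa [div_le_iff₀ hμ0] at h1
  obtain ⟨i₀, hi₀⟩ := start_G hb hY hA2
  refine ⟨(2 : ℝ) ^ (-((i₀ : ℝ) / μ)), by positivity, fun P hPth hPC0 hPx1 hPes e0 he0 => ?_⟩
  obtain ⟨n₀, hn₀⟩ := hi₀ (max (P.kE e0 + P.q0 * (4 * P.w e0)) (3 * P.xE e0))
  refine ⟨n₀, fun n hn e he0e hees => ?_⟩
  have he : 0 < e := he0.trans_le he0e
  have he12 : e ≤ 1 / 2 := hees.trans P.es1
  have hL1 := H972.one_le_logb he he12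
  set L := Real.logb 2 (1 / e) with hL
  have hLi : (i₀ : ℝ) / μ ≤ L := by
    rw [hL, Real.le_logb_iff_rpow_le one_lt_two (by positivity), le_one_div (by positivity) he]
    refine (hees.trans hPes).trans (le_of_eq ?_)
    rw [Real.rpow_neg (by norm_num), one_div]
  have hLi' : (i₀ : ℝ) ≤ μ * L := by
    rw [div_le_iff₀ hμ0] at hLi
    linarith
  -- the cells
  have hs1 : 1 ≤ lg P.C0 e := H972.one_le_lg P.C00 he he12
  have hsL : (lg P.C0 e : ℝ) ≤ (C0 + 1) * L := by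
    rw [← hPC0]
    exact lg_le P.C00.le hL1
  -- the tori
  have hi : ∀ r : ℕ, (P.TT n e r ∨ r = n + 3 * P.xE e) → ∃ i : ℕ, r = i + n ∧ μ * L ≤ i ∧
      i ≤ max (P.kE e0 + P.q0 * (4 * P.w e0)) (3 * P.xE e0) := by
    intro r hr
    have hkE : P.kE e ≤ P.kE e0 := H972.lg_anti P.th0.le he0 he0e
    have hw : P.w e ≤ P.w e0 := H972.lg_anti P.thp0.le he0 he0e
    have hxE : P.xE e ≤ P.xE e0 := H972.lg_anti P.x10.le he0 he0e
    rcases hr with hr | hr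
    · refine ⟨r - n, ?_, ?_, ?_⟩
      · have := hr.1
        omega
      · have h1 : P.kE e ≤ r - n := by have := hr.1; omega
        have h2 : th * L ≤ (P.kE e : ℝ) := by
          rw [← hPth]
          exact lg_ge P.th e
        have h3 : μ * L ≤ th * L := mul_le_mul_of_nonneg_right (min_le_left _ _) (by linarith)
        have h4 : ((P.kE e : ℕ) : ℝ) ≤ ((r - n : ℕ) : ℝ) := by exact_mod_cast h1
        linarith
      · refine le_trans ?_ (le_max_left _ _)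
        have h1 := hr.2
        have h2 : P.q0 * (4 * P.w e) ≤ P.q0 * (4 * P.w e0) :=
          Nat.mul_le_mul_left _ (Nat.mul_le_mul_left _ hw)
        omega
    · refine ⟨3 * P.xE e, by omega, ?_, ?_⟩
      · have h2 : x1 * L ≤ (P.xE e : ℝ) := by
          rw [← hPx1]
          exact lg_ge P.x1 e
        have h3 : μ * L ≤ 3 * x1 * L := mul_le_mul_of_nonneg_right (min_le_right _ _) (by linarith)
        push_cast
        linarith
      · refine le_trans ?_ (le_max_right _ _)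
        omega
  have key : ∀ i : ℕ, μ * L ≤ i → (lg P.C0 e ≤ A * i ∧ (1 / e) ^ p ≤ (2 : ℝ) ^ (A * i) ∧
      (1 : ℝ) / 2 ^ (A * i) ≤ e ^ p ∧ i₀ ≤ i) := by
    intro i hi
    have hAi : (C0 + 1 + p) * L ≤ ((A * i : ℕ) : ℝ) := by
      push_cast
      have h1 : (C0 + 1 + p) * L ≤ A * μ * L := mul_le_mul_of_nonneg_right hAμ (by linarith)
      have h2 : (A : ℝ) * (μ * L) ≤ A * i := mul_le_mul_of_nonneg_left hi (by positivity)
      linarith
    have hp0 : (0 : ℝ) ≤ p := by positivity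
    have hpw : (1 / e) ^ p ≤ (2 : ℝ) ^ (A * i) := by
      have h1 : (1 / e) = (2 : ℝ) ^ L := by
        rw [hL, Real.rpow_logb (by norm_num) (by norm_num) (by positivity)]
      rw [h1, ← Real.rpow_natCast, ← Real.rpow_mul (by norm_num), ← Real.rpow_natCast]
      refine Real.rpow_le_rpow_of_exponent_le (by norm_num) ?_
      nlinarith
    refine ⟨?_, hpw, ?_, ?_⟩
    · have h1 : (lg P.C0 e : ℝ) ≤ ((A * i : ℕ) : ℝ) := by nlinarith
      exact_mod_cast h1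
    · have h2 : (1 : ℝ) / 2 ^ (A * i) ≤ 1 / (1 / e) ^ p :=
        one_div_le_one_div_of_le (by positivity) hpw
      refine h2.trans (le_of_eq ?_)
      rw [div_pow, one_pow, one_div_one_div]
    · have : (i₀ : ℝ) ≤ i := hLi'.trans hi
      exact_mod_cast this
  have hsn : lg P.C0 e ≤ n := by
    obtain ⟨i, hri, h1, h2⟩ := hi _ (Or.inr rfl)
    obtain ⟨h3, _, _, h4⟩ := key i h1
    exact (hn₀ n hn i h4 h2 _ hs1 h3).1
  refine ⟨hsn, fun τ hτ1 hτ2 r hr _ => ?_⟩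
  obtain ⟨i, hri, h1, h2⟩ := hi r hr
  obtain ⟨h3, h4, h5, h6⟩ := key i h1
  obtain ⟨-, h7⟩ := hn₀ n hn i h6 h2 _ hs1 h3
  rw [tn_eq] at hτ1 hτ2
  obtain ⟨h8, h9⟩ := h7 (2 ^ r) (2 ^ P.sE n e) (by rw [hri]) (by unfold Par.sE; rfl) τ hτ1
    (hτ2.trans (le_of_eq (by ring)))
  exact ⟨h8.mono h4 h5, ⟨fun L hL X' hX0 hX1 => le_trans (measureReal_mono fun g hg =>
      lt_of_le_of_lt h5 hg) (h9.ap L hL X' hX0 (hX1.trans h4)), fun x₀ _ _ L hL X' hX0 hX1 =>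
      le_trans (measureReal_mono fun g hg => lt_of_le_of_lt h5 hg)
        (h9.apn x₀ L hL X' hX0 (hX1.trans h4))⟩⟩

/-- **the fields `D` and `ap` of `H972.GP` at the start** (with `e` instead of `1` in `ap`) -/
theorem start_DAP {b : ℝ} (hb : 0 < b) (hY : 2 / Real.pi ≤ helicity b) {th C0 x1 : ℝ}
    (hth : 0 < th) (hC0 : 0 < C0) (hx1 : 0 < x1) :
    ∃ es0 : ℝ, 0 < es0 ∧ ∀ P : Par, P.th = th → P.C0 = C0 → P.x1 = x1 → P.es ≤ es0 →
      ∀ e0 : ℝ, 0 < e0 → ∃ n0 : ℕ, ∀ n : ℕ, n0 ≤ n → ∀ e : ℝ, e0 ≤ e → e ≤ P.es →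
      ∀ τ : ℝ, tn n ≤ τ → τ ≤ 4 * tn n →
      (∀ r, P.TT n e r → DN b n r (P.sE n e) τ ≤ e) ∧
      (∀ r, (P.TT n e r ∨ r = n + 3 * P.xE e) → ∀ B : ℕ × ℕ,
        (gau (Fin (2 ^ r / 2 ^ P.sE n e) × Fin (2 ^ r / 2 ^ P.sE n e))).real
        {g | e < Rs (wt (2 ^ r) b τ) (((2 ^ P.xE e * √τ) •
          cobB (2 ^ r) (2 ^ P.sE n e) (2 ^ (n - P.sE n e)) B) *ᵥ g)} ≤ 1 / 30) := by
  obtain ⟨p, hp⟩ := exists_nat_ge (x1 + 1)
  obtain ⟨es0, hes0, h⟩ := start_Good hb hY hth hC0 hx1 (p + 1)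
  refine ⟨es0, hes0, fun P h1 h2 h3 h4 e0 he0 => ?_⟩
  obtain ⟨n0, hn0⟩ := h P h1 h2 h3 h4 e0 he0
  refine ⟨n0, fun n hn e he0e hees τ hτ1 hτ2 => ?_⟩
  obtain ⟨h5, h6⟩ := hn0 n hn e he0e hees
  have he : 0 < e := he0.trans_le he0e
  have he12 : e ≤ 1 / 2 := hees.trans P.es1
  have hL1 := H972.one_le_logb he he12
  have hep : e ^ (p + 1) ≤ e := by
    rw [pow_succ]
    have : e ^ p ≤ 1 := pow_le_one₀ he.le (by linarith)
    nlinarith
  have hsr : ∀ r, (P.TT n e r ∨ r = n + 3 * P.xE e) → P.sE n e ≤ r := by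
    intro r hr
    have h7 : P.sE n e ≤ n := Nat.sub_le _ _
    rcases hr with hr | hr
    · have := hr.1
      omega
    · omega
  have hnz : ∀ r, (P.TT n e r ∨ r = n + 3 * P.xE e) → NeZero (2 ^ r / 2 ^ P.sE n e) := by
    intro r hr
    exact ⟨(Nat.div_pos (Nat.pow_le_pow_right (by norm_num) (hsr r hr)) (by positivity)).ne'⟩
  constructor
  · intro r hr
    have := hnz r (Or.inl hr)
    obtain ⟨h7, -⟩ := h6 τ hτ1 hτ2 r (Or.inl hr) this
    refine le_trans (le_of_eq ?_) ((h7.Dn 0).trans hep)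
    unfold DN
    push_cast
    ring
  · intro r hr B
    have := hnz r hr
    obtain ⟨-, h7⟩ := h6 τ hτ1 hτ2 r hr this
    have hX : (2 : ℝ) ^ P.xE e ≤ (1 / e) ^ (p + 1) := by
      have h8 : (P.xE e : ℝ) ≤ (x1 + 1) * Real.logb 2 (1 / e) := by
        rw [← h3]
        exact lg_le P.x10.le hL1
      have h9 : (1 / e) = (2 : ℝ) ^ (Real.logb 2 (1 / e)) := by
        rw [Real.rpow_logb (by norm_num) (by norm_num) (by positivity)]
      rw [h9, ← Real.rpow_natCast, ← Real.rpow_natCast, ← Real.rpow_mul (by norm_num)]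
      refine Real.rpow_le_rpow_of_exponent_le (by norm_num) (h8.trans ?_)
      push_cast
      nlinarith
    have hl : 2 ^ P.sE n e ∣ 2 ^ r := pow_dvd_pow 2 (hsr r hr)
    rw [cobB_eq hl]
    refine le_trans (measureReal_mono fun g hg => lt_of_le_of_lt hep hg)
      (h7.ap (Lb (2 ^ r) (2 ^ P.sE n e) (2 ^ (n - P.sE n e)) B) (Lb_row _ _) (2 ^ P.xE e)
        (by positivity) hX)

end Vale.Agent.P159.H30
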