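import Vale.Agent.P159.H30.Ind

/-!
SANDWICH, part 2 (helper30): the three factor inequality.
-/

open MeasureTheory Filter Topology

namespace Vale.Agent.P159.H30

open Vale.Agent.P159 Vale.Agent.P159.H353 Vale.Agent.P159.R2.H254 Vale.Agent.P159.T1.H934
open Vale.Agent.P159.TM Vale.Agent.P159.TM.H22

section sg

variable {V : Type} [Fintype V] {E : Type} [Fintype E]

/-- the data controlling the growth: currents and massive heights -/
noncomputable def dat (D : (V → ℤ) →+ (E → ℤ)) (P : V → Prop) [DecidablePred P] (h : V → ℤ) :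
    E ⊕ V → ℤ := Sum.elim (D h) fun v => if P v then h v else 0

lemma summable_wI_exp {b : ℝ} (hb : 0 ≤ b) (t : ℝ) :
    Summable fun n : ℤ => wI b n * Real.exp (t * |(n : ℝ)|) := by
  have h := summable_wI_w hb (ρ := Real.exp |t|) (Real.one_le_exp (abs_nonneg t))
  refine Summable.of_nonneg_of_le (fun n => mul_nonneg (wI_nonneg hb n) (Real.exp_pos _).le)
    (fun n => ?_) h
  rw [abs_mul, abs_of_nonneg (wI_nonneg hb n), abs_pow, abs_of_pos (Real.exp_pos _),
    ← Real.exp_nat_mul]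
  refine mul_le_mul_of_nonneg_left (Real.exp_le_exp.2 ?_) (wI_nonneg hb n)
  have e : ((n.natAbs : ℕ) : ℝ) = |(n : ℝ)| := by
    rw [← Int.cast_abs, Int.abs_eq_natAbs]
    simp
  rw [e, mul_comm]
  exact mul_le_mul_of_nonneg_left (le_abs_self _) (abs_nonneg _)

/-- **exponential moments**, masses `≥ 0` -/
theorem sg_of (D : (V → ℤ) →+ (E → ℤ)) {J : E → ℝ} (hJ : ∀ e, 0 ≤ J e) {m : V → ℝ}
    (P : V → Prop) [DecidablePred P] (hm0 : ∀ v, 0 ≤ m v) (hm : ∀ v, P v → 0 < m v) {K : ℝ}
    (hK : ∀ h, H22.nn h ≤ K * ∑ i, |(dat D P h i : ℝ)|) : SG (wm D J m) where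
  nonneg h := mul_nonneg (W_nonneg hJ h) (gm_pos m h).le
  even h := by
    unfold wm gm
    have h1 : W D J (-h) = W D J h := W_neg D J h
    rw [h1]
    congr 3
    refine congrArg _ (Finset.sum_congr rfl fun v _ => ?_)
    rw [Pi.neg_apply, Int.cast_neg]
    ring
  mom t := by
    -- the one coordinate functions
    set g : E ⊕ V → ℤ → ℝ := Sum.elim (fun e n => wI (J e) n * Real.exp (|t| * K * |(n : ℝ)|))
      (fun v n => if P v then Real.exp (-(m v * (n : ℝ) ^ 2) / 2 + |t| * K * |(n : ℝ)|) else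
        if n = 0 then 1 else 0) with hg
    have hg0 : ∀ i n, 0 ≤ g i n := by
      rintro (e | v) n
      · exact mul_nonneg (wI_nonneg (hJ e) n) (Real.exp_pos _).le
      · simp only [hg, Sum.elim_inr]
        split_ifs
        · exact (Real.exp_pos _).le
        · exact zero_le_one
        · exact le_rfl
    have hgs : ∀ i, Summable (g i) := by
      rintro (e | v)
      · exact summable_wI_exp (hJ e) _
      · simp only [hg, Sum.elim_inr]
        by_cases hv : P v
        · simp only [hv, if_true]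
          exact summable_gauss1 (hm v hv) _
        · simp only [hv, if_false]
          exact (hasSum_ite_eq (0 : ℤ) (1 : ℝ)).summable
    have hsum := H871.summable_pi_prod hg0 hgs
    have hinj : Function.Injective (dat D P) := by
      intro h k hk
      have e1 : D h = D k := by
        funext e
        exact congrFun hk (Sum.inl e)
      have hz : dat D P (h - k) = 0 := by
        funext i
        rcases i with e | v
        · simp only [dat, Sum.elim_inl, map_sub, e1, sub_self, Pi.zero_apply]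
        · have e2 := congrFun hk (Sum.inr v)
          simp only [dat, Sum.elim_inr] at e2 ⊢
          by_cases hv : P v
          · simp only [hv, if_true] at e2 ⊢
            simp [e2]
          · simp [hv]
      have h0 : H22.nn (h - k) ≤ 0 := by
        refine (hK (h - k)).trans ?_
        rw [hz]
        simp
      have h1 : ∀ v, (h - k) v = 0 := by
        intro v
        have h2 : |((h - k) v : ℝ)| ≤ H22.nn (h - k) :=
          Finset.single_le_sum (f := fun v => |((h - k) v : ℝ)|) (fun _ _ => abs_nonneg _)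
            (Finset.mem_univ v)
        have h3 : |((h - k) v : ℝ)| = 0 := le_antisymm (h2.trans h0) (abs_nonneg _)
        rw [abs_eq_zero] at h3
        exact_mod_cast h3
      funext v
      have := h1 v
      rw [Pi.sub_apply] at this
      omega
    refine Summable.of_nonneg_of_le
      (fun h => mul_nonneg (mul_nonneg (W_nonneg hJ h) (gm_pos m h).le) (Real.exp_pos _).le)
      (fun h => ?_) (hsum.comp_injective hinj)
    simp only [Function.comp]
    rw [Fintype.prod_sum_type]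
    have e1 : ∏ e, g (Sum.inl e) (dat D P h (Sum.inl e)) =
        W D J h * Real.exp (|t| * K * ∑ e, |(D h e : ℝ)|) := by
      simp only [hg, dat, Sum.elim_inl]
      rw [Finset.prod_mul_distrib, ← Real.exp_sum, Finset.mul_sum]
      rfl
    have e2 : gm m h * Real.exp (|t| * K * ∑ v, |((if P v then h v else 0 : ℤ) : ℝ)|) ≤
        ∏ v, g (Sum.inr v) (dat D P h (Sum.inr v)) := by
      have e3 : gm m h * Real.exp (|t| * K * ∑ v, |((if P v then h v else 0 : ℤ) : ℝ)|) =
          ∏ v, Real.exp (-(m v * (h v : ℝ) ^ 2) / 2 +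
            |t| * K * |((if P v then h v else 0 : ℤ) : ℝ)|) := by
        rw [← Real.exp_sum, gm, ← Real.exp_add]
        congr 1
        rw [Finset.sum_add_distrib, ← Finset.mul_sum, ← Finset.sum_div, Finset.sum_neg_distrib]
      rw [e3]
      refine Finset.prod_le_prod (fun _ _ => (Real.exp_pos _).le) fun v _ => ?_
      simp only [hg, dat, Sum.elim_inr]
      by_cases hv : P v
      · simp only [hv, if_true]
        exact le_rfl
      · simp only [hv, if_false, if_true, Int.cast_zero, abs_zero, mul_zero, add_zero]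
        rw [Real.exp_le_one_iff]
        have := mul_nonneg (hm0 v) (sq_nonneg (h v : ℝ))
        linarith
    rw [e1]
    have e4 : Real.exp (t * H22.nn h) ≤ Real.exp (|t| * K * ∑ e, |(D h e : ℝ)|) *
        Real.exp (|t| * K * ∑ v, |((if P v then h v else 0 : ℤ) : ℝ)|) := by
      rw [← Real.exp_add]
      apply Real.exp_le_exp.2
      have h1 := hK h
      rw [Fintype.sum_sum_type] at h1
      simp only [dat, Sum.elim_inl, Sum.elim_inr] at h1
      have h2 : t * H22.nn h ≤ |t| * H22.nn h := mul_le_mul_of_nonneg_right (le_abs_self t) (nn_nonneg h)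
      have h3 := mul_le_mul_of_nonneg_left h1 (abs_nonneg t)
      linarith
    unfold wm
    calc W D J h * gm m h * Real.exp (t * H22.nn h)
        ≤ W D J h * gm m h * (Real.exp (|t| * K * ∑ e, |(D h e : ℝ)|) *
        Real.exp (|t| * K * ∑ v, |((if P v then h v else 0 : ℤ) : ℝ)|)) :=
          mul_le_mul_of_nonneg_left e4 (mul_nonneg (W_nonneg hJ h) (gm_pos m h).le)
      _ = (W D J h * Real.exp (|t| * K * ∑ e, |(D h e : ℝ)|)) *
        (gm m h * Real.exp (|t| * K * ∑ v, |((if P v then h v else 0 : ℤ) : ℝ)|)) := by ring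
      _ ≤ _ := mul_le_mul_of_nonneg_left e2 (mul_nonneg (W_nonneg hJ h) (Real.exp_pos _).le)

end sg

/-! ### the three factor inequality -/

section three

variable {V : Type} [Fintype V] {E F : Type} [Fintype E] [Fintype F]

/-- the sites of the tripled system -/
abbrev S3 (V F : Type) : Type := V ⊕ (V ⊕ F)

/-- the three parts of a height function on the tripled system -/
def eq3 (V F : Type) : (S3 V F → ℤ) ≃ (V → ℤ) × ((V → ℤ) × (F → ℤ)) :=
  (Equiv.sumArrowEquivProdArrow V (V ⊕ F) ℤ).trans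
    (Equiv.prodCongr (Equiv.refl _) (Equiv.sumArrowEquivProdArrow V F ℤ))

/-- the currents of the tripled system -/
def D3 (D : (V → ℤ) →+ (E → ℤ)) : (S3 V F → ℤ) →+ (E ⊕ F → ℤ) where
  toFun H := Sum.elim (D fun v => H (Sum.inr (Sum.inl v))) fun f => H (Sum.inr (Sum.inr f))
  map_zero' := by
    funext i
    rcases i with e | f
    · exact congrFun (map_zero D) e
    · rfl
  map_add' H K := by
    funext i
    rcases i with e | f
    · exact congrFun (map_add D (fun v => H (Sum.inr (Sum.inl v)))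
        fun v => K (Sum.inr (Sum.inl v))) e
    · rfl

/-- the constraints -/
def L3 (G : (V → ℤ) →+ (F → ℤ)) : (S3 V F → ℤ) →+ ((V → ℤ) × (F → ℤ)) where
  toFun H := (fun v => H (Sum.inl v) - H (Sum.inr (Sum.inl v)),
    fun f => H (Sum.inr (Sum.inr f)) - G (fun v => H (Sum.inl v)) f)
  map_zero' := by
    have : (fun v : V => (0 : S3 V F → ℤ) (Sum.inl v)) = 0 := rfl
    simp only [this, map_zero]
    rfl
  map_add' H K := by
    have : (fun v : V => (H + K) (Sum.inl v)) =
        (fun v : V => H (Sum.inl v)) + fun v : V => K (Sum.inl v) := rfl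
    simp only [this, map_add]
    ext x
    · simp only [Pi.add_apply, Prod.mk_add_mk]
      ring
    · simp only [Pi.add_apply, Prod.mk_add_mk]
      ring

lemma sum_S3 (φ : S3 V F → ℝ) : ∑ i, φ i = ∑ v, φ (Sum.inl v) +
    (∑ v, φ (Sum.inr (Sum.inl v)) + ∑ f, φ (Sum.inr (Sum.inr f))) := by
  rw [Fintype.sum_sum_type, Fintype.sum_sum_type]

lemma wm3 (D : (V → ℤ) →+ (E → ℤ)) (J : E → ℝ) (I : F → ℝ) (m1 m2 : V → ℝ) (H : S3 V F → ℤ) :
    wm (D3 (F := F) D) (Sum.elim J I) (Sum.elim m1 (Sum.elim m2 0)) H =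
      gm m1 (fun v => H (Sum.inl v)) * (wm D J m2 (fun v => H (Sum.inr (Sum.inl v))) *
        ∏ f, wI (I f) (H (Sum.inr (Sum.inr f)))) := by
  unfold wm gm W
  rw [Fintype.prod_sum_type, sum_S3]
  simp only [Sum.elim_inl, Sum.elim_inr, Pi.zero_apply, zero_mul, Finset.sum_const_zero, add_zero,
    D3, AddMonoidHom.coe_mk, ZeroHom.coe_mk]
  rw [neg_add, add_div, Real.exp_add]
  ring

lemma nn3 (H : S3 V F → ℤ) : H22.nn H = H22.nn (fun v => H (Sum.inl v)) +
    (H22.nn (fun v => H (Sum.inr (Sum.inl v))) + H22.nn fun f => H (Sum.inr (Sum.inr f))) := by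
  unfold H22.nn
  rw [sum_S3]

lemma lin3 (ρ1 ρ2 : V → ℝ) (j : F → ℝ) (H : S3 V F → ℤ) :
    lin (Sum.elim ρ1 (Sum.elim ρ2 j)) H = lin ρ1 (fun v => H (Sum.inl v)) +
    (lin ρ2 (fun v => H (Sum.inr (Sum.inl v))) + lin j fun f => H (Sum.inr (Sum.inr f))) := by
  unfold lin
  rw [sum_S3]
  rfl

omit [Fintype V] [Fintype F] in
/-- product of three sums -/
lemma prod3 {a b : (V → ℤ) → ℝ} {c : (F → ℤ) → ℝ} (ha : ∀ x, 0 ≤ a x) (hb : ∀ x, 0 ≤ b x)
    (hc : ∀ x, 0 ≤ c x) (sa : Summable a) (sb : Summable b) (sc : Summable c) :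
    HasSum (fun H : S3 V F → ℤ => a (fun v => H (Sum.inl v)) *
      (b (fun v => H (Sum.inr (Sum.inl v))) * c fun f => H (Sum.inr (Sum.inr f))))
      ((∑' x, a x) * ((∑' x, b x) * ∑' x, c x)) := by
  have s1 : Summable fun x : (V → ℤ) × (F → ℤ) => b x.1 * c x.2 := sb.mul_of_nonneg sc hb hc
  have h1 := sb.hasSum.mul sc.hasSum s1
  have s2 : Summable fun x : (V → ℤ) × ((V → ℤ) × (F → ℤ)) => a x.1 * (b x.2.1 * c x.2.2) :=
    sa.mul_of_nonneg s1 ha fun x => mul_nonneg (hb _) (hc _)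
  have h2 := sa.hasSum.mul h1 s2
  exact ((eq3 V F).hasSum_iff
    (f := fun x : (V → ℤ) × ((V → ℤ) × (F → ℤ)) => a x.1 * (b x.2.1 * c x.2.2))).2 h2

lemma sum_wI_exp {b : ℝ} (hb : 0 ≤ b) (j : ℝ) :
    HasSum (fun n : ℤ => wI b n * Real.exp (j * n)) (Real.exp (b * Real.cosh j)) := by
  have h := laurent hb (z := ((Real.exp j : ℝ) : ℂ)) (by exact_mod_cast (Real.exp_pos j).ne')
  have h1 := Complex.hasSum_re h
  have e1 : ∀ n : ℤ, ((wI b n : ℂ) * ((Real.exp j : ℝ) : ℂ) ^ n).re =
      wI b n * Real.exp (j * n) := by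
    intro n
    rw [← Complex.ofReal_zpow, ← Complex.ofReal_mul, Complex.ofReal_re, Real.exp_mul,
      Real.rpow_intCast]
  have e2 : (Complex.exp ((b : ℂ) * ((((Real.exp j : ℝ) : ℂ) + ((Real.exp j : ℝ) : ℂ)⁻¹) / 2))).re =
      Real.exp (b * Real.cosh j) := by
    have : (b : ℂ) * ((((Real.exp j : ℝ) : ℂ) + ((Real.exp j : ℝ) : ℂ)⁻¹) / 2) =
        ((b * Real.cosh j : ℝ) : ℂ) := by
      rw [Real.cosh_eq, Real.exp_neg]
      push_cast
      ring
    rw [this, Complex.exp_ofReal_re]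
  simp only [e1, e2] at h1
  exact h1

lemma prod_wI_exp {I : F → ℝ} (hI : ∀ f, 0 ≤ I f) (j : F → ℝ) :
    HasSum (fun n : F → ℤ => (∏ f, wI (I f) (n f)) * Real.exp (lin j n))
      (Real.exp (∑ f, I f * Real.cosh (j f))) := by
  have h := T1.H934.prod_real (E := F) (a := fun f n => wI (I f) n * Real.exp (j f * n))
    (fun f => (sum_wI_exp (hI f) (j f)).summable.abs)
  have h2 := h.1.of_abs.hasSum
  rw [h.2] at h2
  have e : ∏ f, ∑' k : ℤ, wI (I f) k * Real.exp (j f * k) =
      Real.exp (∑ f, I f * Real.cosh (j f)) := by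
    rw [Real.exp_sum]
    exact Finset.prod_congr rfl fun f _ => (sum_wI_exp (hI f) (j f)).tsum_eq
  rw [e] at h2
  have e2 : (fun n : F → ℤ => (∏ f, wI (I f) (n f)) * Real.exp (lin j n)) =
      fun n : F → ℤ => ∏ f, (wI (I f) (n f) * Real.exp (j f * n f)) := by
    funext n
    rw [Finset.prod_mul_distrib, ← Real.exp_sum]
    rfl
  rw [e2]
  exact h2

lemma sg3 (D : (V → ℤ) →+ (E → ℤ)) {J : E → ℝ} {I : F → ℝ}
    (hI : ∀ f, 0 ≤ I f) {m1 m2 : V → ℝ} (hm1 : ∀ v, 0 < m1 v) (h2 : SG (wm D J m2)) :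
    SG (wm (D3 (F := F) D) (Sum.elim J I) (Sum.elim m1 (Sum.elim m2 0))) where
  nonneg H := by
    rw [wm3]
    exact mul_nonneg (gm_pos _ _).le (mul_nonneg (h2.nonneg _)
      (Finset.prod_nonneg fun f _ => wI_nonneg (hI f) _))
  even H := by
    rw [wm3, wm3]
    have e1 : gm m1 (fun v => (-H) (Sum.inl v)) = gm m1 fun v => H (Sum.inl v) := by
      unfold gm
      congr 3
      refine Finset.sum_congr rfl fun v _ => ?_
      simp only [Pi.neg_apply, Int.cast_neg]
      ring
    have e2 : wm D J m2 (fun v => (-H) (Sum.inr (Sum.inl v))) =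
        wm D J m2 fun v => H (Sum.inr (Sum.inl v)) :=
      h2.even fun v => H (Sum.inr (Sum.inl v))
    have e3 : ∏ f, wI (I f) ((-H) (Sum.inr (Sum.inr f))) =
        ∏ f, wI (I f) (H (Sum.inr (Sum.inr f))) :=
      Finset.prod_congr rfl fun f _ => by rw [Pi.neg_apply, wI_neg]
    rw [e1, e2, e3]
  mom t := by
    have sa := summable_gm hm1 t
    have sb := h2.mom t
    have sc : Summable fun n : F → ℤ => (∏ f, wI (I f) (n f)) * Real.exp (t * H22.nn n) := by
      have h := H871.summable_pi_prod (V := F) (g := fun f n => wI (I f) n *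
        Real.exp (t * |(n : ℝ)|)) (fun f n => mul_nonneg (wI_nonneg (hI f) n) (Real.exp_pos _).le)
        fun f => summable_wI_exp (hI f) t
      refine h.congr fun n => ?_
      rw [Finset.prod_mul_distrib, ← Real.exp_sum, ← Finset.mul_sum]
      rfl
    have h := (prod3 (a := fun h : V → ℤ => gm m1 h * Real.exp (t * H22.nn h))
      (b := fun h : V → ℤ => wm D J m2 h * Real.exp (t * H22.nn h))
      (c := fun n : F → ℤ => (∏ f, wI (I f) (n f)) * Real.exp (t * H22.nn n))
      (fun x => mul_nonneg (gm_pos _ _).le (Real.exp_pos _).le)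
      (fun x => mul_nonneg (h2.nonneg _) (Real.exp_pos _).le)
      (fun x => mul_nonneg (Finset.prod_nonneg fun f _ => wI_nonneg (hI f) _) (Real.exp_pos _).le)
      sa sb sc).summable
    refine h.congr fun H => ?_
    rw [wm3, nn3, mul_add, mul_add, Real.exp_add, Real.exp_add]
    ring

/-- the weight of the coupled system -/
noncomputable def wc (D : (V → ℤ) →+ (E → ℤ)) (J : E → ℝ) (G : (V → ℤ) →+ (F → ℤ)) (I : F → ℝ)
    (m : V → ℝ) (h : V → ℤ) : ℝ := W D J h * W G I h * gm m h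

/-- the diagonal of the tripled system -/
def dg3 (G : (V → ℤ) →+ (F → ℤ)) (h : V → ℤ) : S3 V F → ℤ := Sum.elim h (Sum.elim h (G h))

lemma Zc3 (D : (V → ℤ) →+ (E → ℤ)) (J : E → ℝ) (G : (V → ℤ) →+ (F → ℤ)) (I : F → ℝ)
    (m1 m2 : V → ℝ) (ρ1 ρ2 : V → ℝ) (j : F → ℝ) :
    Zc (wm (D3 (F := F) D) (Sum.elim J I) (Sum.elim m1 (Sum.elim m2 0))) (L3 G)
      (Sum.elim ρ1 (Sum.elim ρ2 j)) 0 =
      ∑' h, wc D J G I (m1 + m2) h * Real.exp (lin ρ1 h + lin ρ2 h + lin j (G h)) := by
  classical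
  unfold Zc MM
  have hinj : Function.Injective (dg3 (F := F) G) := by
    intro h k hk
    funext v
    exact congrFun hk (Sum.inl v)
  rw [← hinj.tsum_eq]
  · refine tsum_congr fun h => ?_
    have hL : L3 G (dg3 G h) = 0 := by
      unfold L3 dg3
      ext x
      · simp
      · simp
    unfold Ec
    rw [if_pos hL, wm3, lin3]
    unfold wc wm dg3
    simp only [Sum.elim_inl, Sum.elim_inr]
    have e1 : gm (m1 + m2) h = gm m1 h * gm m2 h := by
      unfold gm
      rw [← Real.exp_add, ← add_div, ← neg_add, ← Finset.sum_add_distrib]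
      congr 3
      exact Finset.sum_congr rfl fun v _ => by rw [Pi.add_apply]; ring
    have e2 : W G I h = ∏ f, wI (I f) (G h f) := rfl
    rw [e1, e2, add_assoc]
    ring
  · intro H hH
    rw [Function.mem_support] at hH
    have hL : L3 G H = 0 := by
      by_contra h0
      apply hH
      unfold Ec
      rw [if_neg h0, mul_zero]
    have h1 : ∀ v, H (Sum.inl v) - H (Sum.inr (Sum.inl v)) = 0 := fun v =>
      congrFun (congrArg Prod.fst hL) v
    have h2 : ∀ f, H (Sum.inr (Sum.inr f)) - G (fun v => H (Sum.inl v)) f = 0 := fun f =>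
      congrFun (congrArg Prod.snd hL) f
    refine ⟨fun v => H (Sum.inl v), ?_⟩
    unfold dg3
    funext i
    rcases i with v | v | f
    · rfl
    · have := h1 v
      simp only [Sum.elim_inr, Sum.elim_inl]
      omega
    · have := h2 f
      simp only [Sum.elim_inr]
      omega

lemma Z3 (D : (V → ℤ) →+ (E → ℤ)) {J : E → ℝ} {I : F → ℝ}
    (hI : ∀ f, 0 ≤ I f) {m1 m2 : V → ℝ} (hm1 : ∀ v, 0 < m1 v) (h2 : SG (wm D J m2))
    (ρ1 ρ2 : V → ℝ) (j : F → ℝ) :
    (MM (wm (D3 (F := F) D) (Sum.elim J I) (Sum.elim m1 (Sum.elim m2 0)))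
      fun H => Real.exp (lin (Sum.elim ρ1 (Sum.elim ρ2 j)) H)) =
      (∑' h, gm m1 h * Real.exp (lin ρ1 h)) * ((MM (wm D J m2) fun h => Real.exp (lin ρ2 h)) *
        Real.exp (∑ f, I f * Real.cosh (j f))) := by
  have s1 : SG (wm (0 : (V → ℤ) →+ (Empty → ℤ)) (fun e => e.elim) m1) :=
    sg_wm _ (fun e => e.elim) hm1
  have sa : Summable fun h => gm m1 h * Real.exp (lin ρ1 h) := by
    refine (s1.sum (Gr.exp_lin ρ1)).congr fun h => ?_
    unfold wm W
    simp
  have sb := h2.sum (Gr.exp_lin ρ2)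
  have hc := prod_wI_exp hI j
  have h := prod3 (a := fun h : V → ℤ => gm m1 h * Real.exp (lin ρ1 h))
    (b := fun h : V → ℤ => wm D J m2 h * Real.exp (lin ρ2 h))
    (c := fun n : F → ℤ => (∏ f, wI (I f) (n f)) * Real.exp (lin j n))
    (fun x => mul_nonneg (gm_pos _ _).le (Real.exp_pos _).le)
    (fun x => mul_nonneg (h2.nonneg _) (Real.exp_pos _).le)
    (fun x => mul_nonneg (Finset.prod_nonneg fun f _ => wI_nonneg (hI f) _) (Real.exp_pos _).le)
    sa sb hc.summable
  rw [hc.tsum_eq] at h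
  unfold MM
  rw [← h.tsum_eq]
  refine tsum_congr fun H => ?_
  simp only [wm3, lin3, Real.exp_add]
  ring

/-- **Three factors.** -/
theorem three (D : (V → ℤ) →+ (E → ℤ)) {J : E → ℝ} (hJ : ∀ e, 0 ≤ J e)
    (G : (V → ℤ) →+ (F → ℤ)) {I : F → ℝ} (hI : ∀ f, 0 ≤ I f) {m1 m2 : V → ℝ}
    (hm1 : ∀ v, 0 < m1 v) (hm2 : ∀ v, 0 ≤ m2 v) (h2 : SG (wm D J m2)) (ρ1 ρ2 : V → ℝ)
    (j : F → ℝ) :
    (∑' h, wc D J G I (m1 + m2) h * Real.exp (lin ρ1 h + lin ρ2 h + lin j (G h))) *
      ((∑' h, gm m1 h) * ((MM (wm D J m2) fun _ => 1) * Real.exp (∑ f, I f))) ≤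
    ((∑' h, gm m1 h * Real.exp (lin ρ1 h)) * ((MM (wm D J m2) fun h => Real.exp (lin ρ2 h)) *
        Real.exp (∑ f, I f * Real.cosh (j f)))) * ∑' h, wc D J G I (m1 + m2) h := by
  have hJ' : ∀ i : E ⊕ F, 0 ≤ (Sum.elim J I : E ⊕ F → ℝ) i := by
    rintro (e | f)
    · exact hJ e
    · exact hI f
  have hm' : ∀ i : S3 V F, 0 ≤ (Sum.elim m1 (Sum.elim m2 0) : S3 V F → ℝ) i := by
    rintro (v | v | f)
    · exact (hm1 v).le
    · exact hm2 v
    · exact le_rfl
  have hsg := sg3 (F := F) D hI hm1 h2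
  have hA : ∀ a : (V → ℤ) × (F → ℤ), a + a = 0 → a = 0 := by
    intro a ha
    have h1 := congrArg Prod.fst ha
    have h2 := congrArg Prod.snd ha
    ext x
    · have := congrFun h1 x
      simp only [Prod.fst_add, Pi.add_apply, Prod.fst_zero, Pi.zero_apply] at this ⊢
      omega
    · have := congrFun h2 x
      simp only [Prod.snd_add, Pi.add_apply, Prod.snd_zero, Pi.zero_apply] at this ⊢
      omega
  have h := cond_le hsg (gle0 (D3 (F := F) D) hJ' hm' hsg) hA (L3 G)
    (Sum.elim ρ1 (Sum.elim ρ2 j))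
  have e0 : (0 : S3 V F → ℝ) = Sum.elim (0 : V → ℝ) (Sum.elim (0 : V → ℝ) (0 : F → ℝ)) := by
    funext i
    rcases i with v | v | f <;> rfl
  have e1 : (MM (wm (D3 (F := F) D) (Sum.elim J I) (Sum.elim m1 (Sum.elim m2 0))) fun _ => 1) =
      (∑' h, gm m1 h) * ((MM (wm D J m2) fun _ => 1) * Real.exp (∑ f, I f)) := by
    have h3 := Z3 (F := F) D hI hm1 h2 0 0 0
    rw [← e0] at h3
    simp only [lin_zero, Real.exp_zero, mul_one, Pi.zero_apply, Real.cosh_zero] at h3
    exact h3
  have e2 : Zc (wm (D3 (F := F) D) (Sum.elim J I) (Sum.elim m1 (Sum.elim m2 0))) (L3 G) 0 0 =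
      ∑' h, wc D J G I (m1 + m2) h := by
    have h3 := Zc3 (F := F) D J G I m1 m2 0 0 0
    rw [← e0] at h3
    rw [h3]
    refine tsum_congr fun h => ?_
    rw [lin_zero, lin_zero, add_zero, add_zero, Real.exp_zero, mul_one]
  rw [Zc3, e1, e2, Z3 D hI hm1 h2] at h
  exact h

end three

end Vale.Agent.P159.H30
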