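import Vale.Agent.P159.H30.D1

/-!
START, part D2 (helper30): at the start of the induction `R` at all cell sources and the trace form
`D = τ² (ξ/N)² K4S / 2` are smaller than every power of `ξ/N`, at all real masses, in the integer
and in the neutral model.
-/

namespace Vale.Agent.P159.H30

open Finset Matrix MeasureTheory Filter Topology
open Vale.Agent.P159 Vale.Agent.P159.TM
open Vale.Agent.P159.TM.H104 (EM Ex Cv K3 Lg li nh Gr)
open Vale.Agent.P159.H37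
open Vale.Agent.P159.H963 (GW MF nM Neu ntr pin nwt)
open Vale.Agent.P159.TM.Spec (V)
open Vale.Agent.P159.TM.SpecC (Tor wT)
open Vale.Agent.P159.H864 (cobV cl)
open Vale.Agent.P159.H447 (K4S SN CN)

section mass

variable {N : ℕ} [NeZero N] {b τ : ℝ}

lemma smul_one_mulVec (τ : ℝ) (F : V N → ℝ) :
    (τ • (1 : Matrix (V N) (V N) ℝ)) *ᵥ F = τ • F := by
  rw [Matrix.smul_mulVec, Matrix.one_mulVec]

theorem Lg_wt_le (hb : 0 ≤ b) (hτ : 0 < τ) (J : V N → ℝ) :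
    Lg (wt N b τ) J - Lg (wt N b τ) 0 ≤ (∑ x, J x ^ 2) / (2 * τ) := by
  have h := (H963.gw_wT (N := N) hb).Lg_le (H963.mf_smul hτ) (τ⁻¹ • J)
  rw [smul_one_mulVec, smul_smul, mul_inv_cancel₀ hτ.ne', one_smul, H37.qf_smul_one] at h
  refine h.trans (le_of_eq ?_)
  have e : ∑ x, (τ⁻¹ • J) x ^ 2 = τ⁻¹ ^ 2 * ∑ x, J x ^ 2 := by
    rw [Finset.mul_sum]
    refine Finset.sum_congr rfl fun x _ => ?_
    rw [Pi.smul_apply, smul_eq_mul, mul_pow]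
  rw [e]
  field_simp

theorem Lg_nwt_le (hb : 0 ≤ b) (hτ : 0 < τ) (x₀ : V N) {J : V N → ℝ} (hJ : Neu J) :
    Lg (nwt N b τ x₀) J - Lg (nwt N b τ x₀) 0 ≤ (∑ x, J x ^ 2) / (2 * τ) := by
  have h := (H963.gw_wT (N := N) hb).Lg_nM_le_inv (H963.mf_smul hτ) x₀ hJ
  have h2 := (H963.mf_smul (N := N) hτ).qf_inv_le hτ (fun u => (H37.qf_smul_one τ u).ge) J
  have h3 : (∑ x, J x ^ 2) / τ / 2 = (∑ x, J x ^ 2) / (2 * τ) := by
    field_simp
  have h4 : Lg (nwt N b τ x₀) J - Lg (nwt N b τ x₀) 0 ≤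
    qf (τ • (1 : Matrix (V N) (V N) ℝ))⁻¹ J / 2 := h
  linarith

end mass

/-- the trace form from `R` at the rows -/
theorem K4S_le_Rs {V' I : Type*} [Fintype V'] [Fintype I] {μ : (V' → ℤ) → ℝ} (hμ : EM μ)
    (he : Ev μ) (hK : PK μ) (P : Matrix I V' ℝ) {τ σ R : ℝ} (hτ : 0 < τ) (hσ : 0 < σ)
    (h1 : ∀ i, Lg μ (√τ • P i) - Lg μ 0 ≤ 1 / 2) (h2 : ∀ i, Rs μ ((σ * √τ) • P i) ≤ R) :
    τ ^ 2 * K4S μ (Pᵀ * P) (Pᵀ * P) ≤
      (Fintype.card I : ℝ) ^ 2 * (24 * R / σ ^ 4 + 16 * σ ^ 2 + 6 * σ ^ 4) := by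
  have h3 : ∀ i, K4 μ (P i) (P i) (P i) (P i) ≤
      (24 * R / σ ^ 4 + 16 * σ ^ 2 + 6 * σ ^ 4) / τ ^ 2 := by
    intro i
    rw [le_div_iff₀ (by positivity), mul_comm]
    refine (K4_le_Rs' hμ he (P i) hτ hσ (h1 i)).trans ?_
    have h4 : 24 * Rs μ ((σ * √τ) • P i) / σ ^ 4 ≤ 24 * R / σ ^ 4 := by
      have := h2 i
      gcongr
    linarith
  have h5 := K4S_le_card hμ he hK P h3
  have h6 := mul_le_mul_of_nonneg_left h5 (sq_nonneg τ)
  refine h6.trans (le_of_eq ?_)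
  field_simp

section cells

variable {N l : ℕ} [NeZero N] [NeZero (N / l)]

lemma cobV_nonneg (c : V (N / l)) (x : V N) : 0 ≤ cobV N l c x := by
  rw [H864.cobV_apply]
  split_ifs
  · positivity
  · exact le_rfl

lemma cobV_le (c : V (N / l)) (x : V N) : cobV N l c x ≤ (l : ℝ)⁻¹ := by
  rw [H864.cobV_apply]
  split_ifs
  · exact le_rfl
  · positivity

lemma sum_cobV_sq (hl : l ∣ N) (c : V (N / l)) : ∑ x, cobV N l c x ^ 2 = 1 := by
  have h := congrFun (congrFun (H864.cobV_mul_tr hl) c) c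
  rw [Matrix.one_apply_eq, Matrix.mul_apply] at h
  rw [← h]
  refine Finset.sum_congr rfl fun x _ => ?_
  rw [Matrix.transpose_apply, pow_two]

lemma sum_cobV (hl : l ∣ N) (c : V (N / l)) : ∑ x, cobV N l c x = l := by
  have h := congrFun (H864.cobV_one hl) c
  rw [← h]
  simp [Matrix.mulVec, dotProduct]

lemma CN_apply (hl : l ∣ N) (c : V (N / l)) (x : V N) :
    CN N l c x = cobV N l c x - (l : ℝ) / (N : ℝ) ^ 2 := by
  rw [H447.CN_eq hl, Matrix.mul_apply]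
  have h1 : ∀ y : V N, (H963.Pn : Matrix (V N) (V N) ℝ) y x =
      (if y = x then 1 else 0) - 1 / (N : ℝ) ^ 2 := by
    intro y
    unfold H963.Pn
    rw [H963.ntr_apply, Matrix.one_apply, H963.cardV]
  simp only [h1, mul_sub, Finset.sum_sub_distrib, mul_ite, mul_one, mul_zero,
    Finset.sum_ite_eq', Finset.mem_univ, if_true]
  rw [← Finset.sum_mul, sum_cobV hl]
  ring

omit [NeZero (N / l)] in
lemma l_le (hl : l ∣ N) : (l : ℝ) ≤ N := by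
  exact_mod_cast Nat.le_of_dvd (NeZero.pos N) hl

omit [NeZero (N / l)] in
lemma l_pos' (hl : l ∣ N) : (0 : ℝ) < l := by
  exact_mod_cast Nat.pos_of_dvd_of_pos hl (NeZero.pos N)

omit [NeZero (N / l)] in
lemma a_le (hl : l ∣ N) : (l : ℝ) / (N : ℝ) ^ 2 ≤ (l : ℝ)⁻¹ := by
  have h1 := l_le hl
  have h2 := l_pos' hl
  have h3 : (0 : ℝ) < N := h2.trans_le h1
  rw [div_le_iff₀ (by positivity)]
  have : (l : ℝ)⁻¹ * (N : ℝ) ^ 2 = (N : ℝ) ^ 2 / l := by ring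
  rw [this, le_div_iff₀ h2]
  nlinarith

lemma abs_CN_le (hl : l ∣ N) (c : V (N / l)) (x : V N) : |CN N l c x| ≤ (l : ℝ)⁻¹ := by
  rw [CN_apply hl]
  have h1 := cobV_nonneg (N := N) (l := l) c x
  have h2 := cobV_le (N := N) (l := l) c x
  have h3 := a_le hl
  have h4 : 0 ≤ (l : ℝ) / (N : ℝ) ^ 2 := by positivity
  rw [abs_le]
  constructor <;> linarith

lemma abs_cobV_le (c : V (N / l)) (x : V N) : |cobV N l c x| ≤ (l : ℝ)⁻¹ := by
  rw [abs_of_nonneg (cobV_nonneg c x)]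
  exact cobV_le c x

lemma sum_CN (hl : l ∣ N) (c : V (N / l)) : Neu (CN N l c) := by
  unfold Neu
  simp only [CN_apply hl, Finset.sum_sub_distrib, sum_cobV hl, Finset.sum_const, Finset.card_univ,
    nsmul_eq_mul, H963.cardV]
  have : (0 : ℝ) < N := (l_pos' hl).trans_le (l_le hl)
  field_simp
  ring

lemma sum_CN_sq (hl : l ∣ N) (c : V (N / l)) : ∑ x, CN N l c x ^ 2 ≤ 1 := by
  have h1 : ∀ x, CN N l c x ^ 2 = cobV N l c x ^ 2 - 2 * ((l : ℝ) / (N : ℝ) ^ 2) * cobV N l c x +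
      ((l : ℝ) / (N : ℝ) ^ 2) ^ 2 := by
    intro x
    rw [CN_apply hl]
    ring
  simp only [h1, Finset.sum_add_distrib, Finset.sum_sub_distrib, ← Finset.mul_sum, sum_cobV hl,
    sum_cobV_sq hl, Finset.sum_const, Finset.card_univ, nsmul_eq_mul, H963.cardV]
  have h2 : (0 : ℝ) < N := (l_pos' hl).trans_le (l_le hl)
  have h3 := l_pos' hl
  have h4 : (N : ℝ) ^ 2 * ((l : ℝ) / (N : ℝ) ^ 2) ^ 2 = (l : ℝ) / (N : ℝ) ^ 2 * l := by
    field_simp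
  rw [h4]
  have h5 : 0 ≤ (l : ℝ) / (N : ℝ) ^ 2 * l := by positivity
  nlinarith

lemma cobV_cell {c : V (N / l)} {x y : V N} (h1 : x.1.val / l = y.1.val / l)
    (h2 : x.2.val / l = y.2.val / l) : cobV N l c x = cobV N l c y := by
  rw [H864.cobV_apply, H864.cobV_apply]
  have : cl (N := N) (l := l) x = cl y := by
    unfold H864.cl H864.cl1
    rw [h1, h2]
  rw [this]

lemma CN_cell (hl : l ∣ N) {c : V (N / l)} {x y : V N} (h1 : x.1.val / l = y.1.val / l)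
    (h2 : x.2.val / l = y.2.val / l) : CN N l c x = CN N l c y := by
  rw [CN_apply hl, CN_apply hl, cobV_cell h1 h2]

end cells

lemma ar1 {y w : ℝ} (hy : 8 ≤ y) (hw : 1 ≤ w) :
    24 * (1 / (w ^ 5 * y ^ 6)) / (1 / (8 * w)) ^ 4 + 16 * (1 / (8 * w)) ^ 2 +
      6 * (1 / (8 * w)) ^ 4 ≤ 3 / 2 * (1 / w) := by
  have hw0 : 0 < w := by linarith
  have hy0 : 0 < y := by linarith
  have h1 : 24 * (1 / (w ^ 5 * y ^ 6)) / (1 / (8 * w)) ^ 4 = 98304 / y ^ 6 * (1 / w) := by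
    field_simp
    norm_num
  have h2 : (98304 : ℝ) / y ^ 6 ≤ 1 := by
    rw [div_le_one (by positivity)]
    calc (98304 : ℝ) ≤ 8 ^ 6 := by norm_num
      _ ≤ y ^ 6 := by gcongr
  have h3 : 16 * (1 / (8 * w)) ^ 2 = 1 / 4 * (1 / w) * (1 / w) := by
    field_simp
    norm_num
  have h4 : 6 * (1 / (8 * w)) ^ 4 = 6 / 4096 * (1 / w) * (1 / w) ^ 3 := by
    field_simp
    norm_num
  have h5 : 0 < 1 / w := by positivity
  have h6 : 1 / w ≤ 1 := by rw [div_le_one hw0]; exact hw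
  have h7 : (1 / w) ^ 3 ≤ 1 := pow_le_one₀ h5.le h6
  rw [h1, h3, h4]
  have h8 : 98304 / y ^ 6 * (1 / w) ≤ 1 * (1 / w) := mul_le_mul_of_nonneg_right h2 h5.le
  have h9 : 1 / 4 * (1 / w) * (1 / w) ≤ 1 / 4 * (1 / w) * 1 :=
    mul_le_mul_of_nonneg_left h6 (by positivity)
  have h10 : 6 / 4096 * (1 / w) * (1 / w) ^ 3 ≤ 6 / 4096 * (1 / w) * 1 :=
    mul_le_mul_of_nonneg_left h7 (by positivity)
  linarith

lemma ar2 {y z S X : ℝ} (hy : 8 ≤ y) (hz : 1 ≤ z) (hS0 : 0 ≤ S) (hS : S ≤ z)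
    (hX : X ≤ ((y * S) ^ 2) ^ 2 * (24 * (1 / ((z ^ 5 * y ^ 2) ^ 5 * y ^ 6)) /
      (1 / (8 * (z ^ 5 * y ^ 2))) ^ 4 + 16 * (1 / (8 * (z ^ 5 * y ^ 2))) ^ 2 +
      6 * (1 / (8 * (z ^ 5 * y ^ 2))) ^ 4)) :
    1 / 2 * (1 / y) ^ 2 * X ≤ 1 / z := by
  have hy0 : 0 < y := by linarith
  have hz0 : 0 < z := by linarith
  have hw : 1 ≤ z ^ 5 * y ^ 2 := by
    have h1 : 1 ≤ z ^ 5 := one_le_pow₀ hz
    have h2 : 1 ≤ y ^ 2 := one_le_pow₀ (by linarith)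
    nlinarith
  have h1 := ar1 hy hw
  have h2 : ((y * S) ^ 2) ^ 2 ≤ y ^ 4 * z ^ 4 := by
    have : ((y * S) ^ 2) ^ 2 = y ^ 4 * S ^ 4 := by ring
    rw [this]
    gcongr
  have h3 : X ≤ y ^ 4 * z ^ 4 * (3 / 2 * (1 / (z ^ 5 * y ^ 2))) := by
    refine hX.trans (mul_le_mul h2 h1 (by positivity) (by positivity))
  have h4 : y ^ 4 * z ^ 4 * (3 / 2 * (1 / (z ^ 5 * y ^ 2))) = 3 / 2 * y ^ 2 / z := by
    field_simp
  rw [h4] at h3
  calc 1 / 2 * (1 / y) ^ 2 * X ≤ 1 / 2 * (1 / y) ^ 2 * (3 / 2 * y ^ 2 / z) := by gcongr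
    _ = 3 / 4 * (1 / z) := by
        field_simp
        norm_num
    _ ≤ 1 / z := by
        have : 0 < 1 / z := by positivity
        linarith

end Vale.Agent.P159.H30
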