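import Vale.Agent.P159.H30.Apr9
import Vale.Agent.P159.H239.FamEv

/-!
P159, module AP AT EVERY REAL MASS (helper30), part 10: with 789's `fam_apV`, block noise of
amplitude `X / CX` at every real mass `T ∈ [t_n, 4 t_n]` (`fam_apR`); amplitude `e ^ (-th / 4)`
(`ApT`, `fam_apT`, `ev_apT`).
-/

set_option linter.unusedSectionVars false

namespace Vale.Agent.P159.H30

open Finset Matrix MeasureTheory ProbabilityTheory
open Vale.Agent.P159.H37
open Vale.Agent.P159.H972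
open Vale.Agent.P159.H358 (APB)
open Vale.Agent.P159.H239 (Fam Sel)
open Vale.Agent.P159.H801 (Ev)

noncomputable section

/-- one more smallness condition in a family -/
theorem fam_es {b1 b2 pf : ℝ} {f : ℝ → ℝ → ℝ → ℝ} :
    (∀ x1 th : ℝ, 0 < x1 → x1 ≤ 1 / 20 → 0 < th → th ≤ x1 → ∃ E0 : ℝ, 0 < E0 ∧ ∀ e, 0 < e →
      e ≤ E0 → f x1 th e ≤ 1) →
    Fam b1 b2 pf fun P _ => P.x1 ≤ 1 / 20 ∧ P.th ≤ P.x1 ∧
      (∀ e, 0 < e → e ≤ P.es → f P.x1 P.th e ≤ 1) ∧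
      ∀ e, 0 < e → e ≤ P.es → ∀ n a b τ, GP P b a n e τ → 12 ≤ n := by
  intro h
  refine ⟨0, fun W _ => ⟨1, one_pos, fun ys _ _ => ⟨0, fun X0 _ => ⟨1 / 20, by norm_num,
    fun x1 hx1 hx1' => ⟨0, fun Q _ => ⟨1, one_pos, fun thp ht1 ht2 => ⟨x1, hx1,
    fun th ht3 ht4 => ⟨5, fun C0 _ hC0' => ?_⟩⟩⟩⟩⟩⟩⟩⟩
  obtain ⟨E0, hE0, g⟩ := h x1 th hx1 hx1' ht3 ht4
  refine ⟨min (1 / 2) E0, by positivity, fun P hP hes => ⟨0, fun N0 _ => ⟨?_, ?_, ?_, ?_⟩⟩⟩
  · rw [hP.hx1]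
    exact hx1'
  · rw [hP.hx1, hP.hth]
    exact ht4
  · intro e he hee
    rw [hP.hx1, hP.hth]
    exact g e he (hee.trans (hes.trans (min_le_right _ _)))
  · intro e he hee n a b τ hG
    have h1 := g_three (κ := 1) (C0 := C0) one_pos (by linarith) he
      (hee.trans (hes.trans (min_le_left _ _)))
    have h2 := hG.nE
    rw [hP.hC0] at h2
    omega

/-- **AP at every real mass `T ∈ [t_n, 4 t_n]`**, all admissible tori, all finer cells -/
theorem fam_apR {b1 b2 pf : ℝ} (hb1 : 0 < b1) (hpf : 0 < pf) : ∃ CX : ℝ, 1 ≤ CX ∧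
    ∀ b, b1 ≤ b → Fam b1 b2 pf fun P _ =>
    ∀ (a : ℝ) (n : ℕ) (e τ : ℝ), 0 < e → e ≤ P.es → GP P b a n e τ → ∀ r, P.TT n e r →
    ∀ X : ℝ, 6 ≤ X → X ^ 2 * e ^ (-(P.th / 400)) ≤ 2 ^ (r - n) → X ≤ 2 ^ P.xE e →
    ∀ s, s ≤ P.sE n e → ∀ T, tn n ≤ T → T ≤ 4 * tn n →
    APB (2 ^ r) (2 ^ s) (2 ^ (n - s)) b (X / CX) T (e ^ P.x1) := by
  obtain ⟨C, hC, h⟩ := fam_apr (b1 := b1) (b2 := b2) (pf := pf) hb1 hpf
  refine ⟨72 * C, by linarith, fun b h1 => ?_⟩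
  refine (((h b h1).and (H789.fam_apV (b1 := b1) (b2 := b2) (pf := pf) hb1 h1)).and
    (fam_es (f := fun x1 _ e => 4 * e ^ (1 / 8 - x1)) fun x1 th hx1 hx2 _ _ =>
      small_rpow (by linarith) one_pos)).imp fun P N0 _ _ _ _ hh => ?_
  obtain ⟨⟨hr', hV⟩, hx20, -, hsm, hn⟩ := hh
  intro a n e τ he hee hG r hr X hX6 hXr hXx s hs T hT1 hT2
  have hn12 := hn e he hee n a b τ hG
  have h2 := hV a n e τ he hee hn12 hG r hr X hX6 hXr hXx s hs
  have hC0 : 0 < C := by linarith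
  have hX0 : 0 < X := by linarith
  have e1 : X / (72 * C) = X / 72 / C := by rw [div_div]
  have pe : ∀ p : ℝ, 0 < e ^ p := fun p => Real.rpow_pos_of_pos he p
  have h3 := hr' a n e τ he hee (by omega) hG r hr s hs (X / 72) (X / 72 / C)
    (2 * e ^ (1 / 8 : ℝ)) (by positivity)
    (by
      refine le_trans ?_ hXx
      rw [div_div]
      exact div_le_self hX0.le (by linarith))
    (by rw [mul_div_cancel₀ _ hC0.ne']) (by have := pe (1 / 8); linarith) h2 T hT1 hT2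
  rw [e1]
  intro j
  refine le_trans (measureReal_mono ?_ (measure_ne_top _ _)) (h3 j)
  intro g hg
  simp only [Set.mem_ofPred_eq] at hg ⊢
  refine lt_of_le_of_lt ?_ hg
  have h4 := hsm e he hee
  have h5 : 4 * e ^ (1 / 8 : ℝ) ≤ e ^ P.x1 := by
    have h6 : 4 * e ^ (1 / 8 : ℝ) = (4 * e ^ (1 / 8 - P.x1)) * e ^ P.x1 := by
      rw [mul_assoc, ← Real.rpow_add he]
      congr 2
      ring
    rw [h6]
    have := mul_le_mul_of_nonneg_right h4 (pe P.x1).le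
    linarith
  linarith

/-- block noise of amplitude `e ^ (-th / 4)` at every real mass, level `e ^ x1` -/
def ApT (P : Par) (b : ℝ) : Prop :=
  ∀ (n : ℕ) (e τ a : ℝ), 0 < e → e ≤ P.es → GP P b a n e τ → ∀ r, P.TT n e r →
    ∀ s, s ≤ P.sE n e → ∀ T, tn n ≤ T → T ≤ 4 * tn n →
    APB (2 ^ r) (2 ^ s) (2 ^ (n - s)) b (e ^ (-(P.th / 4))) T (e ^ P.x1)

theorem fam_apT {b1 b2 pf : ℝ} (hb1 : 0 < b1) (hpf : 0 < pf) {b : ℝ} (h1 : b1 ≤ b) :
    Fam b1 b2 pf fun P _ => ApT P b := by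
  obtain ⟨C, hC, h⟩ := fam_apR (b1 := b1) (b2 := b2) (pf := pf) hb1 hpf
  refine (((h b h1).and
    (fam_es (f := fun _ th e => (6 * C) ^ 2 * e ^ (th / 4)) fun x1 th _ _ ht _ =>
      small_rpow (by positivity) one_pos)).and
    (fam_es (f := fun x1 th e => 6 * C * e ^ (x1 - th / 4)) fun x1 th hx _ ht hth =>
      small_rpow (by linarith) one_pos)).imp fun P N0 _ _ _ _ hh => ?_
  obtain ⟨⟨hR, -, -, hsm, -⟩, -, -, hsm2, -⟩ := hh
  intro n e τ a he hee hG r hr s hs T hT1 hT2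
  have he1 : e ≤ 1 := hee.trans (P.es1.trans (by norm_num))
  have pe : ∀ p : ℝ, 0 < e ^ p := fun p => Real.rpow_pos_of_pos he p
  have hth := P.th0
  have hx1 := P.x10
  have G1 := hsm e he hee
  have G2 := hsm2 e he hee
  have k1 : 1 ≤ e ^ (-(P.th / 4)) := by
    rw [← Real.rpow_zero e]
    exact Real.rpow_le_rpow_of_exponent_ge he he1 (by linarith)
  have h2 := hR a n e τ he hee hG r hr (6 * C * e ^ (-(P.th / 4))) (by nlinarith) ?_ ?_ s hs T hT1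
    hT2
  · intro j
    have h3 := h2 j
    refine le_trans (le_of_eq ?_) (H586.fern_Rs (H789.em_wt (hb1.le.trans h1)
      ((H316.tn_pos' n).trans_le hT1)) H789.ev_wt (H789.pk_wt (hb1.le.trans h1)
      ((H316.tn_pos' n).trans_le hT1)) _ h3 (a := 6) (by norm_num)) |>.trans ?_
    · congr 1
      ext g
      simp only [Set.mem_ofPred_eq, Matrix.smul_mulVec, smul_smul]
      have e2 : 6⁻¹ * (6 * C * e ^ (-(P.th / 4)) / C * √T) = e ^ (-(P.th / 4)) * √T := by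
        field_simp
      rw [e2]
    · exact exp36.trans (by norm_num)
  · have e3 : (6 * C * e ^ (-(P.th / 4))) ^ 2 * e ^ (-(P.th / 400)) =
        (6 * C) ^ 2 * e ^ (-(2 * (P.th / 4)) + -(P.th / 400)) := by
      rw [mul_pow, sq_rpow he, mul_assoc, ← Real.rpow_add he]
    rw [e3]
    have h4 : e ^ (-(2 * (P.th / 4)) + -(P.th / 400)) ≤ e ^ (P.th / 4) * e ^ (-P.th) := by
      rw [← Real.rpow_add he]
      exact Real.rpow_le_rpow_of_exponent_ge he he1 (by linarith)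
    have h5 : e ^ (-P.th) ≤ (2 : ℝ) ^ (r - n) := by
      refine (lg_lo (c := P.th) he).trans ?_
      refine pow_le_pow_right₀ (by norm_num) ?_
      have := hr.1
      unfold Par.kE at this
      omega
    calc (6 * C) ^ 2 * e ^ (-(2 * (P.th / 4)) + -(P.th / 400)) ≤
          (6 * C) ^ 2 * (e ^ (P.th / 4) * e ^ (-P.th)) :=
          mul_le_mul_of_nonneg_left h4 (sq_nonneg _)
      _ = ((6 * C) ^ 2 * e ^ (P.th / 4)) * e ^ (-P.th) := by ring
      _ ≤ 1 * e ^ (-P.th) := mul_le_mul_of_nonneg_right G1 (pe _).le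
      _ ≤ _ := by rw [one_mul]; exact h5
  · have h5 : e ^ (-P.x1) ≤ (2 : ℝ) ^ P.xE e := lg_lo (c := P.x1) he
    refine le_trans ?_ h5
    have e3 : 6 * C * e ^ (-(P.th / 4)) = (6 * C * e ^ (P.x1 - P.th / 4)) * e ^ (-P.x1) := by
      rw [mul_assoc (6 * C), ← Real.rpow_add he]
      congr 2
      ring
    rw [e3]
    have := mul_le_mul_of_nonneg_right G2 (pe (-P.x1)).le
    linarith

theorem ev_apT {b1 b2 pf : ℝ} (hb1 : 0 < b1) (hpf : 0 < pf) {b : ℝ} (h1 : b1 ≤ b) (Q : ℕ) :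
    Ev b1 b2 pf Q fun P _ => ApT P b :=
  ((fam_apT (b2 := b2) hb1 hpf h1).ev Q).mono fun P c1 _ h => (h.exists).choose_spec

end

end Vale.Agent.P159.H30
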