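import Vale.Agent.P159.H30.Cell

/-!
SANDWICH, part 9 (helper30): the upper half of the START, (ST6): for `t = κ² / N²` and every `F`
bounded by `Λ` and constant on `n0²` cells, `log Z (t F) - log Z (0)` is at most the Gaussian value
with the stiffness `helicity b`, up to `η`, on every large torus.
-/

open MeasureTheory Filter Topology

namespace Vale.Agent.P159.H30

open Vale.Agent.P159 Vale.Agent.P159.H353 Vale.Agent.P159.R2.H254 Vale.Agent.P159.T1.H934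
open Vale.Agent.P159.TM Vale.Agent.P159.TM.H22
open Vale.Agent.P159.TM.H859 (dirE)
open Vale.Agent.P159.TM.H104 (EM Lg li)

lemma per_ctr_neg {N : ℕ} {g : ℝ → ℝ} (hg : ∀ x, g (x + 1) = g x) (i : ZMod (N + 1)) :
    g (ctr N (i - 1 : ZMod (N + 1))) = g (ctr N i - ((N : ℝ) + 1)⁻¹) := by
  have h := per_ctr (N := N) (g := fun s => g (s - ((N : ℝ) + 1)⁻¹)) (fun x => by
    have e : x + 1 - ((N : ℝ) + 1)⁻¹ = (x - ((N : ℝ) + 1)⁻¹) + 1 := by ring
    rw [e, hg]) (i - 1)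
  beta_reduce at h
  rw [sub_add_cancel i (1 : ZMod (N + 1)), add_sub_cancel_right] at h
  exact h.symm

lemma lat_xn {w : ℝ → ℝ → ℝ} (hp : Per w) (N : ℕ) (x : ZMod (N + 1) × ZMod (N + 1)) :
    lat N w (x - (1, 0)) = w (ctr N x.1 - ((N : ℝ) + 1)⁻¹) (ctr N x.2) := by
  unfold lat
  have e : x - (1, 0) = (x.1 - 1, x.2) := by
    rw [Prod.ext_iff]
    constructor
    · rfl
    · show x.2 - 0 = x.2
      rw [sub_zero]
  rw [e]
  exact per_ctr_neg (g := fun s => w s (ctr N x.2)) (fun s => hp.one s _) x.1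

lemma lat_yn {w : ℝ → ℝ → ℝ} (hp : Per w) (N : ℕ) (x : ZMod (N + 1) × ZMod (N + 1)) :
    lat N w (x - (0, 1)) = w (ctr N x.1) (ctr N x.2 - ((N : ℝ) + 1)⁻¹) := by
  unfold lat
  have e : x - (0, 1) = (x.1, x.2 - 1) := by
    rw [Prod.ext_iff]
    constructor
    · show x.1 - 0 = x.1
      rw [sub_zero]
    · rfl
  rw [e]
  exact per_ctr_neg (g := fun s => w (ctr N x.1) s) (fun s => hp.two _ s) x.2

/-- **the approximation** -/
theorem lemA {n0 : ℕ} (hn : 0 < n0) {κ Y : ℝ} (hκ : 0 < κ) (hY : 0 < Y) (f : ℕ → ℕ → ℝ) {ρ : ℝ}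
    (hρ : 0 < ρ) : ∃ w : ℝ → ℝ → ℝ, (ContDiff ℝ 2 fun p : ℝ × ℝ => w p.1 p.2) ∧ Per w ∧
      ∀ᶠ N : ℕ in atTop, n0 ∣ N + 1 → ∀ F : ZMod (N + 1) × ZMod (N + 1) → ℝ,
        (∀ x, F x = f (x.1.val / ((N + 1) / n0)) (x.2.val / ((N + 1) / n0))) →
        dl (tk κ N) Y F (lat N w) ≤ ρ := by
  obtain ⟨P, ⟨w, cw, p1, p2, lw⟩, lP⟩ := ap_cell hn hκ hY (fun i j => κ ^ 2 * f i j)
    (κ ^ 2 * ρ / 4) (by positivity)
  set ε := κ * Real.sqrt ρ / 2 with hε
  have hε0 : 0 < ε := by positivity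
  have hε2 : ε ^ 2 = κ ^ 2 * ρ / 4 := by
    rw [hε, div_pow, mul_pow, Real.sq_sqrt hρ.le]
    norm_num
  have hre : Per fun x y => (w x y).re := ⟨fun x y => by rw [p1], fun x y => by rw [p2]⟩
  refine ⟨fun x y => (w x y).re, Complex.reCLM.contDiff.comp cw, hre, ?_⟩
  filter_upwards [lP, lw ε hε0] with N h1 h2 hd F hF
  have hN0 : (0 : ℝ) < (N : ℝ) + 1 := by positivity
  set u : ℝ → ℝ → ℝ := fun x y => (w x y).re with hu
  have ht := tk_pos hκ N
  have key : ∀ x : ZMod (N + 1) × ZMod (N + 1), (tk κ N * F x - JW (tk κ N) Y (lat N u) x) ^ 2 ≤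
      (((N : ℝ) + 1) ^ 2)⁻¹ ^ 2 * (2 * ‖((κ ^ 2 * f (x.1.val / ((N + 1) / n0))
        (x.2.val / ((N + 1) / n0)) : ℝ) : ℂ) - P (ctr N x.1) (ctr N x.2)‖ ^ 2 + 2 * ε ^ 2) := by
    intro x
    have e1 : tk κ N * F x - JW (tk κ N) Y (lat N u) x = (((N : ℝ) + 1) ^ 2)⁻¹ *
        (((κ ^ 2 * f (x.1.val / ((N + 1) / n0)) (x.2.val / ((N + 1) / n0)) : ℝ) : ℂ) -
          PN κ Y w N (ctr N x.1) (ctr N x.2)).re := by
      have e2 : (PN κ Y w N (ctr N x.1) (ctr N x.2)).re = κ ^ 2 * lat N u x +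
          ((N : ℝ) + 1) ^ 2 * Y⁻¹ * nL (lat N u) x := by
        unfold PN nL
        rw [lat_x hre, lat_y hre, lat_xn hre, lat_yn hre]
        have c1 : ((κ : ℂ) ^ 2) = ((κ ^ 2 : ℝ) : ℂ) := by push_cast; rfl
        have c2 : (((N : ℂ) + 1) ^ 2 * (Y : ℂ)⁻¹) = ((((N : ℝ) + 1) ^ 2 * Y⁻¹ : ℝ) : ℂ) := by
          push_cast
          rfl
        rw [c1, c2, Complex.add_re, Complex.re_ofReal_mul, Complex.re_ofReal_mul]
        simp only [Complex.sub_re]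
        have c3 : ∀ z : ℂ, (4 * z).re = 4 * z.re := fun z => by
          simp
        rw [c3]
        rfl
      rw [Complex.sub_re, Complex.ofReal_re, e2, hF x]
      unfold JW tk
      field_simp
    rw [e1, mul_pow]
    refine mul_le_mul_of_nonneg_left ?_ (by positivity)
    have g1 := h2 (ctr N x.1) (ctr N x.2)
    set z : ℂ := ((κ ^ 2 * f (x.1.val / ((N + 1) / n0)) (x.2.val / ((N + 1) / n0)) : ℝ) : ℂ)
    have g2 : |(z - PN κ Y w N (ctr N x.1) (ctr N x.2)).re| ≤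
        ‖z - P (ctr N x.1) (ctr N x.2)‖ + ε := by
      refine (Complex.abs_re_le_norm _).trans ?_
      have : z - PN κ Y w N (ctr N x.1) (ctr N x.2) = (z - P (ctr N x.1) (ctr N x.2)) -
        (PN κ Y w N (ctr N x.1) (ctr N x.2) - P (ctr N x.1) (ctr N x.2)) := by ring
      rw [this]
      exact (norm_sub_le _ _).trans (by linarith)
    rw [← sq_abs]
    refine (pow_le_pow_left₀ (abs_nonneg _) g2 2).trans ?_
    nlinarith [sq_nonneg (‖z - P (ctr N x.1) (ctr N x.2)‖ - ε)]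
  have h3 := h1 hd
  unfold dl
  rw [div_le_iff₀ ht]
  refine (Finset.sum_le_sum fun x _ => key x).trans ?_
  rw [← Finset.mul_sum, Finset.sum_add_distrib, ← Finset.mul_sum, Finset.sum_const,
    Finset.card_univ, Fintype.card_prod, ZMod.card, nsmul_eq_mul, hε2]
  have h4 : 2 * ∑ x : ZMod (N + 1) × ZMod (N + 1), ‖((κ ^ 2 * f (x.1.val / ((N + 1) / n0))
        (x.2.val / ((N + 1) / n0)) : ℝ) : ℂ) - P (ctr N x.1) (ctr N x.2)‖ ^ 2 +
      (((N + 1) * (N + 1) : ℕ) : ℝ) * (2 * (κ ^ 2 * ρ / 4)) ≤ κ ^ 2 * ρ * ((N : ℝ) + 1) ^ 2 := by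
    push_cast at h3 ⊢
    linarith
  calc _ ≤ (((N : ℝ) + 1) ^ 2)⁻¹ ^ 2 * (κ ^ 2 * ρ * ((N : ℝ) + 1) ^ 2) :=
        mul_le_mul_of_nonneg_left h4 (by positivity)
    _ = ρ * tk κ N := by
        unfold tk
        field_simp

/-- change of the profile -/
lemma dl_le {N : ℕ} [NeZero N] {t Y : ℝ} (ht : 0 < t) (F F' W : ZMod N × ZMod N → ℝ) :
    dl t Y F W ≤ 2 * dl t Y F' W + 2 * (t * ∑ x, (F x - F' x) ^ 2) := by
  unfold dl
  rw [div_le_iff₀ ht]
  have e : (2 * ((∑ x, (t * F' x - JW t Y W x) ^ 2) / t) + 2 * (t * ∑ x, (F x - F' x) ^ 2)) * t =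
      ∑ x, (2 * (t * F' x - JW t Y W x) ^ 2 + 2 * (t * (F x - F' x)) ^ 2) := by
    rw [Finset.sum_add_distrib, ← Finset.mul_sum, ← Finset.mul_sum]
    have : ∀ x, (t * (F x - F' x)) ^ 2 = t ^ 2 * (F x - F' x) ^ 2 := fun x => by ring
    simp only [this]
    rw [← Finset.mul_sum]
    field_simp
  rw [e]
  refine Finset.sum_le_sum fun x _ => ?_
  nlinarith [sq_nonneg ((t * F' x - JW t Y W x) - t * (F x - F' x))]

/-- values on the cells -/
noncomputable def xt {n0 : ℕ} (f : Fin n0 × Fin n0 → ℝ) (i j : ℕ) : ℝ :=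
  if h : i < n0 ∧ j < n0 then f (⟨i, h.1⟩, ⟨j, h.2⟩) else 0

lemma xt_le {n0 : ℕ} {f : Fin n0 × Fin n0 → ℝ} {Λ : ℝ} (hΛ : 0 ≤ Λ) (hf : ∀ c, |f c| ≤ Λ)
    (i j : ℕ) : |xt f i j| ≤ Λ := by
  unfold xt
  split_ifs
  · exact hf _
  · rwa [abs_zero]

lemma xt_dist {n0 : ℕ} {f g : Fin n0 × Fin n0 → ℝ} {r : ℝ} (hr : 0 ≤ r) (h : dist f g ≤ r)
    (i j : ℕ) : |xt f i j - xt g i j| ≤ r := by
  unfold xt
  split_ifs with hc
  · have := (dist_le_pi_dist f g (⟨i, hc.1⟩, ⟨j, hc.2⟩)).trans h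
    rwa [Real.dist_eq] at this
  · rwa [sub_self, abs_zero]

lemma tk_sum {κ : ℝ} (N : ℕ) {F : ZMod (N + 1) × ZMod (N + 1) → ℝ} {Λ : ℝ}
    (hF : ∀ x, |F x| ≤ Λ) : tk κ N * ∑ x, F x ^ 2 ≤ κ ^ 2 * Λ ^ 2 := by
  have h1 : ∑ x, F x ^ 2 ≤ ∑ _x : ZMod (N + 1) × ZMod (N + 1), Λ ^ 2 := by
    refine Finset.sum_le_sum fun x _ => ?_
    rw [← sq_abs]
    exact pow_le_pow_left₀ (abs_nonneg _) (hF x) 2
  rw [Finset.sum_const, Finset.card_univ, Fintype.card_prod, ZMod.card, nsmul_eq_mul] at h1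
  have ht : 0 ≤ tk κ N := by
    unfold tk
    positivity
  refine (mul_le_mul_of_nonneg_left h1 ht).trans (le_of_eq ?_)
  unfold tk
  have : ((N : ℝ) + 1) ≠ 0 := by positivity
  push_cast
  field_simp

/-- **(ST6) on the torus of side `N + 1`** -/
theorem sand0 {b κ : ℝ} (hb : 0 < b) (hY : 0 < helicity b) (hκ : 0 < κ) {n0 : ℕ} (hn : 0 < n0)
    {Λ : ℝ} (hΛ : 0 ≤ Λ) {η : ℝ} (hη : 0 < η) :
    ∀ᶠ N : ℕ in atTop, n0 ∣ N + 1 → ∀ f : Fin n0 × Fin n0 → ℝ, (∀ c, |f c| ≤ Λ) →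
      ∀ F : ZMod (N + 1) × ZMod (N + 1) → ℝ,
        (∀ x, F x = xt f (x.1.val / ((N + 1) / n0)) (x.2.val / ((N + 1) / n0))) →
        ∃ W : ZMod (N + 1) × ZMod (N + 1) → ℝ,
          Lg (H37.wt (N + 1) b (tk κ N)) (tk κ N • F) - Lg (H37.wt (N + 1) b (tk κ N)) 0 ≤
            tk κ N * ∑ x, F x * W x - QW (tk κ N) (helicity b) W / 2 + η := by
  set Y := helicity b with hYd
  set Q1 : ℝ := 2 * (κ ^ 2 * Λ ^ 2) + 2 with hQ1
  have hQ1p : 0 < Q1 := by positivity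
  set p : ℝ := 1 + η / (2 * Q1) with hp
  have hp1 : 1 < p := by
    have : 0 < η / (2 * Q1) := by positivity
    linarith
  set D : ℝ := min 1 (min (η ^ 2 / (16 * Q1)) (η * (p - 1) / (2 * p))) with hD
  have hD0 : 0 < D := by
    refine lt_min one_pos (lt_min (by positivity) ?_)
    exact div_pos (mul_pos hη (by linarith)) (by linarith)
  have hD1 : D ≤ 1 := min_le_left _ _
  have hD2 : D ≤ η ^ 2 / (16 * Q1) := (min_le_right _ _).trans (min_le_left _ _)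
  have hD3 : D ≤ η * (p - 1) / (2 * p) := (min_le_right _ _).trans (min_le_right _ _)
  set r : ℝ := Real.sqrt (D / 4) / κ with hr
  have hr0 : 0 < r := by positivity
  have hr2 : κ ^ 2 * r ^ 2 = D / 4 := by
    rw [hr, div_pow, Real.sq_sqrt (by positivity)]
    field_simp
  have hK : IsCompact (Set.pi Set.univ fun _ : Fin n0 × Fin n0 => Set.Icc (-Λ) Λ) :=
    isCompact_univ_pi fun _ => isCompact_Icc
  have main : (fun s : Set (Fin n0 × Fin n0 → ℝ) => ∀ᶠ N : ℕ in atTop, n0 ∣ N + 1 → ∀ f ∈ s,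
      (∀ c, |f c| ≤ Λ) → ∀ F : ZMod (N + 1) × ZMod (N + 1) → ℝ,
        (∀ x, F x = xt f (x.1.val / ((N + 1) / n0)) (x.2.val / ((N + 1) / n0))) →
        ∃ W : ZMod (N + 1) × ZMod (N + 1) → ℝ,
          Lg (H37.wt (N + 1) b (tk κ N)) (tk κ N • F) - Lg (H37.wt (N + 1) b (tk κ N)) 0 ≤
            tk κ N * ∑ x, F x * W x - QW (tk κ N) Y W / 2 + η)
      (Set.pi Set.univ fun _ : Fin n0 × Fin n0 => Set.Icc (-Λ) Λ) := by
    refine hK.induction_on ?_ ?_ ?_ ?_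
    · exact Eventually.of_forall fun N _ f hf => absurd hf (Set.notMem_empty f)
    · intro s s' hss h
      filter_upwards [h] with N h1 hd f hf
      exact h1 hd f (hss hf)
    · intro s s' h h'
      filter_upwards [h, h'] with N h1 h1' hd f hf
      rcases hf with hf | hf
      · exact h1 hd f hf
      · exact h1' hd f hf
    · intro f0 hf0
      obtain ⟨w, cw, hper, lw⟩ := lemA hn hκ hY (xt f0) (ρ := D / 4) (by linarith)
      refine ⟨Metric.closedBall f0 r, mem_nhdsWithin_of_mem_nhds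
        (Metric.closedBall_mem_nhds f0 hr0), ?_⟩
      filter_upwards [lw, M2 cw hper hb hY hκ hp1 (η := η / 4) (by linarith)] with N h1 h2 hd f hf
        hfΛ F hF
      refine ⟨lat N w, ?_⟩
      have ht := tk_pos hκ N
      have h3 := h2 F
      set t := tk κ N with htd
      set F0 : ZMod (N + 1) × ZMod (N + 1) → ℝ := fun x =>
        xt f0 (x.1.val / ((N + 1) / n0)) (x.2.val / ((N + 1) / n0)) with hF0
      have h4 := h1 hd F0 fun _ => rfl
      have h5 := dl_le ht (Y := Y) F F0 (lat N w)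
      have h6 : t * ∑ x, (F x - F0 x) ^ 2 ≤ κ ^ 2 * r ^ 2 :=
        tk_sum N fun x => by
          rw [hF x]
          exact xt_dist hr0.le (Metric.mem_closedBall.1 hf) _ _
      have h7 : dl t Y F (lat N w) ≤ D := by linarith
      have h8 : t * ∑ x, F x ^ 2 ≤ κ ^ 2 * Λ ^ 2 :=
        tk_sum N fun x => by
          rw [hF x]
          exact xt_le hΛ hfΛ _ _
      have h9 := QW_le ht hY F (lat N w)
      have hdl0 : 0 ≤ dl t Y F (lat N w) := div_nonneg (Finset.sum_nonneg fun _ _ => sq_nonneg _)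
        ht.le
      have h10 : QW t Y (lat N w) ≤ Q1 := by
        rw [hQ1]
        linarith
      have hQ0 : 0 ≤ QW t Y (lat N w) := by
        unfold QW
        have i1 := mul_nonneg (inv_pos.2 hY).le (dirE_nonneg (lat N w))
        have i2 := mul_nonneg ht.le
          (Finset.sum_nonneg fun (x : ZMod (N + 1) × ZMod (N + 1)) (_ : x ∈ Finset.univ) =>
            sq_nonneg (lat N w x))
        linarith
      set Q := QW t Y (lat N w) with hQ
      set d := dl t Y F (lat N w) with hdd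
      have k1 : Real.sqrt (d * Q) ≤ η / 4 := by
        rw [Real.sqrt_le_left (by linarith)]
        calc d * Q ≤ D * Q1 := mul_le_mul h7 h10 hQ0 hD0.le
          _ ≤ η ^ 2 / (16 * Q1) * Q1 := mul_le_mul_of_nonneg_right hD2 hQ1p.le
          _ = (η / 4) ^ 2 := by
            field_simp
            norm_num
      have k2 : (p - 1) / 2 * Q ≤ η / 4 := by
        have e1 : p - 1 = η / (2 * Q1) := by rw [hp]; ring
        calc (p - 1) / 2 * Q ≤ (p - 1) / 2 * Q1 :=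
              mul_le_mul_of_nonneg_left h10 (by linarith)
          _ = η / 4 := by
            rw [e1]
            field_simp
            norm_num
      have k3 : p / (p - 1) / 2 * d ≤ η / 4 := by
        have e1 : 0 < p - 1 := by linarith
        have e2 : 0 < p := by linarith
        calc p / (p - 1) / 2 * d ≤ p / (p - 1) / 2 * (η * (p - 1) / (2 * p)) :=
              mul_le_mul_of_nonneg_left (h7.trans hD3) (by positivity)
          _ = η / 4 := by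
            field_simp
            norm_num
      linarith
  filter_upwards [main] with N h hd f hf
  refine h hd f ?_ hf
  intro c _
  exact abs_le.1 (hf c)

/-- **(ST6)**: the upper half of the START -/
theorem sand_up {b κ : ℝ} (hb : 0 < b) (hY : 0 < helicity b) (hκ : 0 < κ) {n0 : ℕ} (hn : 0 < n0)
    (Λ : ℝ) {η : ℝ} (hη : 0 < η) : ∃ X : ℕ, ∀ l : ℕ, X ≤ l → ∀ (N : ℕ) [NeZero N], N = n0 * l →
      ∀ t : ℝ, t = κ ^ 2 / (N : ℝ) ^ 2 → ∀ F : SpecC.Tor N → ℝ, (∀ x, |F x| ≤ Λ) →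
        (∀ x y : SpecC.Tor N, x.1.val / l = y.1.val / l → x.2.val / l = y.2.val / l → F x = F y) →
        ∃ W : SpecC.Tor N → ℝ, Lg (H37.wt N b t) (t • F) - Lg (H37.wt N b t) 0 ≤
          t * ∑ x, F x * W x - (t * ∑ x, W x ^ 2 + 1 / helicity b * dirE W) / 2 + η := by
  rcases lt_or_ge Λ 0 with hΛ | hΛ
  · refine ⟨0, fun l _ N _ _ t _ F hF => ?_⟩
    exact absurd ((abs_nonneg _).trans (hF 0)) (not_le.2 hΛ)
  obtain ⟨X, hX⟩ := eventually_atTop.1 (sand0 hb hY hκ hn hΛ hη)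
  refine ⟨X + 1, fun l hl N hN0 hN t ht F hF hc => ?_⟩
  obtain ⟨M, rfl⟩ : ∃ M, N = M + 1 := ⟨N - 1, by have := hN0.out; omega⟩
  have hl0 : 0 < l := by omega
  have hdiv : (M + 1) / n0 = l := by
    rw [hN]
    exact Nat.mul_div_cancel_left l hn
  have hMX : X ≤ M := by
    have : l ≤ n0 * l := Nat.le_mul_of_pos_left l hn
    omega
  have htk : t = tk κ M := by
    rw [ht]
    unfold tk
    push_cast
    rfl
  have hbd : ∀ i : Fin n0, (i : ℕ) * l < M + 1 := by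
    intro i
    rw [hN]
    exact Nat.mul_lt_mul_of_pos_right i.2 hl0
  set f : Fin n0 × Fin n0 → ℝ := fun c =>
    F (((c.1 : ℕ) * l : ℕ), ((c.2 : ℕ) * l : ℕ)) with hf
  have h := hX M hMX ⟨l, hN⟩ f (fun c => hF _) F (fun x => ?_)
  · obtain ⟨W, hW⟩ := h
    refine ⟨W, ?_⟩
    rw [htk]
    refine hW.trans (le_of_eq ?_)
    unfold QW
    rw [one_div]
  · have v1 : x.1.val / l < n0 := by
      rw [Nat.div_lt_iff_lt_mul hl0, ← hN]
      exact ZMod.val_lt x.1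
    have v2 : x.2.val / l < n0 := by
      rw [Nat.div_lt_iff_lt_mul hl0, ← hN]
      exact ZMod.val_lt x.2
    rw [hdiv]
    unfold xt
    rw [dif_pos ⟨v1, v2⟩, hf]
    refine hc _ _ ?_ ?_
    · show x.1.val / l = (((x.1.val / l * l : ℕ) : ZMod (M + 1))).val / l
      rw [ZMod.val_natCast, Nat.mod_eq_of_lt (hbd ⟨_, v1⟩), Nat.mul_div_cancel _ hl0]
    · show x.2.val / l = (((x.2.val / l * l : ℕ) : ZMod (M + 1))).val / l
      rw [ZMod.val_natCast, Nat.mod_eq_of_lt (hbd ⟨_, v2⟩), Nat.mul_div_cancel _ hl0]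

/-- **`R ≤ η + e κ² Λ² / 2`**, given the form window with error `e` -/
theorem sand_R {b κ : ℝ} (hb : 0 < b) (hY : 0 < helicity b) (hκ : 0 < κ) {n0 : ℕ} (hn : 0 < n0)
    (Λ : ℝ) {η : ℝ} (hη : 0 < η) : ∃ X : ℕ, ∀ l : ℕ, X ≤ l → ∀ (N : ℕ) [NeZero N], N = n0 * l →
      ∀ t : ℝ, t = κ ^ 2 / (N : ℝ) ^ 2 → ∀ e : ℝ, 0 ≤ e →
        (∀ u v : SpecC.Tor N → ℝ, t * ∑ x, u x ^ 2 - t ^ 2 * H37.qf (H37.Gm (H37.wt N b t)) u ≤
          e * t * ∑ x, u x ^ 2 + t * ∑ x, (u x - v x) ^ 2 + 1 / helicity b * dirE v) →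
        ∀ F : SpecC.Tor N → ℝ, (∀ x, |F x| ≤ Λ) →
        (∀ x y : SpecC.Tor N, x.1.val / l = y.1.val / l → x.2.val / l = y.2.val / l → F x = F y) →
        H37.Rs (H37.wt N b t) (t • F) ≤ η + e * (κ ^ 2 * Λ ^ 2) / 2 := by
  obtain ⟨X, hX⟩ := sand_up hb hY hκ hn Λ hη
  refine ⟨X, fun l hl N hN0 hN t ht e he hq F hF hc => ?_⟩
  obtain ⟨W, hW⟩ := hX l hl N hN t ht F hF hc
  have h1 := hq F W
  have hqf : H37.qf (H37.Gm (H37.wt N b t)) (t • F) =
      t ^ 2 * H37.qf (H37.Gm (H37.wt N b t)) F := by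
    unfold H37.qf
    rw [Finset.mul_sum]
    refine Finset.sum_congr rfl fun x _ => ?_
    rw [Finset.mul_sum]
    refine Finset.sum_congr rfl fun y _ => ?_
    simp only [Pi.smul_apply, smul_eq_mul]
    ring
  have hexp : ∑ x, (F x - W x) ^ 2 = ∑ x, F x ^ 2 - 2 * ∑ x, F x * W x + ∑ x, W x ^ 2 := by
    rw [Finset.mul_sum, ← Finset.sum_sub_distrib, ← Finset.sum_add_distrib]
    exact Finset.sum_congr rfl fun x _ => by ring
  have hsum : t * ∑ x, F x ^ 2 ≤ κ ^ 2 * Λ ^ 2 := by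
    obtain ⟨M, rfl⟩ : ∃ M, N = M + 1 := ⟨N - 1, by have := hN0.out; omega⟩
    have htk : t = tk κ M := by
      rw [ht]
      unfold tk
      push_cast
      rfl
    rw [htk]
    exact tk_sum M hF
  unfold H37.Rs
  rw [hqf]
  rw [hexp] at h1
  have h2 := mul_le_mul_of_nonneg_left hsum he
  have h3 : t * (∑ x, F x ^ 2 - 2 * ∑ x, F x * W x + ∑ x, W x ^ 2) =
      t * ∑ x, F x ^ 2 - 2 * (t * ∑ x, F x * W x) + t * ∑ x, W x ^ 2 := by ring
  rw [h3] at h1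
  have h4 : e * t * ∑ x, F x ^ 2 = e * (t * ∑ x, F x ^ 2) := by ring
  rw [h4] at h1
  linarith

end Vale.Agent.P159.H30
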