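import Vale.Agent.P159.H30.RF0
import Vale.Agent.P159.H972.Good

/-!
P159, helper30, module RF part 1 (row 4479 (RF1) of helper889): **AP at finer cells**. The a priori
bound `AP b n r s X τ δ` (blocks of side `2 ^ n`, cells of side `2 ^ s`) gives the same bound for
all finer cells `2 ^ s'`, `s' ≤ s`, at amplitude `X / 12`, as soon as
`C (τ N²) X⁶ (2 ^ s √τ) ^ c ≤ δ`.
-/

namespace Vale.Agent.P159.H30

open Finset Matrix MeasureTheory Filter Topology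
open Vale.Agent.P159.TM.H104 (EM Ex Cv Lg li nh Gr)
open Vale.Agent.P159.H37
open Vale.Agent.P159.TM.Spec (V)
open Vale.Agent.P159.TM.SpecC (wT)
open Vale.Agent.P159.H972 (tn cobB AP Par lg)

noncomputable section

section block

variable {N : ℕ} [NeZero N]

/-- the indicator of the block `B` of side `L` -/
def chB (N L : ℕ) [NeZero N] (B : ℕ × ℕ) : V N → ℝ :=
  fun x => if x.1.val / L = B.1 ∧ x.2.val / L = B.2 then 1 else 0

lemma chB_sq (L : ℕ) (B : ℕ × ℕ) (x : V N) : chB N L B x * chB N L B x = chB N L B x := by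
  unfold chB
  split_ifs <;> norm_num

lemma cobB_chB (l q : ℕ) (B : ℕ × ℕ) :
    cobB N l q B = Matrix.diagonal (chB N (l * q) B) * (cob N l)ᵀ := by
  ext x c
  rw [Matrix.diagonal_mul, Matrix.transpose_apply]
  unfold cobB chB cob
  simp only [Matrix.of_apply]
  rw [← Nat.div_div_eq_div_mul, ← Nat.div_div_eq_div_mul]
  by_cases h : x.1.val / l = c.1.val ∧ x.2.val / l = c.2.val
  · rw [if_pos h, h.1, h.2]
    split_ifs <;> simp
  · rw [if_neg h, mul_zero]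
    split_ifs <;> rfl

lemma chB_comm {l L : ℕ} (hl : l ∣ L) (B : ℕ × ℕ) :
    Matrix.diagonal (chB N L B) * cellP N l = cellP N l * Matrix.diagonal (chB N L B) := by
  obtain ⟨q, rfl⟩ := hl
  ext x y
  rw [Matrix.diagonal_mul, Matrix.mul_diagonal]
  unfold cellP
  rw [Matrix.mul_apply, Finset.mul_sum, Finset.sum_mul]
  refine Finset.sum_congr rfl fun c _ => ?_
  rw [Matrix.transpose_apply]
  unfold cob chB
  simp only [Matrix.of_apply]
  rw [← Nat.div_div_eq_div_mul, ← Nat.div_div_eq_div_mul, ← Nat.div_div_eq_div_mul,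
    ← Nat.div_div_eq_div_mul]
  by_cases h : x.1.val / l = c.1.val ∧ x.2.val / l = c.2.val
  · by_cases h2 : y.1.val / l = c.1.val ∧ y.2.val / l = c.2.val
    · rw [h.1, h.2, h2.1, h2.2]
      ring
    · rw [if_neg h2]
      ring
  · rw [if_neg h]
    ring

lemma cobB_gram {l q : ℕ} (B : ℕ × ℕ) :
    cobB N l q B * (cobB N l q B)ᵀ = cellP N l * Matrix.diagonal (chB N (l * q) B) := by
  rw [cobB_chB, Matrix.transpose_mul, Matrix.transpose_transpose, Matrix.diagonal_transpose]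
  have e : Matrix.diagonal (chB N (l * q) B) * (cob N l)ᵀ *
      (cob N l * Matrix.diagonal (chB N (l * q) B)) =
      Matrix.diagonal (chB N (l * q) B) * cellP N l * Matrix.diagonal (chB N (l * q) B) := by
    unfold cellP
    simp only [Matrix.mul_assoc]
  rw [e, chB_comm (dvd_mul_right l q), Matrix.mul_assoc, Matrix.diagonal_mul_diagonal]
  congr 2
  funext x
  exact chB_sq _ _ _

/-- the cell part of the noise of the finer cells is the noise of the cells -/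
lemma cobB_proj {l l' q q' : ℕ} (hll : l' ∣ l) (hl : l ∣ N) (hq : l * q = l' * q')
    (B : ℕ × ℕ) :
    (cellP N l * cobB N l' q' B) * (cellP N l * cobB N l' q' B)ᵀ =
      cobB N l q B * (cobB N l q B)ᵀ := by
  rw [cobB_gram, Matrix.transpose_mul, H864.cellP_tr]
  have e : cellP N l * cobB N l' q' B * ((cobB N l' q' B)ᵀ * cellP N l) =
      cellP N l * (cobB N l' q' B * (cobB N l' q' B)ᵀ) * cellP N l := by
    simp only [Matrix.mul_assoc]
  rw [e, cobB_gram, ← hq, ← Matrix.mul_assoc, H864.cellP_coarse_mul hll hl, Matrix.mul_assoc,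
    chB_comm (dvd_mul_right l q), ← Matrix.mul_assoc, H864.cellP_idem hl]

lemma cobB_contr {l : ℕ} (hl : l ∣ N) (q : ℕ) (B : ℕ × ℕ) (v : V N → ℝ) :
    ∑ c, ((cobB N l q B)ᵀ *ᵥ v) c ^ 2 ≤ ∑ x, v x ^ 2 := by
  rw [cobB_chB, Matrix.transpose_mul, Matrix.transpose_transpose, Matrix.diagonal_transpose,
    ← Matrix.mulVec_mulVec]
  have := H864.ne_div hl
  have h1 : ∀ w : V N → ℝ, ∑ c, (cob N l *ᵥ w) c ^ 2 ≤ ∑ x, w x ^ 2 := by
    intro w
    rw [← qf_gram]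
    exact H864.qf_cellP_le hl w
  refine (h1 _).trans (Finset.sum_le_sum fun x _ => ?_)
  rw [Matrix.mulVec_diagonal]
  unfold chB
  split_ifs
  · rw [one_mul]
  · rw [zero_mul, zero_pow two_ne_zero]
    exact sq_nonneg _

end block

lemma exp_36 : 2 * Real.exp (-((6 : ℝ) ^ 2 / 7)) ≤ 1 / 60 := by
  have h1 : (5 : ℝ) ≤ 6 ^ 2 / 7 := by norm_num
  have h2 : Real.exp (-((6 : ℝ) ^ 2 / 7)) ≤ Real.exp (-5) := Real.exp_le_exp.2 (by linarith)
  have h3 : Real.exp (-5 : ℝ) ≤ 1 / 120 := by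
    rw [Real.exp_neg, inv_le_comm₀ (Real.exp_pos _) (by norm_num)]
    have h4 : (2.7182818283 : ℝ) < Real.exp 1 := Real.exp_one_gt_d9
    have h5 : Real.exp (5 : ℝ) = Real.exp 1 ^ 5 := by rw [← Real.exp_nat_mul]; norm_num
    rw [h5]
    have h6 : (2.7182818283 : ℝ) ^ 5 ≤ Real.exp 1 ^ 5 :=
      pow_le_pow_left₀ (by norm_num) h4.le 5
    refine le_trans ?_ h6
    norm_num
  linarith

/-- **AP at finer cells, abstract**: `P` the projection, `A` the noise of the fine cells, `B` the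
noise of the cells with `(P A)(P A)ᵀ = B Bᵀ` -/
theorem ap_split {X I J : Type*} [Fintype X] [DecidableEq X] [Fintype I] [Fintype J]
    {μ : (X → ℤ) → ℝ} (hμ : EM μ) (he : Ev μ) (hK : PK μ) (P : Matrix X X ℝ) (A : Matrix X I ℝ)
    (B : Matrix X J ℝ) (hAB : (P * A) * (P * A)ᵀ = B * Bᵀ) {δ : ℝ} (hδ : 0 < δ)
    (hB : (gau J).real {g | δ < Rs μ (B *ᵥ g)} ≤ 1 / 30)
    (hi : Integrable (fun g => Rs μ ((2 : ℝ) • ((1 - P) *ᵥ (((1 / 12 : ℝ) • A) *ᵥ g)))) (gau I))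
    (hf : ∫ g, Rs μ ((2 : ℝ) • ((1 - P) *ᵥ (((1 / 12 : ℝ) • A) *ᵥ g))) ∂(gau I) ≤ δ / 60) :
    (gau I).real {g | δ < Rs μ (((1 / 12 : ℝ) • A) *ᵥ g)} ≤ 1 / 30 := by
  have hcx := H789.Rs_convex hμ he hK
  have h0 : (B * Bᵀ - (P * A) * (P * A)ᵀ).PosSemidef := by
    rw [hAB, sub_self]
    exact Matrix.PosSemidef.zero
  have h1 := H586.fern_small_f (H586.rs_meas hμ) hcx (H789.Rs_neg he) h0 hB
    (a := 6) (by norm_num)
  have h2 : (gau I).real {g | δ < Rs μ ((6 : ℝ)⁻¹ • ((P * A) *ᵥ g))} ≤ 1 / 60 :=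
    h1.trans exp_36
  have h3 : (gau I).real {g | δ ≤ Rs μ ((2 : ℝ) • ((1 - P) *ᵥ (((1 / 12 : ℝ) • A) *ᵥ g)))} ≤
      1 / 60 := by
    have h4 := mul_meas_ge_le_integral_of_nonneg (Filter.Eventually.of_forall fun g =>
      H789.Rs_nonneg hμ he hK ((2 : ℝ) • ((1 - P) *ᵥ (((1 / 12 : ℝ) • A) *ᵥ g)))) hi δ
    have h5 : δ * (gau I).real
        {g | δ ≤ Rs μ ((2 : ℝ) • ((1 - P) *ᵥ (((1 / 12 : ℝ) • A) *ᵥ g)))} ≤ δ * (1 / 60) :=
      (h4.trans hf).trans (le_of_eq (by ring))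
    exact le_of_mul_le_mul_left h5 hδ
  have hsub : {g | δ < Rs μ (((1 / 12 : ℝ) • A) *ᵥ g)} ⊆
      {g | δ < Rs μ ((6 : ℝ)⁻¹ • ((P * A) *ᵥ g))} ∪
      {g | δ ≤ Rs μ ((2 : ℝ) • ((1 - P) *ᵥ (((1 / 12 : ℝ) • A) *ᵥ g)))} := by
    intro g hg
    by_contra hn
    simp only [Set.mem_union, Set.mem_ofPred_eq, not_or, not_lt, not_le] at hn hg
    obtain ⟨g1, g2⟩ := hn
    have e : ((1 / 12 : ℝ) • A) *ᵥ g = (1 / 2 : ℝ) • ((6 : ℝ)⁻¹ • ((P * A) *ᵥ g)) +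
        (1 / 2 : ℝ) • ((2 : ℝ) • ((1 - P) *ᵥ (((1 / 12 : ℝ) • A) *ᵥ g))) := by
      rw [Matrix.sub_mulVec, Matrix.one_mulVec, ← Matrix.mulVec_mulVec]
      simp only [Matrix.smul_mulVec, Matrix.mulVec_smul]
      ext x
      simp only [Pi.add_apply, Pi.smul_apply, Pi.sub_apply, smul_eq_mul]
      ring
    have h6 := hcx.2 (Set.mem_univ ((6 : ℝ)⁻¹ • ((P * A) *ᵥ g)))
      (Set.mem_univ ((2 : ℝ) • ((1 - P) *ᵥ (((1 / 12 : ℝ) • A) *ᵥ g))))
      (by norm_num : (0 : ℝ) ≤ 1 / 2) (by norm_num : (0 : ℝ) ≤ 1 / 2) (by norm_num)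
    rw [← e] at h6
    simp only [smul_eq_mul] at h6
    linarith
  calc (gau I).real {g | δ < Rs μ (((1 / 12 : ℝ) • A) *ᵥ g)} ≤ _ := measureReal_mono hsub
    _ ≤ _ + _ := measureReal_union_le _ _
    _ ≤ 1 / 60 + 1 / 60 := add_le_add h2 h3
    _ = 1 / 30 := by norm_num

/-- **(RF1): AP at finer cells** -/
theorem ap_cells {b : ℝ} (hb : 0 ≤ b) : ∃ C c : ℝ, 0 < C ∧ 0 < c ∧ c ≤ 1 ∧
    ∀ n r s s' : ℕ, s' ≤ s → s ≤ n → n ≤ r → ∀ τ X δ : ℝ, tn n ≤ τ → τ * ((2 : ℝ) ^ s) ^ 2 ≤ 1 →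
      1 ≤ X → 0 < δ →
      C * ((τ * ((2 : ℝ) ^ r) ^ 2) * X ^ 6) * ((2 : ℝ) ^ s * √τ) ^ c ≤ δ →
      AP b n r s X τ δ → AP b n r s' (X / 12) τ δ := by
  obtain ⟨C, c, hC, hc, hc1, h⟩ := fine_gau hb
  refine ⟨60 * (C + 1), c, by positivity, hc, hc1, ?_⟩
  intro n r s s' hss hsn hnr τ X δ hτn hτs hX hδ hsm hAP B
  have hτ0 : 0 < τ := lt_of_lt_of_le (by unfold tn; positivity) hτn
  have hX0 : 0 < X := by linarith
  have hμ := H789.em_wM_wT (N := 2 ^ r) hb hτ0 (H789.coer_smul τ)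
  have hE := H789.ev_wM_wT (N := 2 ^ r) (b := b) (τ • (1 : Matrix (V (2 ^ r)) (V (2 ^ r)) ℝ))
  have hK : PK (wt (2 ^ r) b τ) := H789.pk_wM_wT' hb hτ0 (H789.coer_smul τ)
  have hs : (2 : ℕ) ^ s ∣ 2 ^ r := pow_dvd_pow 2 (by omega)
  have hs' : (2 : ℕ) ^ s' ∣ 2 ^ r := pow_dvd_pow 2 (by omega)
  have hss' : (2 : ℕ) ^ s' ∣ 2 ^ s := pow_dvd_pow 2 hss
  have hq : 2 ^ s * 2 ^ (n - s) = 2 ^ s' * 2 ^ (n - s') := by
    rw [← pow_add, ← pow_add]
    congr 1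
    omega
  have e12 : (X / 12 * √τ) • cobB (2 ^ r) (2 ^ s') (2 ^ (n - s')) B =
      (1 / 12 : ℝ) • ((X * √τ) • cobB (2 ^ r) (2 ^ s') (2 ^ (n - s')) B) := by
    rw [smul_smul]
    congr 1
    ring
  rw [e12]
  obtain ⟨A, hA⟩ : ∃ A, A = (X * √τ) • cobB (2 ^ r) (2 ^ s') (2 ^ (n - s')) B := ⟨_, rfl⟩
  rw [← hA]
  have hAn : ∀ v : V (2 ^ r) → ℝ, ∑ i, (((1 / 12 : ℝ) • A)ᵀ *ᵥ v) i ^ 2 ≤
      (X ^ 2 * τ) * ∑ x, v x ^ 2 := by
    intro v
    have e1 : ∀ i, (((1 / 12 : ℝ) • A)ᵀ *ᵥ v) i = (1 / 12 * (X * √τ)) *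
        ((cobB (2 ^ r) (2 ^ s') (2 ^ (n - s')) B)ᵀ *ᵥ v) i := by
      intro i
      rw [hA, smul_smul, Matrix.transpose_smul, Matrix.smul_mulVec]
      rfl
    have e2 : ∑ i, (((1 / 12 : ℝ) • A)ᵀ *ᵥ v) i ^ 2 = (1 / 12 * (X * √τ)) ^ 2 *
        ∑ i, ((cobB (2 ^ r) (2 ^ s') (2 ^ (n - s')) B)ᵀ *ᵥ v) i ^ 2 := by
      rw [Finset.mul_sum]
      exact Finset.sum_congr rfl fun i _ => by rw [e1 i, mul_pow]
    rw [e2]
    have h1 := cobB_contr hs' (2 ^ (n - s')) B v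
    have h2 : (1 / 12 * (X * √τ)) ^ 2 = 1 / 144 * (X ^ 2 * τ) := by
      rw [mul_pow, mul_pow, Real.sq_sqrt hτ0.le]
      norm_num
    rw [h2]
    have h3 : 0 ≤ X ^ 2 * τ := by positivity
    have h4 : 0 ≤ ∑ x, v x ^ 2 := by positivity
    calc 1 / 144 * (X ^ 2 * τ) * _ ≤ 1 / 144 * (X ^ 2 * τ) * ∑ x, v x ^ 2 :=
          mul_le_mul_of_nonneg_left h1 (by positivity)
      _ ≤ 1 * (X ^ 2 * τ) * ∑ x, v x ^ 2 := by
          refine mul_le_mul_of_nonneg_right ?_ h4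
          exact mul_le_mul_of_nonneg_right (by norm_num) h3
      _ = _ := by ring
  have hp : 1 < τ * 4 ^ (n + 1) := by
    have h1 : tn n * 4 ^ (n + 1) ≤ τ * 4 ^ (n + 1) :=
      mul_le_mul_of_nonneg_right hτn (by positivity)
    have h2 : tn n * 4 ^ (n + 1) = 4 := by
      unfold tn
      rw [pow_succ]
      field_simp
    linarith
  have hfine := h (2 ^ r) s n hs (pow_dvd_pow 2 hnr) τ hτ0 hτs hp τ (τ • 1) hτ0
    (by rw [Matrix.transpose_smul, Matrix.transpose_one]) (H789.coer_smul τ)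
    (fun u => by rw [qf_smul_one]) (fun y _ => by rw [Matrix.smul_mulVec, Matrix.one_mulVec])
    ((1 / 12 : ℝ) • A) (X ^ 2 * τ) (by
      have : 1 * τ ≤ X ^ 2 * τ := mul_le_mul_of_nonneg_right (one_le_pow₀ hX) hτ0.le
      linarith) hAn
  refine ap_split hμ hE hK (cellP (2 ^ r) (2 ^ s)) A
    ((X * √τ) • cobB (2 ^ r) (2 ^ s) (2 ^ (n - s)) B) ?_ hδ (hAP B) hfine.1 ?_
  · have h1 := cobB_proj hss' hs hq B
    rw [hA, Matrix.mul_smul, Matrix.transpose_smul, Matrix.smul_mul, Matrix.mul_smul, h1,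
      Matrix.transpose_smul, Matrix.smul_mul, Matrix.mul_smul]
  · refine hfine.2.trans ?_
    have e3 : X ^ 2 * τ / τ = X ^ 2 := by field_simp
    have e4 : (((2 ^ r : ℕ) : ℝ)) = (2 : ℝ) ^ r := by push_cast; rfl
    rw [e3, e4]
    have h5 : 0 ≤ (τ * ((2 : ℝ) ^ r) ^ 2 * X ^ 6) * ((2 : ℝ) ^ s * √τ) ^ c := by
      have : 0 < √τ := Real.sqrt_pos.2 hτ0
      positivity
    have e5 : (X ^ 2) ^ 3 = X ^ 6 := by ring
    rw [e5, le_div_iff₀ (by norm_num)]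
    nlinarith

/-- smaller amplitudes -/
lemma ap_mono {b : ℝ} (hb : 0 ≤ b) {n r s : ℕ} {X X' τ δ : ℝ} (hτ : 0 < τ) (hX' : 0 ≤ X')
    (hX : X' ≤ X) (h : AP b n r s X τ δ) : AP b n r s X' τ δ := by
  intro B
  have hμ := H789.em_wt (N := 2 ^ r) hb hτ
  have hE := H789.ev_wt (N := 2 ^ r) (b := b) (t := τ)
  have hK := H789.pk_wt (N := 2 ^ r) hb hτ
  refine le_trans (measureReal_mono fun g hg => ?_) (h B)
  simp only [Set.mem_ofPred_eq] at hg ⊢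
  refine lt_of_lt_of_le hg ?_
  rcases (hX'.trans hX).eq_or_lt with h0 | h0
  · have : X' = X := le_antisymm hX (by rw [← h0]; exact hX')
    rw [this]
  · have e : ((X' * √τ) • cobB (2 ^ r) (2 ^ s) (2 ^ (n - s)) B) *ᵥ g =
        (X' / X) • (((X * √τ) • cobB (2 ^ r) (2 ^ s) (2 ^ (n - s)) B) *ᵥ g) := by
      rw [← Matrix.smul_mulVec, smul_smul]
      congr 2
      field_simp
    rw [e]
    have h1 := (H789.Rs_convex hμ hE hK).2
      (Set.mem_univ (((X * √τ) • cobB (2 ^ r) (2 ^ s) (2 ^ (n - s)) B) *ᵥ g))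
      (Set.mem_univ (0 : V (2 ^ r) → ℝ)) (by positivity : 0 ≤ X' / X)
      (by rw [sub_nonneg, div_le_one h0]; exact hX : 0 ≤ 1 - X' / X) (by ring)
    rw [smul_zero, add_zero] at h1
    have h2 : Rs (wt (2 ^ r) b τ) (0 : V (2 ^ r) → ℝ) = 0 := by
      unfold Rs
      simp [H37.qf]
    rw [h2, smul_zero, add_zero, smul_eq_mul] at h1
    refine h1.trans ?_
    have h3 := H789.Rs_nonneg hμ hE hK
      (((X * √τ) • cobB (2 ^ r) (2 ^ s) (2 ^ (n - s)) B) *ᵥ g)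
    have h4 : X' / X ≤ 1 := by rw [div_le_one h0]; exact hX
    nlinarith

/-- **(RF1) in the letters of `H972.Good`**: all cells finer than those of the state, mass `t_n` -/
theorem ap_cells_P {b : ℝ} (hb : 0 ≤ b) : ∃ C c : ℝ, 0 < C ∧ 0 < c ∧ c ≤ 1 ∧
    ∀ (P : Par) (n r s' : ℕ) (e X δ : ℝ), 0 < e → e ≤ P.es → n ≤ r → s' ≤ P.sE n e → 1 ≤ X →
      0 < δ → C * (((2 : ℝ) ^ r / 2 ^ n) ^ 2 * X ^ 6) * e ^ (c * P.C0) ≤ δ →
      AP b n r (P.sE n e) X (tn n) δ → AP b n r s' (X / 12) (tn n) δ := by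
  obtain ⟨C, c, hC, hc, hc1, h⟩ := ap_cells hb
  refine ⟨C, c, hC, hc, hc1, ?_⟩
  intro P n r s' e X δ he hes hnr hs hX hδ hsm hAP
  have ht0 : 0 < tn n := by unfold tn; positivity
  rcases hs.eq_or_lt with h0 | h0
  · rw [h0]
    exact ap_mono hb ht0 (by linarith) (by linarith) hAP
  · have hsn : P.sE n e ≤ n := Nat.sub_le _ _
    have hsE : (2 : ℝ) ^ (P.sE n e) * √(tn n) = 1 / 2 ^ (lg P.C0 e) := by
      have h1 : lg P.C0 e ≤ n := by
        by_contra hcon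
        have : P.sE n e = 0 := by
          unfold Par.sE
          omega
        omega
      have h2 : √(tn n) = 1 / 2 ^ n := by
        unfold tn
        have : (4 ^ n : ℝ)⁻¹ = (1 / 2 ^ n) ^ 2 := by
          rw [div_pow, one_pow, ← pow_mul, mul_comm n, pow_mul, one_div]
          norm_num
        rw [this, Real.sqrt_sq (by positivity)]
      have h3 : (2 : ℝ) ^ n = 2 ^ (P.sE n e) * 2 ^ (lg P.C0 e) := by
        rw [← pow_add]
        congr 1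
        unfold Par.sE
        omega
      rw [h2, h3]
      field_simp
    have hle : (1 : ℝ) / 2 ^ (lg P.C0 e) ≤ e ^ P.C0 := by
      have h4 : e = (2 : ℝ) ^ (-(Real.logb 2 (1 / e))) := by
        rw [Real.rpow_neg (by norm_num), Real.rpow_logb (by norm_num) (by norm_num) (by positivity)]
        simp
      have h5 : e ^ P.C0 = (2 : ℝ) ^ (-(P.C0 * Real.logb 2 (1 / e))) := by
        conv_lhs => rw [h4]
        rw [← Real.rpow_mul (by norm_num)]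
        congr 1
        ring
      have h6 : (1 : ℝ) / 2 ^ (lg P.C0 e) = (2 : ℝ) ^ (-((lg P.C0 e : ℕ) : ℝ)) := by
        rw [Real.rpow_neg (by norm_num), Real.rpow_natCast, one_div]
      rw [h5, h6]
      refine Real.rpow_le_rpow_of_exponent_le (by norm_num) (neg_le_neg ?_)
      exact Nat.le_ceil _
    have hτs : tn n * ((2 : ℝ) ^ (P.sE n e)) ^ 2 ≤ 1 := by
      have h7 : tn n * ((2 : ℝ) ^ (P.sE n e)) ^ 2 = ((2 : ℝ) ^ (P.sE n e) * √(tn n)) ^ 2 := by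
        rw [mul_pow, Real.sq_sqrt ht0.le]
        ring
      rw [h7, hsE]
      have h8 : (1 : ℝ) / 2 ^ (lg P.C0 e) ≤ 1 := by
        rw [div_le_one (by positivity)]
        exact one_le_pow₀ (by norm_num)
      exact pow_le_one₀ (by positivity) h8
    refine h n r (P.sE n e) s' hs hsn hnr (tn n) X δ le_rfl hτs hX hδ (le_trans ?_ hsm) hAP
    have e9 : tn n * ((2 : ℝ) ^ r) ^ 2 = ((2 : ℝ) ^ r / 2 ^ n) ^ 2 := by
      unfold tn
      have : (4 ^ n : ℝ) = (2 ^ n) ^ 2 := by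
        rw [← pow_mul, mul_comm n, pow_mul]
        norm_num
      rw [this, div_pow]
      field_simp
    rw [e9, hsE]
    refine mul_le_mul_of_nonneg_left ?_ (by positivity)
    calc ((1 : ℝ) / 2 ^ (lg P.C0 e)) ^ c ≤ (e ^ P.C0) ^ c :=
          Real.rpow_le_rpow (by positivity) hle hc.le
      _ = e ^ (c * P.C0) := by rw [← Real.rpow_mul he.le, mul_comm]

end

end Vale.Agent.P159.H30
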