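import Vale.Agent.P159.H30.Tk8
import Vale.Agent.P159.H972.Lk1
import Vale.Agent.P159.H640.Dt19

/-!
P159, LINKW (K2) (helper30): the torus step of the form `Xf` for the smoothed pyramid, powers of
the level, threshold form and family form.
-/

set_option linter.unusedSectionVars false

namespace Vale.Agent.P159.H30

open Filter Topology
open Vale.Agent.P159.H37
open Vale.Agent.P159.H692 (Xf)
open Vale.Agent.P159.H859 (lapz enz Fsu smz pf lapz_smz_le)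
open Vale.Agent.P159.H972 (Par lg tn em Fit Good YBn fit_smz enz_smz_up sq_smz smz_abs smz_box bxs)
open Vale.Agent.P159.H239 (Fam Sel)

noncomputable section

/-- for large `n` a power with positive exponent exceeds a constant -/
lemma ev_pow {s : ℝ} (hs : 0 < s) (A : ℝ) : ∃ n0 : ℕ, ∀ n : ℕ, n0 ≤ n → A ≤ (n : ℝ) ^ s := by
  have h2 : Tendsto (fun n : ℕ => (n : ℝ) ^ s) atTop atTop :=
    (tendsto_rpow_atTop hs).comp tendsto_natCast_atTop_atTop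
  exact eventually_atTop.1 (h2.eventually_ge_atTop A)

/-- the support of the smoothed pyramid -/
lemma nr_smz (x0 y0 : ℤ) {p s M : ℕ} (h : p + s ≤ M) :
    Nr (smz s (pf x0 y0 p)) (x0, y0) M := by
  intro c hc
  have h1 := smz_box hc
  unfold bxs at h1
  rw [Finset.mem_product, Finset.mem_Icc, Finset.mem_Icc] at h1
  simp only [abs_le]
  omega

/-- the norms of the smoothed pyramid with the mass -/
lemma src_smz (x0 y0 : ℤ) {u m s : ℕ} (hum : u ≤ m) (hs : 1 ≤ s) (hsu : s ≤ 2 ^ u) :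
    enz (smz s (pf x0 y0 (2 ^ u : ℕ))) + tn m * ∑' c, smz s (pf x0 y0 (2 ^ u : ℕ)) c ^ 2 ≤
      32 * 4 ^ u := by
  have h1 := enz_smz_up x0 y0 (p := 2 ^ u) Nat.one_le_two_pow hs
  have h2 := sq_smz x0 y0 (p := 2 ^ u) Nat.one_le_two_pow hs hsu
  have e1 : (((2 ^ u : ℕ) : ℝ)) ^ 2 = 4 ^ u := by
    push_cast
    rw [← pow_mul, mul_comm u 2, pow_mul]
    norm_num
  have e2 : (((2 ^ u : ℕ) : ℝ)) ^ 4 = 4 ^ u * 4 ^ u := by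
    rw [show (((2 ^ u : ℕ) : ℝ)) ^ 4 = (((2 ^ u : ℕ) : ℝ) ^ 2) * (((2 ^ u : ℕ) : ℝ) ^ 2) by ring, e1]
  rw [e1] at h1
  rw [e2] at h2
  have h3 : tn m * (16 * (4 ^ u * 4 ^ u)) ≤ 16 * 4 ^ u := by
    unfold tn
    rw [inv_mul_le_iff₀ (by positivity)]
    have h4 : (4 : ℝ) ^ u ≤ 4 ^ m := pow_le_pow_right₀ (by norm_num) hum
    have h5 : (0 : ℝ) < 4 ^ u := by positivity
    nlinarith
  have h4 := mul_le_mul_of_nonneg_left h2 (H972.tn_pos m).le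
  linarith

/-- the pointwise size of the local source -/
lemma jz_smz (x0 y0 : ℤ) {u m s : ℕ} {a A : ℝ} (hs : 1 ≤ s) (ha : 0 ≤ a) (ha2 : a ≤ 2)
    (hA : 16 * 4 ^ m ≤ A * ((s : ℝ) * 2 ^ u)) (c : ℤ × ℤ) :
    |tn m * smz s (pf x0 y0 (2 ^ u : ℕ)) c + a * lapz (smz s (pf x0 y0 (2 ^ u : ℕ))) c| ≤
      (1 + A) * 2 ^ u * tn m := by
  have h1 := smz_abs x0 y0 (p := 2 ^ u) hs c
  have h2 := lapz_smz_le x0 y0 ((2 ^ u : ℕ) : ℤ) hs c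
  have ht := H972.tn_pos m
  have hs0 : (0 : ℝ) < s := by exact_mod_cast hs
  have h3 : |tn m * smz s (pf x0 y0 (2 ^ u : ℕ)) c| ≤ tn m * 2 ^ u := by
    rw [abs_mul, abs_of_pos ht, abs_of_nonneg h1.1]
    have := h1.2
    push_cast at this
    exact mul_le_mul_of_nonneg_left this ht.le
  have h4 : |a * lapz (smz s (pf x0 y0 (2 ^ u : ℕ))) c| ≤ 16 / s := by
    rw [abs_mul, abs_of_nonneg ha]
    calc a * _ ≤ 2 * (8 / s) := mul_le_mul ha2 h2 (abs_nonneg _) (by norm_num)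
      _ = 16 / s := by ring
  have h5 : 16 / (s : ℝ) ≤ A * 2 ^ u * tn m := by
    unfold tn
    rw [div_le_iff₀ hs0]
    have h6 : (0 : ℝ) < 4 ^ m := by positivity
    rw [show A * 2 ^ u * ((4 : ℝ) ^ m)⁻¹ * s = A * ((s : ℝ) * 2 ^ u) / 4 ^ m by
      rw [div_eq_mul_inv]; ring, le_div_iff₀ h6]
    exact hA
  calc _ ≤ |tn m * smz s (pf x0 y0 (2 ^ u : ℕ)) c| +
        |a * lapz (smz s (pf x0 y0 (2 ^ u : ℕ))) c| := abs_add_le _ _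
    _ ≤ tn m * 2 ^ u + A * 2 ^ u * tn m := by linarith
    _ = _ := by ring

/-- **(K2), general exponents**: the torus step for the smoothed pyramid -/
theorem k2_gen {b1 : ℝ} (hb1 : 0 < b1) (b2 : ℝ) :
    ∃ W₀ : ℝ, ∀ W : ℝ, W₀ ≤ W → ∃ ys : ℝ, ∃ X : ℕ, 0 < ys ∧ 1 ≤ X ∧
    ∀ κ σ C₁ p : ℝ, 0 < κ → κ ≤ 1 → 0 < σ → 0 ≤ C₁ → p < σ * (1 - κ) →
    ∀ (th thp : ℝ) (q0 : ℕ), 0 < th → 0 < thp → th + 4 * q0 * thp ≤ κ / 32 →
    ∃ E0 : ℝ, 0 < E0 ∧ ∃ n0 : ℕ, ∀ P : Par, P.th = th → P.thp = thp → P.q0 = q0 → P.b1 = b1 →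
      P.b2 = b2 → P.W = W → P.ys ≤ ys → X ≤ P.X0 → P.es ≤ E0 →
    ∀ (b : ℝ) (m u s r r' : ℕ) (e ε Y a : ℝ) (x0 y0 : ℤ), n0 ≤ m →
      Good P b m ε → YBn P b m ε Y → Y ^ 2 ≤ ε → ε ≤ e → e ≤ P.es → e ≤ (m : ℝ) ^ (-σ) →
      P.TT m e r → P.TT m e r' → u ≤ m → 1 ≤ s → s ≤ 2 ^ u →
      (4 : ℝ) ^ m ≤ (m : ℝ) ^ C₁ * (s * 2 ^ u) → 0 ≤ a → a ≤ 2 →
      Fit (2 ^ r) (smz s (pf x0 y0 (2 ^ u : ℕ))) → Fit (2 ^ r') (smz s (pf x0 y0 (2 ^ u : ℕ))) →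
      |Xf (2 ^ r) b (tn m) a (em (2 ^ r) (smz s (pf x0 y0 (2 ^ u : ℕ)))) -
        Xf (2 ^ r') b (tn m) a (em (2 ^ r') (smz s (pf x0 y0 (2 ^ u : ℕ))))| ≤
        (m : ℝ) ^ (-p) * 4 ^ u := by
  obtain ⟨W₀, h⟩ := xk_good hb1 b2
  refine ⟨W₀, fun W hW => ?_⟩
  obtain ⟨ys, X, hys, hX, h⟩ := h W hW
  refine ⟨ys, X, hys, hX, fun κ σ C₁ p hκ hκ1 hσ hC₁ hp th thp q0 hth hthp hr => ?_⟩
  obtain ⟨E0, hE0, H⟩ := h κ ((C₁ + 1) / σ) hκ hκ1 (by positivity) th thp q0 hth hthp hr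
  obtain ⟨n1, hn1⟩ := ev_pow (s := σ * (1 - κ) - p) (by linarith) 160
  refine ⟨E0, hE0, max n1 17, ?_⟩
  intro P hPth hPthp hPq hPb1 hPb2 hPW hPys hPX hPes b m u s r r' e ε Y a x0 y0 hm hG hYB hYε hεe
    hee heσ hTT hTT' hum hs hsu hA ha ha2 hf hf'
  have hm1 : n1 ≤ m := (le_max_left _ _).trans hm
  have hm17 : 17 ≤ m := (le_max_right _ _).trans hm
  have hm17' : (17 : ℝ) ≤ m := by exact_mod_cast hm17
  have hm0 : (0 : ℝ) < m := by linarith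
  have hε : 0 < ε := lt_of_lt_of_le (pow_pos hYB.1 2) hYε
  have he : 0 < e := lt_of_lt_of_le hε hεe
  have h2u : (1 : ℝ) ≤ 2 ^ u := one_le_pow₀ (by norm_num)
  have h2m : (1 : ℕ) ≤ 2 ^ u := Nat.one_le_two_pow
  have hN : Nr (smz s (pf x0 y0 (2 ^ u : ℕ))) (x0, y0) (3 * 2 ^ m) := by
    have h1 : 2 ^ u + s ≤ 3 * 2 ^ m := by
      have : 2 ^ u ≤ 2 ^ m := Nat.pow_le_pow_right (by norm_num) hum
      omega
    have h2 := nr_smz x0 y0 h1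
    push_cast at h2
    exact_mod_cast h2
  have hJ : ∀ c, |tn m * smz s (pf x0 y0 (2 ^ u : ℕ)) c +
      a * lapz (smz s (pf x0 y0 (2 ^ u : ℕ))) c| ≤
      e ^ (-((C₁ + 1) / σ)) * √(32 * 4 ^ u) * tn m := by
    intro c
    refine (jz_smz x0 y0 hs ha ha2 (A := 16 * (m : ℝ) ^ C₁) (by nlinarith) c).trans ?_
    refine mul_le_mul_of_nonneg_right ?_ (H972.tn_pos m).le
    have h1 : (2 : ℝ) ^ u ≤ √(32 * 4 ^ u) := by
      refine Real.le_sqrt_of_sq_le ?_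
      rw [← pow_mul, mul_comm u 2, pow_mul]
      have : (0 : ℝ) < 4 ^ u := by positivity
      norm_num
    have h3 : (m : ℝ) ^ (C₁ + 1) ≤ e ^ (-((C₁ + 1) / σ)) := by
      have h4 : (m : ℝ) ^ (C₁ + 1) = ((m : ℝ) ^ (-σ)) ^ (-((C₁ + 1) / σ)) := by
        rw [← Real.rpow_mul hm0.le]
        congr 1
        field_simp
      rw [h4]
      exact Real.rpow_le_rpow_of_nonpos he heσ (by
        have : 0 ≤ (C₁ + 1) / σ := by positivity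
        linarith)
    have h5 : (1 : ℝ) ≤ (m : ℝ) ^ C₁ := Real.one_le_rpow (by linarith) hC₁
    have h6 : 1 + 16 * (m : ℝ) ^ C₁ ≤ (m : ℝ) ^ (C₁ + 1) := by
      rw [Real.rpow_add hm0, Real.rpow_one]
      nlinarith
    exact mul_le_mul (h6.trans h3) h1 (by positivity) (Real.rpow_nonneg he.le _)
  have hmain := H P hPth hPthp hPq hPb1 hPb2 hPW hPys hPX hPes b m r r' e ε Y a (32 * 4 ^ u)
    (smz s (pf x0 y0 (2 ^ u : ℕ))) (x0, y0) hG hYB hYε hεe hee hTT hTT' hf hf' hN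
    (src_smz x0 y0 hum hs hsu) (by positivity) hJ
  refine hmain.trans ?_
  have h7 : e ^ (1 - κ) ≤ (m : ℝ) ^ (-(σ * (1 - κ))) := by
    have h8 := Real.rpow_le_rpow he.le heσ (by linarith : 0 ≤ 1 - κ)
    rwa [← Real.rpow_mul hm0.le, neg_mul] at h8
  have h9 : 160 * (m : ℝ) ^ (-(σ * (1 - κ))) ≤ (m : ℝ) ^ (-p) := by
    have h10 := hn1 m hm1
    have h11 : (m : ℝ) ^ (-p) = (m : ℝ) ^ (σ * (1 - κ) - p) * (m : ℝ) ^ (-(σ * (1 - κ))) := by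
      rw [← Real.rpow_add hm0]
      congr 1
      ring
    rw [h11]
    exact mul_le_mul_of_nonneg_right h10 (Real.rpow_nonneg hm0.le _)
  have h12 : 1 + a ^ 2 ≤ 5 := by nlinarith
  have h13 : (0 : ℝ) < 4 ^ u := by positivity
  have h14 : 0 ≤ e ^ (1 - κ) := Real.rpow_nonneg he.le _
  calc (1 + a ^ 2) * (32 * 4 ^ u) * e ^ (1 - κ) ≤ 5 * (32 * 4 ^ u) * e ^ (1 - κ) := by
        gcongr
    _ ≤ 5 * (32 * 4 ^ u) * (m : ℝ) ^ (-(σ * (1 - κ))) := by gcongr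
    _ = 160 * (m : ℝ) ^ (-(σ * (1 - κ))) * 4 ^ u := by ring
    _ ≤ _ := mul_le_mul_of_nonneg_right h9 h13.le

/-- the statement of (K2) for one parameter structure -/
def K2gen (P : Par) (N0 : ℕ) (σ C₁ p : ℝ) : Prop :=
  ∀ (b : ℝ) (m u s r r' : ℕ) (e ε Y a : ℝ) (x0 y0 : ℤ), N0 ≤ m →
    Good P b m ε → YBn P b m ε Y → Y ^ 2 ≤ ε → ε ≤ e → e ≤ P.es → e ≤ (m : ℝ) ^ (-σ) →
    P.TT m e r → P.TT m e r' → u ≤ m → 1 ≤ s → s ≤ 2 ^ u →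
    (4 : ℝ) ^ m ≤ (m : ℝ) ^ C₁ * (s * 2 ^ u) → 0 ≤ a → a ≤ 2 →
    Fit (2 ^ r) (smz s (pf x0 y0 (2 ^ u : ℕ))) → Fit (2 ^ r') (smz s (pf x0 y0 (2 ^ u : ℕ))) →
    |Xf (2 ^ r) b (tn m) a (em (2 ^ r) (smz s (pf x0 y0 (2 ^ u : ℕ)))) -
      Xf (2 ^ r') b (tn m) a (em (2 ^ r') (smz s (pf x0 y0 (2 ^ u : ℕ))))| ≤
      (m : ℝ) ^ (-p) * 4 ^ u

/-- **(K2), general exponents, as a family** -/
theorem k2_fam {b1 : ℝ} (hb1 : 0 < b1) (b2 pf' : ℝ) {κ σ C₁ p : ℝ} (hκ : 0 < κ) (hκ1 : κ ≤ 1)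
    (hσ : 0 < σ) (hC₁ : 0 ≤ C₁) (hp : p < σ * (1 - κ)) :
    Fam b1 b2 pf' fun P N0 => K2gen P N0 σ C₁ p := by
  obtain ⟨W0, h⟩ := k2_gen hb1 b2
  refine ⟨W0, fun W hW => ?_⟩
  obtain ⟨ys0, X00, hys0, hX00, h⟩ := h W hW
  refine ⟨ys0, hys0, fun ys hys hys' => ⟨X00, fun X0 hX0 => ?_⟩⟩
  obtain ⟨r, hr, hr1⟩ : ∃ r, 0 < r ∧ r ≤ κ / 32 := ⟨_, (by positivity : 0 < κ / 32), le_rfl⟩
  refine ⟨r / 16, by positivity, fun x1 hx1 hx1' => ⟨0, fun Q _ => ?_⟩⟩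
  refine ⟨r / (16 * (Q + 3)), by positivity, fun thp hthp h2 => ?_⟩
  refine ⟨r / 16, by positivity, fun th hth h4 => ?_⟩
  refine ⟨0, fun C0 hC0 _ => ?_⟩
  have h5 : (Q + 3) * thp ≤ r / 16 := by
    rw [le_div_iff₀ (by positivity)] at h2
    linarith
  obtain ⟨E0, hE0, H⟩ := H640.fin_thr (p := fun q0 E =>
      (q0 : ℝ) * thp ≤ x1 + (Q + 3) * thp → ∃ n0 : ℕ,
      ∀ P : Par, P.th = th → P.thp = thp → P.q0 = q0 →
      P.b1 = b1 → P.b2 = b2 → P.W = W → P.ys ≤ ys0 → X00 ≤ P.X0 → P.es ≤ E →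
      K2gen P n0 σ C₁ p)
    (fun q0 E E' hE hEE hq => by
      obtain ⟨n0, h6⟩ := hE hq
      exact ⟨n0, fun P p1 p2 p4 p5 p6 p7 p8 p9 p10 =>
        h6 P p1 p2 p4 p5 p6 p7 p8 p9 (p10.trans hEE)⟩) ⌊(x1 + (Q + 3) * thp) / thp⌋₊
    (by
      intro q0 _
      by_cases hq : (q0 : ℝ) * thp ≤ x1 + (Q + 3) * thp
      · obtain ⟨E0, hE0, n0, H⟩ := h κ σ C₁ p hκ hκ1 hσ hC₁ hp th thp q0 hth hthp (by
          refine le_trans ?_ hr1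
          calc th + 4 * (q0 : ℝ) * thp = th + 4 * ((q0 : ℝ) * thp) := by ring
            _ ≤ r / 16 + 4 * (r / 16 + r / 16) := by linarith
            _ ≤ r := by linarith)
        exact ⟨E0, hE0, fun _ => ⟨n0, H⟩⟩
      · exact ⟨1, one_pos, fun h7 => absurd h7 hq⟩)
  refine ⟨E0, hE0, fun P hP hes => ?_⟩
  have hq := hP.hq
  rw [hP.hthp] at hq
  obtain ⟨n0, h8⟩ := H P.q0 (Nat.le_floor (by rw [le_div_iff₀ hthp]; exact hq)) hq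
  refine ⟨n0, fun N0 hN0 b m u s r r' e ε Y a x0 y0 hm => ?_⟩
  exact h8 P hP.hth hP.hthp rfl hP.hb1 hP.hb2 hP.hW (hP.hys.le.trans hys') (hX0.trans hP.hX0.ge)
    hes b m u s r r' e ε Y a x0 y0 (hN0.trans hm)

/-! ### the letters of (K2): smoothing scale `2 ^ (u - 2 clog u)`, centre `4 * 2 ^ u` -/

lemma sq_le_two_pow {u : ℕ} (hu : 8 ≤ u) : 4 * u ^ 2 ≤ 2 ^ u := by
  induction u, hu using Nat.le_induction with
  | base => norm_num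
  | succ u hu ih =>
    have h1 : 2 ^ (u + 1) = 2 * 2 ^ u := by rw [pow_succ]; ring
    rw [h1]
    nlinarith

lemma clog_sq {u : ℕ} (hu : 1 ≤ u) : 4 ^ Nat.clog 2 u ≤ 4 * u ^ 2 := by
  have h1 : 2 ^ Nat.clog 2 u ≤ 2 * u := by
    rcases Nat.lt_or_ge u 2 with h | h
    · obtain rfl : u = 1 := by omega
      simp
    · have h2 := Nat.pow_pred_clog_lt_self (b := 2) (by norm_num) (show 1 < u by omega)
      have h3 : 0 < Nat.clog 2 u := Nat.clog_pos (by norm_num) h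
      obtain ⟨k, hk⟩ : ∃ k, Nat.clog 2 u = k + 1 := ⟨Nat.clog 2 u - 1, by omega⟩
      rw [hk] at h2 ⊢
      simp only [Nat.pred_succ] at h2
      rw [pow_succ]
      omega
  calc 4 ^ Nat.clog 2 u = (2 ^ Nat.clog 2 u) ^ 2 := by
        rw [← pow_mul, mul_comm, pow_mul]
        norm_num
    _ ≤ (2 * u) ^ 2 := Nat.pow_le_pow_left h1 2
    _ = _ := by ring

/-- the smoothing scale of LINKW -/
def sj (u : ℕ) : ℕ := 2 ^ (u - 2 * Nat.clog 2 u)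

lemma sj_pos (u : ℕ) : 1 ≤ sj u := Nat.one_le_two_pow

lemma sj_le (u : ℕ) : sj u ≤ 2 ^ u := Nat.pow_le_pow_right (by norm_num) (Nat.sub_le _ _)

lemma sj_mul {u : ℕ} (hu : 8 ≤ u) : 4 ^ u ≤ 4 * u ^ 2 * (sj u * 2 ^ u) := by
  have h1 := clog_sq (u := u) (by omega)
  have h2 : 2 * Nat.clog 2 u ≤ u := by
    have h3 : 2 ^ (2 * Nat.clog 2 u) ≤ 2 ^ u := by
      rw [pow_mul]
      exact h1.trans (sq_le_two_pow hu)
    exact (Nat.pow_le_pow_iff_right (by norm_num)).1 h3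
  calc 4 ^ u = 4 ^ Nat.clog 2 u * (sj u * 2 ^ u) := by
        unfold sj
        rw [show (4 : ℕ) = 2 ^ 2 by norm_num, ← pow_mul, ← pow_mul, ← pow_add, ← pow_add]
        congr 1
        omega
    _ ≤ _ := Nat.mul_le_mul_right _ h1

/-- the statement of (K2): centre `4 * 2 ^ u`, smoothing scale `sj u` -/
def K2 (P : Par) (N0 : ℕ) (σ C₁ p : ℝ) : Prop :=
  ∀ (b : ℝ) (m u r r' : ℕ) (e ε Y a : ℝ), N0 ≤ m →
    Good P b m ε → YBn P b m ε Y → Y ^ 2 ≤ ε → ε ≤ e → e ≤ P.es → e ≤ (m : ℝ) ^ (-σ) →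
    P.TT m e r → P.TT m e r' → u ≤ m → m ≤ 2 * u → (4 : ℝ) ^ (m - u) ≤ (m : ℝ) ^ C₁ →
    0 ≤ a → a ≤ 2 →
    |Xf (2 ^ r) b (tn m) a (em (2 ^ r) (smz (sj u) (pf (4 * 2 ^ u) (4 * 2 ^ u) (2 ^ u)))) -
      Xf (2 ^ r') b (tn m) a (em (2 ^ r') (smz (sj u) (pf (4 * 2 ^ u) (4 * 2 ^ u) (2 ^ u))))| ≤
      (m : ℝ) ^ (-p) * 4 ^ u

/-- the tori of the states contain the support -/
lemma fit_kE {P : Par} {m u r : ℕ} {e : ℝ} (hk : 3 ≤ P.kE e) (hr : P.TT m e r) (hu : u ≤ m)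
    {s : ℕ} (hs : s ≤ 2 ^ u) :
    Fit (2 ^ r) (smz s (pf (4 * 2 ^ u) (4 * 2 ^ u) (2 ^ u : ℕ))) := by
  have h1 : 2 ^ u * 8 ≤ 2 ^ r := by
    calc 2 ^ u * 8 = 2 ^ (u + 3) := by rw [pow_add]; norm_num
      _ ≤ 2 ^ r := Nat.pow_le_pow_right (by norm_num) (by have := hr.1; omega)
  have h2 : 1 ≤ 2 ^ u := Nat.one_le_two_pow
  have h1' : (2 : ℤ) ^ u * 8 ≤ ((2 ^ r : ℕ) : ℤ) := by exact_mod_cast h1
  have h2' : (1 : ℤ) ≤ 2 ^ u := by exact_mod_cast h2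
  have hs' : (s : ℤ) ≤ 2 ^ u := by exact_mod_cast hs
  refine fit_smz ?_ ?_ ?_ ?_ <;> push_cast <;> push_cast at h1' <;>
    generalize (2 : ℤ) ^ u = z at * <;> omega

/-- **(K2) as a family** -/
theorem k2 {b1 : ℝ} (hb1 : 0 < b1) (b2 pf' : ℝ) {σ C₁ p : ℝ} (hσ : 0 < σ) (hC₁ : 0 ≤ C₁)
    (hp0 : 0 ≤ p) (hp : p < σ) :
    Fam b1 b2 pf' fun P N0 => K2 P N0 σ C₁ p := by
  have hκ : 0 < (σ - p) / (2 * σ) := div_pos (by linarith) (by linarith)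
  have hκ1 : (σ - p) / (2 * σ) ≤ 1 := by
    rw [div_le_one (by linarith)]
    linarith
  have hpκ : p < σ * (1 - (σ - p) / (2 * σ)) := by
    have : σ * (1 - (σ - p) / (2 * σ)) = (σ + p) / 2 := by
      field_simp
      ring
    rw [this]
    linarith
  have h1 := k2_fam hb1 b2 pf' (C₁ := C₁ + 3) hκ hκ1 hσ (by linarith) hpκ
  have h2 : Fam b1 b2 pf' fun P N0 => (∀ e, 0 < e → e ≤ P.es → 3 ≤ P.kE e) ∧ 16 ≤ N0 := by
    refine ⟨0, fun W _ => ⟨1, one_pos, fun ys hy _ => ⟨0, fun X0 _ => ?_⟩⟩⟩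
    refine ⟨1, one_pos, fun x1 hx1 _ => ⟨0, fun Q _ => ?_⟩⟩
    refine ⟨1, one_pos, fun thp ht _ => ⟨1, one_pos, fun th hth _ => ⟨0, fun C0 hC _ => ?_⟩⟩⟩
    obtain ⟨E, hE, h⟩ := H239.lg_large hth 3
    refine ⟨E, hE, fun P hP hes => ⟨16, fun N0 hN0 => ⟨fun e he hee => ?_, hN0⟩⟩⟩
    show 3 ≤ lg P.th e
    rw [hP.hth]
    exact h e he (hee.trans hes)
  refine (h1.and h2).imp fun P N0 _ _ _ _ hS => ?_
  obtain ⟨hS, hk, hN⟩ := hS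
  intro b m u r r' e ε Y a hm hG hYB hYε hεe hee heσ hTT hTT' hum hmu hA ha ha2
  have hε : 0 < ε := lt_of_lt_of_le (pow_pos hYB.1 2) hYε
  have he : 0 < e := lt_of_lt_of_le hε hεe
  have hk3 := hk e he hee
  have hm16 : (16 : ℝ) ≤ m := by exact_mod_cast hN.trans hm
  have hm0 : (0 : ℝ) < m := by linarith
  have h4 : (4 : ℝ) ^ m ≤ (m : ℝ) ^ (C₁ + 3) * ((sj u : ℕ) * 2 ^ u) := by
    have h5 : ((4 : ℝ)) ^ u ≤ 4 * (u : ℝ) ^ 2 * ((sj u : ℕ) * 2 ^ u) := by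
      exact_mod_cast sj_mul (u := u) (by omega)
    have h6 : (4 : ℝ) ^ m = 4 ^ (m - u) * 4 ^ u := by
      rw [← pow_add, Nat.sub_add_cancel hum]
    have h7 : (m : ℝ) ^ (C₁ + 3) = (m : ℝ) ^ C₁ * (m : ℝ) ^ 3 := by
      rw [Real.rpow_add hm0]
      norm_num
    have h8 : 4 * (u : ℝ) ^ 2 ≤ (m : ℝ) ^ 3 := by
      have h9 : (u : ℝ) ≤ m := by exact_mod_cast hum
      have h10 : (u : ℝ) ^ 2 ≤ (m : ℝ) ^ 2 := pow_le_pow_left₀ (Nat.cast_nonneg _) h9 2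
      nlinarith [pow_pos hm0 2]
    have h11 : (0 : ℝ) ≤ (sj u : ℕ) * 2 ^ u := by positivity
    have h12 : (0 : ℝ) ≤ (m : ℝ) ^ C₁ := Real.rpow_nonneg hm0.le _
    rw [h6, h7]
    calc (4 : ℝ) ^ (m - u) * 4 ^ u ≤ (m : ℝ) ^ C₁ * (4 * (u : ℝ) ^ 2 * ((sj u : ℕ) * 2 ^ u)) :=
          mul_le_mul hA h5 (by positivity) h12
      _ ≤ (m : ℝ) ^ C₁ * ((m : ℝ) ^ 3 * ((sj u : ℕ) * 2 ^ u)) := by gcongr
      _ = _ := by ring
  have h13 := hS b m u (sj u) r r' e ε Y a (4 * 2 ^ u) (4 * 2 ^ u) hm hG hYB hYε hεe hee heσ hTT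
    hTT' hum (sj_pos u) (sj_le u) h4 ha ha2 (fit_kE hk3 hTT hum (sj_le u))
    (fit_kE hk3 hTT' hum (sj_le u))
  push_cast at h13
  exact h13

end

end Vale.Agent.P159.H30
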