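import Vale.Agent.P159.H30.Zbe
import Vale.Agent.P159.H363.Cpn10
import Vale.Agent.P159.H415.Omyt
import Vale.Agent.P159.H889.Vpd
import Vale.Agent.P159.H889.Vasm

/-!
P159 / V (helper30): **CRK** from the zero background relation (`zb_ev`), the two tori relation
(helper363, `cvpn_ev`) and the passage from the activity to the integrality effect (helper415).
-/

open MeasureTheory Finset Matrix Filter Topology

set_option linter.unusedSectionVars false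

namespace Vale.Agent.P159.H30.Crk

open Vale.Agent.P159.TM.Spec (V)
open Vale.Agent.P159.TM.SpecC (wT)
open Vale.Agent.P159.H145 (mt)
open Vale.Agent.P159.H864 (yt yt_nonneg)
open Vale.Agent.P159.H896 (om)
open Vale.Agent.P159.H316 (omh omt Yn CRK)
open Vale.Agent.P159.H889 (Cx Cw lam EvC)
open Vale.Agent.P159.H972 (Par lg tn Good GP FL)
open Vale.Agent.P159.H801 (Ev PS FLC)
open Vale.Agent.P159.H767 (Lv Sm1 sm1_ev lv_of_cx)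
open Vale.Agent.P159.H640 (lg_lo lg_hi sm_rpow)

noncomputable section

/-- from the activity of the base torus of the level `m` to the integrality effect -/
def Omyt (P : Par) (b c1 C1 : ℝ) : Prop :=
  ∀ (n m s : ℕ) (e e' y Y : ℝ), Cx P b C1 c1 n s e y → Cw P n m e e' → Good P b m e' →
    (∀ r, P.TT n e r → yt (2 ^ r) b (4 * tn n) ≤ Y) → Y ≤ e ^ (-(P.thp / 20)) * y →
    yt (2 ^ (m + P.kE e')) b (4 * tn m) ≤
      40 * (4 ^ m / 4 ^ (m + P.kE e') *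
        om (wT b (2 ^ (m + P.kE e'))) (mt (2 ^ (m + P.kE e')) (4 * tn m)) 1) +
      (2 : ℝ) ^ (-(((m : ℝ) - n) / 19)) * Y + e ^ (3 / 5 : ℝ) * y

/-- numbers of the last step -/
structure Ncr (th e : ℝ) : Prop where
  a1 : 81 * e ^ th ≤ 1
  a2 : 40 * e ^ (5 / 2 - th) ≤ 1 / 3
  a3 : 40 * e ^ (3 / 2 : ℝ) ≤ 1 / 3
  a4 : 1 * e ^ (1 / 10 : ℝ) ≤ 1 / 3
  a8 : e ≤ 1 / 4

theorem ncr_ex {th : ℝ} (hth : 0 < th) (hth1 : th ≤ 1) :
    ∃ E0 : ℝ, 0 < E0 ∧ ∀ e, 0 < e → e ≤ E0 → Ncr th e := by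
  obtain ⟨e1, p1, n1⟩ := sm_rpow (s := th) (A := 81) hth one_pos
  obtain ⟨e2, p2, n2⟩ := sm_rpow (s := 5 / 2 - th) (A := 40) (by linarith)
    (show (0 : ℝ) < 1 / 3 by norm_num)
  obtain ⟨e3, p3, n3⟩ := sm_rpow (s := (3 / 2 : ℝ)) (A := 40) (by norm_num)
    (show (0 : ℝ) < 1 / 3 by norm_num)
  obtain ⟨e4, p4, n4⟩ := sm_rpow (s := (1 / 10 : ℝ)) (A := 1) (by norm_num)
    (show (0 : ℝ) < 1 / 3 by norm_num)
  refine ⟨min (1 / 4) (min e1 (min e2 (min e3 e4))), by positivity, fun e he hle => ?_⟩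
  simp only [le_min_iff] at hle
  obtain ⟨g0, g1, g2, g3, g4⟩ := hle
  exact ⟨n1 e he g1, n2 e he g2, n3 e he g3, n4 e he g4, g0⟩

theorem ncr_ev {b1 b2 pf : ℝ} (Q : ℕ) :
    Ev b1 b2 pf Q fun P _ => 0 < P.th ∧ P.th ≤ 1 ∧ 0 < P.thp ∧
      ∀ e, 0 < e → e ≤ P.es → Ncr P.th e := by
  refine Ev.of ⟨0, fun W _ => ⟨1, one_pos, fun ys _ _ => ⟨0, fun X0 _ => ⟨1, one_pos,
    fun x1 _ _ => ⟨1 / 10, by norm_num, fun thp hthp0 hthp => ⟨1, one_pos,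
    fun th hth0 hth => ⟨0, fun C0 hC0 => ⟨1, one_pos, fun c1 hc10 hc1 => ?_⟩⟩⟩⟩⟩⟩⟩⟩
  obtain ⟨E0, hE0, h⟩ := ncr_ex hth0 hth
  refine ⟨E0, hE0, fun P hP => ?_⟩
  rw [hP.ethp, hP.eth]
  exact ⟨hth0, hth, hthp0, fun e he hle => h e he (hle.trans hP.ees)⟩

/-- the torus of the level `m` in the order of constants -/
theorem tor_ev {b1 b2 pf : ℝ} (Q : ℕ) :
    Ev b1 b2 pf Q fun P _ => ∀ (n m : ℕ) (e e' : ℝ), 0 < e → e ≤ P.es → Cw P n m e e' →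
      P.TT n e (m + P.kE e') := by
  refine Ev.of ⟨0, fun W _ => ⟨1, one_pos, fun ys _ _ => ⟨0, fun X0 _ => ⟨1, one_pos,
    fun x1 _ _ => ⟨1, one_pos, fun thp hthp0 hthp => ⟨1, one_pos,
    fun th hth0 hth => ⟨0, fun C0 hC0 => ⟨1, one_pos, fun c1 hc10 hc1 => ?_⟩⟩⟩⟩⟩⟩⟩⟩
  obtain ⟨E0, hE0, h⟩ := H889.tor_num (q0 := Q + ⌈x1 / thp⌉₊ + 2) hth0 hthp0
  refine ⟨E0, hE0, fun P hP n m e e' he hle hw => ?_⟩
  exact (h P hP.adm hP.eth hP.ethp hP.eq0 n m e e' he (hle.trans hP.ees) hle hw).2.1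

/-- the last sum -/
lemma crk_sum {th e y x Y O D Z : ℝ} (h : Ncr th e) (hth : 0 < th) (he : 0 < e) (hy : 0 < y)
    (hy1 : y ≤ 1) (hx : 0 ≤ x) (hY : 0 ≤ Y) (hZ : 0 ≤ Z) {l2 : ℝ} (hl2 : l2 ≤ (e * y) ^ 2)
    (hO : O ≤ Z + (2 : ℝ) ^ (-(x / 19)) * Y + (e * y) ^ 2 * e)
    (hD : D ≤ e ^ (-th) * O + (2 : ℝ) ^ (-(x / 20)) * Y + l2) :
    40 * D + (2 : ℝ) ^ (-(x / 19)) * Y + e ^ (3 / 5 : ℝ) * y ≤
      e ^ (-(2 * th)) * Z + (2 : ℝ) ^ (-(x / 20)) * e ^ (-(2 * th)) * Y + e ^ (1 / 2 : ℝ) * y := by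
  have he1 : e ≤ 1 := h.a8.trans (by norm_num)
  have p1 : 0 < e ^ (-th) := Real.rpow_pos_of_pos he _
  have q1 : 1 ≤ e ^ (-th) := Real.one_le_rpow_of_pos_of_le_one_of_nonpos he he1 (by linarith)
  have h19 : (2 : ℝ) ^ (-(x / 19)) ≤ (2 : ℝ) ^ (-(x / 20)) :=
    Real.rpow_le_rpow_of_exponent_le one_le_two (by linarith)
  have p20 : 0 < (2 : ℝ) ^ (-(x / 20)) := Real.rpow_pos_of_pos two_pos _
  set u : ℝ := (2 : ℝ) ^ (-(x / 20)) with hu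
  have h19Y : (2 : ℝ) ^ (-(x / 19)) * Y ≤ u * Y := mul_le_mul_of_nonneg_right h19 hY
  have hE : 81 * e ^ (-th) ≤ e ^ (-(2 * th)) := by
    have e1 : e ^ th * e ^ (-(2 * th)) = e ^ (-th) := by
      rw [← Real.rpow_add he]
      congr 1
      ring
    have h3 := mul_le_mul_of_nonneg_right h.a1 (Real.rpow_nonneg he.le (-(2 * th)))
    rw [mul_assoc, e1, one_mul] at h3
    exact h3
  have hD' : D ≤ e ^ (-th) * (Z + u * Y + (e * y) ^ 2 * e) + u * Y + (e * y) ^ 2 := by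
    have h5 : e ^ (-th) * O ≤ e ^ (-th) * (Z + u * Y + (e * y) ^ 2 * e) :=
      mul_le_mul_of_nonneg_left (by linarith) p1.le
    linarith
  have huY : 0 ≤ u * Y := mul_nonneg p20.le hY
  have t1 : 40 * e ^ (-th) * Z ≤ e ^ (-(2 * th)) * Z :=
    mul_le_mul_of_nonneg_right (by linarith) hZ
  have t2 : 40 * e ^ (-th) * (u * Y) + 40 * (u * Y) + u * Y ≤
      u * e ^ (-(2 * th)) * Y := by
    have h5 : 40 * e ^ (-th) + 40 + 1 ≤ e ^ (-(2 * th)) := by linarith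
    have h6 := mul_le_mul_of_nonneg_right h5 huY
    linarith
  -- the remainder
  have hys : y ^ 2 ≤ y := by nlinarith
  have t3 : 40 * e ^ (-th) * ((e * y) ^ 2 * e) ≤ 1 / 3 * (e ^ (1 / 2 : ℝ) * y) := by
    have e1 : e ^ (-th) * e ^ (3 : ℝ) = e ^ (5 / 2 - th) * e ^ (1 / 2 : ℝ) := by
      rw [← Real.rpow_add he, ← Real.rpow_add he]
      congr 1
      ring
    have e2 : e ^ (3 : ℝ) = e ^ 3 := by
      rw [show (3 : ℝ) = ((3 : ℕ) : ℝ) by norm_num, Real.rpow_natCast]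
    rw [e2] at e1
    calc 40 * e ^ (-th) * ((e * y) ^ 2 * e) = 40 * (e ^ (-th) * e ^ 3) * y ^ 2 := by ring
      _ = (40 * e ^ (5 / 2 - th)) * (e ^ (1 / 2 : ℝ) * y ^ 2) := by rw [e1]; ring
      _ ≤ (1 / 3) * (e ^ (1 / 2 : ℝ) * y) := by
        have := h.a2
        gcongr
  have t4 : 40 * (e * y) ^ 2 ≤ 1 / 3 * (e ^ (1 / 2 : ℝ) * y) := by
    have e1 : e ^ (2 : ℝ) = e ^ (3 / 2 : ℝ) * e ^ (1 / 2 : ℝ) := by
      rw [← Real.rpow_add he]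
      congr 1
      norm_num
    have e2 : e ^ (2 : ℝ) = e ^ 2 := by
      rw [show (2 : ℝ) = ((2 : ℕ) : ℝ) by norm_num, Real.rpow_natCast]
    rw [e2] at e1
    calc 40 * (e * y) ^ 2 = 40 * e ^ 2 * y ^ 2 := by ring
      _ = (40 * e ^ (3 / 2 : ℝ)) * (e ^ (1 / 2 : ℝ) * y ^ 2) := by rw [e1]; ring
      _ ≤ (1 / 3) * (e ^ (1 / 2 : ℝ) * y) := by
        have := h.a3
        gcongr
  have t5 : e ^ (3 / 5 : ℝ) * y ≤ 1 / 3 * (e ^ (1 / 2 : ℝ) * y) := by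
    have e1 : e ^ (3 / 5 : ℝ) = (1 * e ^ (1 / 10 : ℝ)) * e ^ (1 / 2 : ℝ) := by
      rw [one_mul, ← Real.rpow_add he]
      congr 1
      norm_num
    rw [e1]
    have := h.a4
    calc 1 * e ^ (1 / 10 : ℝ) * e ^ (1 / 2 : ℝ) * y =
          (1 * e ^ (1 / 10 : ℝ)) * (e ^ (1 / 2 : ℝ) * y) := by ring
      _ ≤ _ := by gcongr
  linarith

/-- **CRK**, from the inequality of helper415 -/
theorem crk_of {b b1 b2 : ℝ} (hb1 : 0 < b1) (h1 : b1 ≤ b) (h2 : b ≤ b2)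
    (hel : helicity b = 2 / Real.pi) {K : ℝ} {Q : ℕ}
    (hO : EvC b1 b2 (9 / 10) Q K fun P c1 C1 => Omyt P b c1 C1) :
    EvC b1 b2 (9 / 10) Q K fun P c1 C1 => ∀ a : ℕ → ℝ, FLC P b a →
      Tendsto a atTop (𝓝 (Real.pi / 2)) → ∀ᶠ N0 in atTop, CRK P b C1 c1 2 N0 := by
  have hb0 : 0 < b := hb1.trans_le h1
  obtain ⟨N1, hzb⟩ := zb_ev hb1 h1 (b2 := b2) hel K Q
  unfold H889.EvC at hO ⊢
  refine ((((hzb.and hO).and (sm1_ev (b1 := b1) (b2 := b2) K Q)).and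
    (H363.cvpn_ev (B := 2) hb1 h1 h2 (by norm_num) Q)).and
    ((ncr_ev (b1 := b1) (b2 := b2) (pf := 9 / 10) Q).and
      (tor_ev (b1 := b1) (b2 := b2) (pf := 9 / 10) Q))).mono ?_
  rintro P c1 hA ⟨⟨⟨⟨hzb, hO⟩, hc1, hpf, _, _, hsm⟩, hcv⟩, ⟨hth, hth1, hthp, hn⟩, htor⟩
  intro C1 hC1 hC0 hCK a hF ha
  have hda : ∀ᶠ n in atTop, |a n - Real.pi / 2| ≤ P.th / (64 * P.thp) := by
    have h5 : Tendsto (fun n => |a n - Real.pi / 2|) atTop (𝓝 |Real.pi / 2 - Real.pi / 2|) :=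
      (ha.sub_const _).abs
    rw [sub_self, abs_zero] at h5
    exact (h5.eventually (gt_mem_nhds (show (0 : ℝ) < P.th / (64 * P.thp) by positivity))).mono
      fun n hn => hn.le
  obtain ⟨N2, hN2⟩ := eventually_atTop.1 hda
  refine eventually_atTop.2 ⟨max N1 N2, fun N0 hN0 => ?_⟩
  intro n m s r1 e e' y Y hn0 hX hW hG' hm1 hm2 hr1 hY
  have L := lv_of_cx hX
  have hs := hsm C1 hC1 hCK e hX.e0 hX.es
  have hsn := L.sn hs hC1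
  have hns := L.ns hs hC1 hc1
  have he := hX.e0
  have hy := hX.y0
  have hy1 := L.y1 hs
  have hN1 : N1 ≤ n := ((le_max_left _ _).trans hN0).trans hn0
  have hN2' : N2 ≤ n := ((le_max_right _ _).trans hN0).trans hn0
  obtain ⟨Y0, hY0d⟩ : ∃ Y0 : ℝ, Y0 = min Y (e ^ (-(P.thp / 20)) * y) := ⟨_, rfl⟩
  have hY0 : ∀ r, P.TT n e r → yt (2 ^ r) b (4 * tn n) ≤ Y0 := by
    intro r hr
    rw [hY0d]
    exact le_min (hY r hr) (hX.vy r hr)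
  have hY0Y : Y0 ≤ Y := by rw [hY0d]; exact min_le_left _ _
  have hY0y : Y0 ≤ e ^ (-(P.thp / 20)) * y := by rw [hY0d]; exact min_le_right _ _
  have htn := H972.tn_pos n
  have i1 : NeZero (2 ^ r1 / 2 ^ s) := H889.nz_pow (hsn.trans hr1)
  obtain ⟨hTT, hrm, hZ⟩ := hzb C1 hC1 hC0 hCK n m s r1 e e' y hN1 hX hW hm1 hm2 hr1
  have hY00 : 0 ≤ Y0 := (yt_nonneg hb0.le (by positivity)).trans (hY0 r1 hTT)
  obtain ⟨T, hT1, hT2, hT3⟩ := hZ Y0 (hY0 r1 hTT) hY0y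
  have hTT2 := htor n m e e' he hX.es hW
  have hYY : 16 * Y0 ^ 2 ≤ e := by
    refine le_trans ?_ (L.yy hs)
    have := pow_le_pow_left₀ hY00 hY0y 2
    linarith
  have hCp : H363.CpL P b c1 n m r1 (m + P.kE e') s e T Y0 (a n) :=
    { lv :=
        { lv := ⟨he, hX.es, hX.G, hT1, hT2, hsn, hX.ns, hns, L.lam hs hC1⟩
          sE := L.sE hs hC1 hC0 P.C00.le
          T1 := hTT
          T2 := hTT2
          y1 := hY0 r1 hTT
          y2 := hY0 _ hTT2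
          Y2 := hYY }
      rm := hrm
      mr := Nat.le_add_right _ _
      m9 := by omega
      w1 := hW.w1
      w2 := hW.w2
      fl := hF n e he hX.es hX.G e le_rfl hX.es r1 hTT
      ap := hN2 n hN2' }
  have hD := hcv n m r1 (m + P.kE e') s e T Y0 (a n) hCp
  have hO' := hO C1 hC1 hC0 hCK n m s e e' y Y0 hX hW hG' hY0 hY0y
  have hmn : (0 : ℝ) ≤ (m : ℝ) - n := by
    have : (n : ℝ) ≤ m := by exact_mod_cast (show n ≤ m by omega)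
    linarith
  have hl2 : ((2 : ℝ) ^ s / 2 ^ n) ^ (2 : ℝ) ≤ (e * y) ^ 2 := by
    have hx := L.ey hs
    have h5 : (2 : ℝ) ^ s / 2 ^ n ≤ e * y := by
      refine L.s2.trans ?_
      calc (e * y) ^ C1 ≤ (e * y) ^ (1 : ℝ) :=
            Real.rpow_le_rpow_of_exponent_ge hx.2 (by linarith [hx.1, hs.a6]) hC1
        _ = e * y := Real.rpow_one _
    rw [show (2 : ℝ) = ((2 : ℕ) : ℝ) by norm_num, Real.rpow_natCast]
    push_cast
    exact pow_le_pow_left₀ (by positivity) h5 2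
  have hZ0 : 0 ≤ Yn (2 ^ r1) b := H316.Yn_nonneg hb0
  have key := crk_sum (hn e he hX.es) hth he hy hy1 hmn hY00 hZ0 hl2 hT3 hD
  refine (hO'.trans key).trans ?_
  have h5 : (2 : ℝ) ^ (-(((m : ℝ) - n) / 20)) * e ^ (-(2 * P.th)) * Y0 ≤
      (2 : ℝ) ^ (-(((m : ℝ) - n) / 20)) * e ^ (-(2 * P.th)) * Y :=
    mul_le_mul_of_nonneg_left hY0Y (by positivity)
  linarith

/-- **CRK** -/
theorem crk_ev {b b1 b2 : ℝ} (hb1 : 0 < b1) (h1 : b1 ≤ b) (h2 : b ≤ b2)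
    (hel : helicity b = 2 / Real.pi) (K : ℝ) (Q : ℕ) :
    EvC b1 b2 (9 / 10) Q K fun P c1 C1 => ∀ a : ℕ → ℝ, FLC P b a →
      Tendsto a atTop (𝓝 (Real.pi / 2)) → ∀ᶠ N0 in atTop, CRK P b C1 c1 2 N0 :=
  crk_of hb1 h1 h2 hel (H415.ev_omyt hb1 h1 (by norm_num) K Q)

end

end Vale.Agent.P159.H30.Crk
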