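import Vale.Agent.P159.H30.D4

/-!
START, part AP (helper30): the a-priori field AP(X) at the start: for Gaussian cell noise of
amplitude `X √τ` on any set of cells (any matrix `L` with rows of norm `≤ 1`), `R ≤ ε` except with
probability `1/30`; integer and neutral model.
-/

namespace Vale.Agent.P159.H30

open Finset Matrix MeasureTheory ProbabilityTheory Filter Topology
open Vale.Agent.P159 Vale.Agent.P159.TM
open Vale.Agent.P159.TM.H104 (EM Ex Cv K3 Lg li nh Gr)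
open Vale.Agent.P159.H37
open Vale.Agent.P159.H963 (GW MF nM Neu ntr pin nwt)
open Vale.Agent.P159.TM.Spec (V)
open Vale.Agent.P159.TM.SpecC (Tor wT)
open Vale.Agent.P159.H864 (cobV cl)
open Vale.Agent.P159.H447 (K4S SN CN)

section gauss

variable {I : Type*} [Fintype I]

/-- one sided tail of a linear functional -/
lemma lin_tail1 (a : I → ℝ) {r : ℝ} (hr : 0 ≤ r) (ha : ∑ i, a i ^ 2 ≤ 1) :
    (gau I).real {g | r ≤ ∑ i, a i * g i} ≤ Real.exp (-(r ^ 2 / 2)) := by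
  have e : ∀ g : I → ℝ, r * ∑ i, a i * g i = ∑ i, (r * a i) * g i := fun g => by
    rw [Finset.mul_sum]
    exact Finset.sum_congr rfl fun i _ => by ring
  have h1 : Integrable (fun g : I → ℝ => Real.exp (r * ∑ i, a i * g i)) (gau I) := by
    simp only [e]
    exact H37.integrable_exp_lin _
  have h2 := measure_ge_le_exp_mul_mgf (μ := gau I) (X := fun g : I → ℝ => ∑ i, a i * g i) r hr h1
  have h3 : mgf (fun g : I → ℝ => ∑ i, a i * g i) (gau I) r =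
      Real.exp ((∑ i, (r * a i) ^ 2) / 2) := by
    unfold mgf
    simp only [e]
    exact H37.gau_exp _
  rw [h3, ← Real.exp_add] at h2
  refine h2.trans (Real.exp_le_exp.2 ?_)
  have h4 : ∑ i, (r * a i) ^ 2 = r ^ 2 * ∑ i, a i ^ 2 := by
    rw [Finset.mul_sum]
    exact Finset.sum_congr rfl fun i _ => by ring
  rw [h4]
  nlinarith [sq_nonneg r]

/-- two sided tail -/
lemma lin_tail (a : I → ℝ) {r : ℝ} (hr : 0 ≤ r) (ha : ∑ i, a i ^ 2 ≤ 1) :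
    (gau I).real {g | r ≤ |∑ i, a i * g i|} ≤ 2 * Real.exp (-(r ^ 2 / 2)) := by
  have h1 : {g : I → ℝ | r ≤ |∑ i, a i * g i|} ⊆
      {g | r ≤ ∑ i, a i * g i} ∪ {g | r ≤ ∑ i, (-a i) * g i} := by
    intro g hg
    rcases le_abs.1 (show r ≤ |∑ i, a i * g i| from hg) with h | h
    · exact Or.inl h
    · refine Or.inr ?_
      have e : ∑ i, (-a i) * g i = -∑ i, a i * g i := by
        rw [← Finset.sum_neg_distrib]
        exact Finset.sum_congr rfl fun i _ => by ring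
      show r ≤ ∑ i, (-a i) * g i
      rw [e]
      exact h
  have h2 := lin_tail1 a hr ha
  have h3 := lin_tail1 (fun i => -a i) hr (by simpa using ha)
  calc (gau I).real {g | r ≤ |∑ i, a i * g i|}
      ≤ (gau I).real ({g | r ≤ ∑ i, a i * g i} ∪ {g | r ≤ ∑ i, (-a i) * g i}) :=
        measureReal_mono h1
    _ ≤ (gau I).real {g | r ≤ ∑ i, a i * g i} + (gau I).real {g | r ≤ ∑ i, (-a i) * g i} :=
        measureReal_union_le _ _
    _ ≤ 2 * Real.exp (-(r ^ 2 / 2)) := by linarith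

/-- union bound -/
lemma sup_tail {C : Type*} [Fintype C] (L : Matrix C I ℝ) (hL : ∀ c, ∑ j, L c j ^ 2 ≤ 1) {r : ℝ}
    (hr : 0 ≤ r) : (gau I).real {g | ∃ c, r ≤ |(L *ᵥ g) c|} ≤
      2 * Fintype.card C * Real.exp (-(r ^ 2 / 2)) := by
  have h1 : {g : I → ℝ | ∃ c, r ≤ |(L *ᵥ g) c|} = ⋃ c, {g | r ≤ |∑ j, L c j * g j|} := by
    ext g
    simp only [Set.mem_ofPred_eq, Set.mem_iUnion]
    rfl
  rw [h1]
  calc (gau I).real (⋃ c, {g | r ≤ |∑ j, L c j * g j|})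
      ≤ ∑ c, (gau I).real {g | r ≤ |∑ j, L c j * g j|} := measureReal_iUnion_fintype_le _
    _ ≤ ∑ _c : C, 2 * Real.exp (-(r ^ 2 / 2)) :=
        Finset.sum_le_sum fun c _ => lin_tail (L c) hr (hL c)
    _ = 2 * Fintype.card C * Real.exp (-(r ^ 2 / 2)) := by
        rw [Finset.sum_const, Finset.card_univ, nsmul_eq_mul]
        ring

end gauss

section ap

variable {N l : ℕ} [NeZero N] [NeZero (N / l)] {b τ : ℝ} {I : Type*} [Fintype I]

lemma cobV_tr_apply (f : V (N / l) → ℝ) (x : V N) :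
    ((cobV N l)ᵀ *ᵥ f) x = (l : ℝ)⁻¹ * f (cl x) := by
  rw [H864.cobV_tr_mulVec]

omit [NeZero N] in
lemma Pn_mulVec (f : V (N / l) → ℝ) (c : V (N / l)) :
    ((H963.Pn : Matrix (V (N / l)) (V (N / l)) ℝ) *ᵥ f) c =
      f c - (∑ c', f c') / Fintype.card (V (N / l)) := by
  unfold H963.Pn
  rw [H963.ntr_mulVec, Matrix.one_mulVec]
  ring

omit [NeZero N] in
lemma abs_Pn_le {f : V (N / l) → ℝ} {r : ℝ} (hf : ∀ c, |f c| ≤ r) (c : V (N / l)) :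
    |((H963.Pn : Matrix (V (N / l)) (V (N / l)) ℝ) *ᵥ f) c| ≤ 2 * r := by
  rw [Pn_mulVec]
  have hn : (0 : ℝ) < Fintype.card (V (N / l)) := Nat.cast_pos.2 Fintype.card_pos
  have h1 : |(∑ c', f c') / Fintype.card (V (N / l))| ≤ r := by
    rw [abs_div, abs_of_pos hn, div_le_iff₀ hn]
    calc |∑ c', f c'| ≤ ∑ c', |f c'| := Finset.abs_sum_le_sum_abs _ _
      _ ≤ ∑ _c' : V (N / l), r := Finset.sum_le_sum fun c _ => hf c
      _ = r * Fintype.card (V (N / l)) := by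
          rw [Finset.sum_const, Finset.card_univ, nsmul_eq_mul, mul_comm]
  have h2 := abs_sub (f c) ((∑ c', f c') / Fintype.card (V (N / l)))
  linarith [hf c]

omit [NeZero N] [NeZero (N / l)] in
lemma cl_cell {x y : V N} (h1 : x.1.val / l = y.1.val / l) (h2 : x.2.val / l = y.2.val / l) :
    cl (N := N) (l := l) x = cl y := by
  unfold H864.cl H864.cl1
  rw [h1, h2]

/-- AP from `R`, integer model -/
theorem ap_of_R (hl : l ∣ N) (hτ : 0 < τ) {Λ ε : ℝ}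
    (HR : ∀ F : V N → ℝ, (∀ x, |F x| ≤ Λ) → CellC N l F → Rs (wt N b τ) (τ • F) ≤ ε)
    (L : Matrix (V (N / l)) I ℝ) (hL : ∀ c, ∑ j, L c j ^ 2 ≤ 1) {X r : ℝ} (hX : 0 ≤ X)
    (hr : 0 ≤ r) (h : X * r ≤ Λ * (√τ * l)) :
    (gau I).real {g | ε < Rs (wt N b τ) (((X * √τ) • ((cobV N l)ᵀ * L)) *ᵥ g)} ≤
      2 * ((N / l : ℕ) : ℝ) ^ 2 * Real.exp (-(r ^ 2 / 2)) := by
  have hsq : 0 < √τ := Real.sqrt_pos.2 hτ
  have hsq2 : √τ * √τ = τ := Real.mul_self_sqrt hτ.le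
  have hl0 : (0 : ℝ) < l := l_pos' hl
  have h1 := sup_tail L hL hr
  rw [H963.cardV] at h1
  refine (measureReal_mono ?_).trans h1
  intro g hg
  by_contra hc
  simp only [Set.mem_ofPred_eq, not_exists, not_le] at hc
  simp only [Set.mem_ofPred_eq] at hg
  refine absurd ?_ (not_le.2 hg)
  have e : ((X * √τ) • ((cobV N l)ᵀ * L)) *ᵥ g = τ • fun x => X / √τ * ((l : ℝ)⁻¹ *
      (L *ᵥ g) (cl x)) := by
    funext x
    rw [Matrix.smul_mulVec, ← Matrix.mulVec_mulVec, Pi.smul_apply, Pi.smul_apply, cobV_tr_apply]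
    simp only [smul_eq_mul]
    calc X * √τ * ((l : ℝ)⁻¹ * (L *ᵥ g) (cl x))
        = (√τ * √τ) * (X / √τ * ((l : ℝ)⁻¹ * (L *ᵥ g) (cl x))) := by field_simp
      _ = _ := by rw [hsq2]
  rw [e]
  refine HR _ (fun x => ?_) fun x y h1 h2 => ?_
  · rw [abs_mul, abs_mul, abs_of_nonneg (by positivity : 0 ≤ X / √τ),
      abs_of_pos (by positivity : 0 < (l : ℝ)⁻¹)]
    have h3 : |(L *ᵥ g) (cl x)| ≤ r := (hc (cl x)).le
    calc X / √τ * ((l : ℝ)⁻¹ * |(L *ᵥ g) (cl x)|) ≤ X / √τ * ((l : ℝ)⁻¹ * r) := by gcongr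
      _ = X * r / (√τ * l) := by field_simp
      _ ≤ Λ := by rw [div_le_iff₀ (by positivity)]; exact h
  · simp only [cl_cell h1 h2]

/-- AP from `R`, neutral model -/
theorem apn_of_R (hl : l ∣ N) (hτ : 0 < τ) (x₀ : V N) {Λ ε : ℝ}
    (HR : ∀ F : V N → ℝ, Neu F → (∀ x, |F x| ≤ Λ) → CellC N l F →
      Rs (nwt N b τ x₀) (τ • F) ≤ ε)
    (L : Matrix (V (N / l)) I ℝ) (hL : ∀ c, ∑ j, L c j ^ 2 ≤ 1) {X r : ℝ} (hX : 0 ≤ X)
    (hr : 0 ≤ r) (h : X * (2 * r) ≤ Λ * (√τ * l)) :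
    (gau I).real {g | ε < Rs (nwt N b τ x₀) (((X * √τ) • ((CN N l)ᵀ * L)) *ᵥ g)} ≤
      2 * ((N / l : ℕ) : ℝ) ^ 2 * Real.exp (-(r ^ 2 / 2)) := by
  have hsq : 0 < √τ := Real.sqrt_pos.2 hτ
  have hsq2 : √τ * √τ = τ := Real.mul_self_sqrt hτ.le
  have hl0 : (0 : ℝ) < l := l_pos' hl
  have h1 := sup_tail L hL hr
  rw [H963.cardV] at h1
  refine (measureReal_mono ?_).trans h1
  intro g hg
  by_contra hc
  simp only [Set.mem_ofPred_eq, not_exists, not_le] at hc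
  simp only [Set.mem_ofPred_eq] at hg
  refine absurd ?_ (not_le.2 hg)
  have hPt : (H963.Pn : Matrix (V (N / l)) (V (N / l)) ℝ)ᵀ = H963.Pn := by
    unfold H963.Pn
    exact H963.ntr_transpose Matrix.transpose_one 1
  have e0 : ((CN N l)ᵀ * L) *ᵥ g = (cobV N l)ᵀ *ᵥ
      ((H963.Pn : Matrix (V (N / l)) (V (N / l)) ℝ) *ᵥ (L *ᵥ g)) := by
    unfold H447.CN
    rw [Matrix.transpose_mul, hPt, ← Matrix.mulVec_mulVec, ← Matrix.mulVec_mulVec]
  have e : ((X * √τ) • ((CN N l)ᵀ * L)) *ᵥ g = τ • ((X / √τ) • (((CN N l)ᵀ * L) *ᵥ g)) := by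
    rw [Matrix.smul_mulVec, smul_smul]
    congr 1
    calc X * √τ = (√τ * √τ) * (X / √τ) := by field_simp
      _ = _ := by rw [hsq2]
  have hf : ∀ c, |(L *ᵥ g) c| ≤ r := fun c => (hc c).le
  have hneu : Neu (((CN N l)ᵀ * L) *ᵥ g) := by
    rw [e0]
    refine H963.neu_cobV_tr hl ?_
    unfold Neu
    simp only [Pn_mulVec, Finset.sum_sub_distrib, Finset.sum_const, Finset.card_univ, nsmul_eq_mul]
    have hn : (0 : ℝ) < Fintype.card (V (N / l)) := Nat.cast_pos.2 Fintype.card_pos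
    field_simp
    ring
  rw [e]
  refine HR _ (hneu.smul _) (fun x => ?_) fun x y h1 h2 => ?_
  · rw [e0, Pi.smul_apply, cobV_tr_apply, smul_eq_mul, abs_mul, abs_mul,
      abs_of_nonneg (by positivity : 0 ≤ X / √τ), abs_of_pos (by positivity : 0 < (l : ℝ)⁻¹)]
    have h3 := abs_Pn_le hf (cl x)
    calc X / √τ * ((l : ℝ)⁻¹ * |((H963.Pn : Matrix (V (N / l)) (V (N / l)) ℝ) *ᵥ
          (L *ᵥ g)) (cl x)|) ≤ X / √τ * ((l : ℝ)⁻¹ * (2 * r)) := by gcongr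
      _ = X * (2 * r) / (√τ * l) := by field_simp
      _ ≤ Λ := by rw [div_le_iff₀ (by positivity)]; exact h
  · rw [e0, Pi.smul_apply, Pi.smul_apply, cobV_tr_apply, cobV_tr_apply, cl_cell h1 h2]

/-- **the field AP of `Good`**: Gaussian cell noise of amplitude `X' √τ`, `X' ≤ X`, cut and mixed
by any matrix `L` with rows of norm `≤ 1` (for instance the indicator of a set of cells) -/
structure APS (b : ℝ) (N l : ℕ) [NeZero N] [NeZero (N / l)] (X ε τ : ℝ) : Prop where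
  ap : ∀ {I : Type} [Fintype I] (L : Matrix (V (N / l)) I ℝ), (∀ c, ∑ j, L c j ^ 2 ≤ 1) →
    ∀ X' : ℝ, 0 ≤ X' → X' ≤ X →
    (gau I).real {g | ε < Rs (wt N b τ) (((X' * √τ) • ((cobV N l)ᵀ * L)) *ᵥ g)} ≤ 1 / 30
  apn : ∀ (x₀ : V N) {I : Type} [Fintype I] (L : Matrix (V (N / l)) I ℝ),
    (∀ c, ∑ j, L c j ^ 2 ≤ 1) → ∀ X' : ℝ, 0 ≤ X' → X' ≤ X →
    (gau I).real {g | ε < Rs (nwt N b τ x₀) (((X' * √τ) • ((CN N l)ᵀ * L)) *ᵥ g)} ≤ 1 / 30

theorem StN.toAPS {ξ Λ ε X r : ℝ} (hl : l ∣ N) (hτ : 0 < τ) (h : StN b N l ξ Λ ε τ) (hX : 0 ≤ X)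
    (hr : 0 ≤ r) (h1 : X * (2 * r) ≤ Λ * (√τ * l))
    (h2 : 2 * ((N / l : ℕ) : ℝ) ^ 2 * Real.exp (-(r ^ 2 / 2)) ≤ 1 / 30) :
    APS b N l X ε τ where
  ap L hL X' hX0 hX1 := by
    refine (ap_of_R hl hτ h.R L hL hX0 hr (le_trans ?_ h1)).trans h2
    have h3 : X' * r ≤ X * r := mul_le_mul_of_nonneg_right hX1 hr
    have h4 : 0 ≤ X * r := mul_nonneg hX hr
    linarith
  apn x₀ _ _ L hL X' hX0 hX1 := by
    refine (apn_of_R hl hτ x₀ (h.Rn x₀) L hL hX0 hr (le_trans ?_ h1)).trans h2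
    exact mul_le_mul_of_nonneg_right hX1 (by linarith)

end ap

lemma num_tail {K : ℝ} (hK : 2 ≤ K) : 2 * K ^ 2 * Real.exp (-((4 * K) ^ 2 / 2)) ≤ 1 / 30 := by
  have h1 : (4 * K) ^ 2 / 2 = 8 * K ^ 2 := by ring
  rw [h1]
  have hx : 0 ≤ 8 * K ^ 2 := by positivity
  have h2 := Real.quadratic_le_exp_of_nonneg hx
  have h3 : 32 * K ^ 4 ≤ Real.exp (8 * K ^ 2) := by nlinarith
  rw [Real.exp_neg]
  have hK4 : 0 < 32 * K ^ 4 := by positivity
  calc 2 * K ^ 2 * (Real.exp (8 * K ^ 2))⁻¹ ≤ 2 * K ^ 2 * (32 * K ^ 4)⁻¹ := by gcongr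
    _ = 1 / 16 * (1 / K ^ 2) := by
        field_simp
        norm_num
    _ ≤ 1 / 16 * (1 / 4) := by
        have : (4 : ℝ) ≤ K ^ 2 := by nlinarith
        gcongr
    _ ≤ 1 / 30 := by norm_num

/-- **START in the letters of `Good`**: `R`, `D`, AP, integer and neutral, at all the real masses
`ξ⁻² ≤ τ ≤ 4 ξ⁻²`, on all the tori `N = 2^i ξ`, `i₀ ≤ i ≤ I₀`, and all the cells `l = ξ 2^(-s)`,
`1 ≤ s ≤ A i`, at every scale `ξ = 2^n`, `n ≥ n₀` -/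
theorem start_G {b : ℝ} (hb : 0 < b) (hY : 2 / Real.pi ≤ helicity b) {A : ℕ} (hA : 2 ≤ A) :
    ∃ i₀ : ℕ, ∀ I₀ : ℕ, ∃ n₀ : ℕ, ∀ n : ℕ, n₀ ≤ n → ∀ i : ℕ, i₀ ≤ i → i ≤ I₀ →
      ∀ s : ℕ, 1 ≤ s → s ≤ A * i → s ≤ n ∧ ∀ (N l : ℕ) [NeZero N] [NeZero (N / l)],
        N = 2 ^ (i + n) → l = 2 ^ (n - s) → ∀ τ : ℝ, 1 / (2 ^ n : ℝ) ^ 2 ≤ τ →
        τ ≤ 4 / (2 ^ n : ℝ) ^ 2 →
        StN b N l (2 ^ n) (2 ^ (A * i)) (1 / 2 ^ (A * i)) τ ∧
        APS b N l (2 ^ (A * i)) (1 / 2 ^ (A * i)) τ := by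
  obtain ⟨i₀, hi₀⟩ := start_all hb hY (A := 3 * A + 4) (by omega)
  refine ⟨max i₀ 1, fun I₀ => ?_⟩
  obtain ⟨n₀, hn₀⟩ := hi₀ I₀
  refine ⟨n₀, fun n hn i hi hiI s hs1 hs => ?_⟩
  have hi1 : 1 ≤ i := (le_max_right _ _).trans hi
  have hAi : A * i ≤ (3 * A + 4) * i := Nat.mul_le_mul_right _ (by omega)
  obtain ⟨hsn, h1⟩ := hn₀ n hn i ((le_max_left _ _).trans hi) hiI s hs1 (hs.trans hAi)
  refine ⟨hsn, fun N l _ _ hN hl τ hτ1 hτ2 => ?_⟩
  have hτ0 : 0 < τ := lt_of_lt_of_le (by positivity) hτ1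
  subst hN hl
  have h2 := h1 τ hτ1 hτ2
  have hd : 2 ^ (n - s) ∣ 2 ^ (i + n) := pow_dvd_pow 2 (by omega)
  have e1 : (1 : ℝ) / 2 ^ ((3 * A + 4) * i) ≤ 1 / 2 ^ (A * i) :=
    one_div_le_one_div_of_le (by positivity) (pow_le_pow_right₀ (by norm_num) hAi)
  refine ⟨h2.mono (pow_le_pow_right₀ (by norm_num) hAi) e1, ?_⟩
  have hNl : 2 ^ (i + n) / 2 ^ (n - s) = 2 ^ (i + s) := by
    rw [Nat.pow_div (by omega) (by norm_num)]
    congr 1
    omega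
  have h3 : StN b (2 ^ (i + n)) (2 ^ (n - s)) (2 ^ n) (2 ^ ((3 * A + 4) * i)) (1 / 2 ^ (A * i)) τ :=
    h2.mono le_rfl e1
  refine h3.toAPS hd hτ0 (r := 4 * 2 ^ (i + s)) (by positivity) (by positivity) ?_ ?_
  · have h4 : (1 : ℝ) / 2 ^ s ≤ √τ * ((2 ^ (n - s) : ℕ) : ℝ) := by
      have h5 : (1 : ℝ) / 2 ^ n ≤ √τ := by
        refine Real.le_sqrt_of_sq_le (le_trans (le_of_eq ?_) hτ1)
        rw [div_pow, one_pow]
      have h6 : (1 : ℝ) / 2 ^ s = 1 / 2 ^ n * ((2 ^ (n - s) : ℕ) : ℝ) := by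
        push_cast
        rw [div_mul_eq_mul_div, one_mul, eq_div_iff (by positivity), div_mul_eq_mul_div, one_mul,
          div_eq_iff (by positivity), ← pow_add]
        congr 1
        omega
      rw [h6]
      gcongr
    have h7 : (2 : ℝ) ^ (A * i) * (2 * (4 * 2 ^ (i + s))) ≤
        2 ^ ((3 * A + 4) * i) * (1 / 2 ^ s) := by
      rw [mul_one_div, le_div_iff₀ (by positivity)]
      have h8 : (2 : ℝ) ^ (A * i) * (2 * (4 * 2 ^ (i + s))) * 2 ^ s =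
          2 ^ (A * i + 3 + (i + s) + s) := by
        rw [pow_add, pow_add, pow_add]
        ring
      rw [h8]
      refine pow_le_pow_right₀ (by norm_num) ?_
      nlinarith
    exact h7.trans (by gcongr)
  · rw [hNl]
    push_cast
    refine num_tail ?_
    calc (2 : ℝ) = 2 ^ 1 := by norm_num
      _ ≤ 2 ^ (i + s) := pow_le_pow_right₀ (by norm_num) (by omega)

end Vale.Agent.P159.H30
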