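import Vale.Agent.P159.H586.Fern1
import Vale.Agent.P159.H276.DownA
import Vale.Agent.P159.H363.Law
import Vale.Agent.P159.H859.Nbx

/-!
P159, module AP AT EVERY REAL MASS (helper30), part 1: weighted convexity, Markov for Gaussian
quadratic forms, domination by block noise with a factor.
-/

set_option linter.unusedSectionVars false

namespace Vale.Agent.P159.H30

open Finset Matrix MeasureTheory ProbabilityTheory
open Vale.Agent.P159.TM.H104 (EM Lg)
open Vale.Agent.P159.H37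

noncomputable section

/-- weighted convexity: `f (w_i⁻¹ x_i) ≤ r`, `Σ w_i ≤ 1`, `f 0 ≤ r` give `f (Σ x_i) ≤ r` -/
theorem conv_w {E ι : Type*} [AddCommGroup E] [Module ℝ E] {f : E → ℝ}
    (hf : ConvexOn ℝ Set.univ f) {r : ℝ} (h0 : f 0 ≤ r) (s : Finset ι) {w : ι → ℝ}
    (hw : ∀ i ∈ s, 0 < w i) (hw1 : ∑ i ∈ s, w i ≤ 1) (x : ι → E)
    (hx : ∀ i ∈ s, f ((w i)⁻¹ • x i) ≤ r) : f (∑ i ∈ s, x i) ≤ r := by
  classical
  set u : Option ι → ℝ := fun o => o.elim (1 - ∑ i ∈ s, w i) w with hu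
  set y : Option ι → E := fun o => o.elim 0 fun i => (w i)⁻¹ • x i with hy
  have h1 := hf.map_sum_le (t := Finset.insertNone s) (w := u) (p := y)
    (by
      intro o ho
      rcases o with _ | i
      · simp only [hu, Option.elim]
        linarith
      · rw [Finset.some_mem_insertNone] at ho
        simp only [hu, Option.elim]
        exact (hw i ho).le)
    (by
      rw [Finset.sum_insertNone]
      simp [hu, Option.elim])
    (fun _ _ => Set.mem_univ _)
  rw [Finset.sum_insertNone, Finset.sum_insertNone] at h1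
  simp only [hu, hy, Option.elim, smul_zero, zero_add, smul_eq_mul, smul_smul] at h1
  have e : ∑ i ∈ s, (w i * (w i)⁻¹) • x i = ∑ i ∈ s, x i := by
    refine Finset.sum_congr rfl fun i hi => ?_
    rw [mul_inv_cancel₀ (hw i hi).ne', one_smul]
  rw [e] at h1
  refine h1.trans ?_
  have h2 : ∑ i ∈ s, w i * f ((w i)⁻¹ • x i) ≤ ∑ i ∈ s, w i * r :=
    Finset.sum_le_sum fun i hi => mul_le_mul_of_nonneg_left (hx i hi) (hw i hi).le
  rw [← Finset.sum_mul] at h2
  have h3 : (1 - ∑ i ∈ s, w i) * f 0 ≤ (1 - ∑ i ∈ s, w i) * r :=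
    mul_le_mul_of_nonneg_left h0 (by linarith)
  linarith

section gauss

variable {V : Type} [Fintype V] [DecidableEq V] {I : Type*} [Fintype I] {J : Type*} [Fintype J]

/-- Markov for a nonnegative quadratic form of a Gaussian vector -/
theorem gau_mk {M : Matrix V V ℝ} (h0 : ∀ u, 0 ≤ qf M u) (B : Matrix V I ℝ) {x : ℝ} (hx : 0 < x) :
    (gau I).real {g | x < qf M (B *ᵥ g)} ≤ (M * (B * Bᵀ)).trace / x := by
  have hi : Integrable (fun g : I → ℝ => qf M (B *ᵥ g)) (gau I) := by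
    have e : (fun g : I → ℝ => qf M (B *ᵥ g)) = fun g => ∑ x, ∑ y, M x y *
        ((∑ j, B x j * g j) * ∑ j, B y j * g j) := by
      funext g
      unfold qf
      refine Finset.sum_congr rfl fun x _ => Finset.sum_congr rfl fun y _ => ?_
      change (∑ j, B x j * g j) * M x y * (∑ j, B y j * g j) = _
      ring
    rw [e]
    exact integrable_finsetSum _ fun x _ => integrable_finsetSum _ fun y _ =>
      (H663.int_lin_mul _ _).const_mul _
  have h2 := mul_meas_ge_le_integral_of_nonneg (μ := gau I)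
    (Filter.Eventually.of_forall fun g => h0 (B *ᵥ g)) hi x
  rw [H276.gau_qf] at h2
  rw [le_div_iff₀ hx]
  have h3 : (gau I).real {g | x < qf M (B *ᵥ g)} ≤ (gau I).real {g | x ≤ qf M (B *ᵥ g)} :=
    measureReal_mono fun g hg => by
      simp only [Set.mem_ofPred_eq] at hg ⊢
      exact hg.le
  nlinarith

/-- the tail of `R(A g)` when `a² |Aᵀ α|² ≤ |Bᵀ α|²` and `B` has the a priori bound -/
theorem tail_dom {μ : (V → ℤ) → ℝ} (hμ : EM μ) (he : Ev μ) (hK : PK μ) {A : Matrix V I ℝ}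
    {B : Matrix V J ℝ} {a : ℝ} (ha : 1 ≤ a)
    (h : ∀ α : V → ℝ, a ^ 2 * ∑ i, (α ᵥ* A) i ^ 2 ≤ ∑ j, (α ᵥ* B) j ^ 2) {r : ℝ}
    (hp : (gau J).real {g | r < Rs μ (B *ᵥ g)} ≤ 1 / 30) :
    (gau I).real {g | r < Rs μ (A *ᵥ g)} ≤ 2 * Real.exp (-(a ^ 2 / 7)) := by
  have ha0 : 0 < a := lt_of_lt_of_le one_pos ha
  have hpsd : (B * Bᵀ - (a • A) * (a • A)ᵀ).PosSemidef := by
    refine H859.psd_of ?_ fun α => ?_
    · rw [Matrix.transpose_sub, Matrix.transpose_mul, Matrix.transpose_mul,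
        Matrix.transpose_transpose, Matrix.transpose_transpose]
    · rw [H37.qf_eq, Matrix.sub_mulVec, dotProduct_sub, ← H363.vecMul_sq, ← H363.vecMul_sq]
      have h1 := h α
      have h2 : ∑ i, (α ᵥ* (a • A)) i ^ 2 = a ^ 2 * ∑ i, (α ᵥ* A) i ^ 2 := by
        rw [Finset.mul_sum]
        refine Finset.sum_congr rfl fun i _ => ?_
        rw [Matrix.vecMul_smul, Pi.smul_apply, smul_eq_mul, mul_pow]
      rw [h2]
      linarith
  have h1 := H586.fern_small_f (H586.rs_meas hμ) (H789.Rs_convex hμ he hK) (H789.Rs_neg he) hpsd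
    hp ha
  have e : ∀ g : I → ℝ, a⁻¹ • ((a • A) *ᵥ g) = A *ᵥ g := fun g => by
    rw [Matrix.smul_mulVec, smul_smul, inv_mul_cancel₀ ha0.ne', one_smul]
  simp only [e] at h1
  exact h1

end gauss

end

end Vale.Agent.P159.H30
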