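import Vale.Agent.P159.H30.Apr1
import Vale.Agent.P159.H972.Good
import Vale.Agent.P159.H767.Nr4

/-!
P159, module AP AT EVERY REAL MASS (helper30), part 2: block decomposition of cell fields, Schur
bound of the block kernels of a nonnegative matrix with exponential decay.
-/

set_option linter.unusedSectionVars false

namespace Vale.Agent.P159.H30

open Finset Matrix MeasureTheory ProbabilityTheory
open Vale.Agent.P159.TM.Spec (V)
open Vale.Agent.P159.TM.H459 (sn sd)
open Vale.Agent.P159.H37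
open Vale.Agent.P159.H864 (cl cl1 cl1_val up)
open Vale.Agent.P159.H972 (cobB)

noncomputable section

section geo

variable {N ξ : ℕ} [NeZero N] [NeZero (N / ξ)]

/-- distance of the cells of two sites -/
theorem sn_cl' (hl : ξ ∣ N) (u v : V N) :
    ξ * sn ((cl v : V (N / ξ)) - cl u) ≤ sn (v - u) + ξ := by
  have h1 : (cl (u - up (cl u : V (N / ξ))) : V (N / ξ)) = 0 := by
    rw [H864.cl_sub_up hl, sub_self]
  have h2 : (cl (v - up (cl u : V (N / ξ))) : V (N / ξ)) = cl v - cl u := H864.cl_sub_up hl _ _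
  have h3 := H767.sn_cl hl (v := v - up (cl u : V (N / ξ))) h1
  rwa [h2, sub_sub_sub_cancel_right] at h3

/-- sum over a block of a kernel with exponential decay -/
theorem row_block (hl : ξ ∣ N) (hξ : 0 < ξ) {G : Matrix (V N) (V N) ℝ} (h0 : ∀ x y, 0 ≤ G x y)
    {c S : ℝ} (hc : 0 ≤ c)
    (hS : ∀ x, ∑ y, G x y * Real.exp (c * sn (y - x) / ξ) ≤ S) (x : V N) (β : V (N / ξ)) :
    ∑ y ∈ univ.filter (fun y : V N => (cl y : V (N / ξ)) = β), G x y ≤
      S * Real.exp c * Real.exp (-(c * sn (β - cl x))) := by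
  have hξR : (0 : ℝ) < ξ := by exact_mod_cast hξ
  have h1 : ∑ y ∈ univ.filter (fun y : V N => (cl y : V (N / ξ)) = β), G x y ≤
      ∑ y ∈ univ.filter (fun y : V N => (cl y : V (N / ξ)) = β),
        (G x y * Real.exp (c * sn (y - x) / ξ)) * (Real.exp c * Real.exp (-(c * sn (β - cl x)))) := by
    refine Finset.sum_le_sum fun y hy => ?_
    rw [Finset.mem_filter] at hy
    have h2 := sn_cl' hl x y
    rw [hy.2] at h2
    have h3 : (ξ : ℝ) * sn (β - cl x) ≤ sn (y - x) + ξ := by exact_mod_cast h2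
    have h4 : 0 ≤ c * sn (y - x) / ξ + c - c * sn (β - cl x) := by
      have h5 : c * sn (y - x) / ξ + c - c * (sn (β - cl x) : ℝ) =
          c * ((sn (y - x) + ξ - ξ * sn (β - cl x)) / ξ) := by
        field_simp
      rw [h5]
      exact mul_nonneg hc (div_nonneg (by linarith) hξR.le)
    rw [mul_assoc, ← Real.exp_add, ← Real.exp_add]
    have h5 : 1 ≤ Real.exp (c * sn (y - x) / ξ + (c + -(c * sn (β - cl x)))) :=
      Real.one_le_exp (by linarith)
    have h6 := mul_le_mul_of_nonneg_left h5 (h0 x y)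
    rwa [mul_one] at h6
  refine h1.trans ?_
  rw [← Finset.sum_mul, mul_assoc]
  refine mul_le_mul_of_nonneg_right ?_ (by positivity)
  refine le_trans ?_ (hS x)
  exact Finset.sum_le_sum_of_subset_of_nonneg (Finset.filter_subset _ _) fun y _ _ =>
    mul_nonneg (h0 x y) (Real.exp_pos _).le

/-- Schur's test for one block -/
theorem schur_block {G : Matrix (V N) (V N) ℝ} (h0 : ∀ x y, 0 ≤ G x y) (hs : Gᵀ = G)
    {β j : V (N / ξ)} {ν : ℝ}
    (h1 : ∀ x : V N, (cl x : V (N / ξ)) = j →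
      ∑ y ∈ univ.filter (fun y : V N => (cl y : V (N / ξ)) = β), G x y ≤ ν)
    (h2 : ∀ y : V N, (cl y : V (N / ξ)) = β →
      ∑ x ∈ univ.filter (fun x : V N => (cl x : V (N / ξ)) = j), G y x ≤ ν)
    (hν : 0 ≤ ν) {f : V N → ℝ} (hf : ∀ x, (cl x : V (N / ξ)) ≠ β → f x = 0) :
    ∑ x, (if (cl x : V (N / ξ)) = j then (G *ᵥ f) x else 0) ^ 2 ≤ ν ^ 2 * ∑ x, f x ^ 2 := by
  classical
  set Sj : Finset (V N) := univ.filter fun x : V N => (cl x : V (N / ξ)) = j with hSj
  set Sb : Finset (V N) := univ.filter fun x : V N => (cl x : V (N / ξ)) = β with hSb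
  have e1 : ∑ x, (if (cl x : V (N / ξ)) = j then (G *ᵥ f) x else 0) ^ 2 =
      ∑ x ∈ Sj, (G *ᵥ f) x ^ 2 := by
    rw [hSj, Finset.sum_filter]
    refine Finset.sum_congr rfl fun x _ => ?_
    split_ifs
    · rfl
    · exact zero_pow two_ne_zero
  have e2 : ∀ x, (G *ᵥ f) x = ∑ y ∈ Sb, G x y * f y := by
    intro x
    show ∑ y, G x y * f y = _
    rw [hSb, Finset.sum_filter]
    refine Finset.sum_congr rfl fun y _ => ?_
    by_cases hy : (cl y : V (N / ξ)) = β
    · rw [if_pos hy]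
    · rw [if_neg hy, hf y hy, mul_zero]
  have e3 : ∀ x ∈ Sj, (G *ᵥ f) x ^ 2 ≤ ν * ∑ y ∈ Sb, G x y * f y ^ 2 := by
    intro x hx
    rw [e2]
    have h := Finset.sum_mul_sq_le_sq_mul_sq Sb (fun y => √(G x y)) fun y => √(G x y) * f y
    have f1 : ∀ y, √(G x y) * (√(G x y) * f y) = G x y * f y := fun y => by
      rw [← mul_assoc, Real.mul_self_sqrt (h0 x y)]
    have f2 : ∀ y, √(G x y) ^ 2 = G x y := fun y => Real.sq_sqrt (h0 x y)
    have f3 : ∀ y, (√(G x y) * f y) ^ 2 = G x y * f y ^ 2 := fun y => by rw [mul_pow, f2]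
    simp only [f1, f2, f3] at h
    refine h.trans (mul_le_mul_of_nonneg_right (h1 x (Finset.mem_filter.1 hx).2) ?_)
    exact Finset.sum_nonneg fun y _ => mul_nonneg (h0 x y) (sq_nonneg _)
  rw [e1]
  calc ∑ x ∈ Sj, (G *ᵥ f) x ^ 2 ≤ ∑ x ∈ Sj, ν * ∑ y ∈ Sb, G x y * f y ^ 2 :=
        Finset.sum_le_sum e3
    _ = ν * ∑ y ∈ Sb, (∑ x ∈ Sj, G y x) * f y ^ 2 := by
        rw [← Finset.mul_sum, Finset.sum_comm]
        congr 1
        refine Finset.sum_congr rfl fun y _ => ?_
        rw [Finset.sum_mul]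
        refine Finset.sum_congr rfl fun x _ => ?_
        have h3 : G x y = G y x := by
          conv_lhs => rw [← hs]
          rfl
        rw [h3]
    _ ≤ ν * ∑ y ∈ Sb, ν * f y ^ 2 := by
        refine mul_le_mul_of_nonneg_left (Finset.sum_le_sum fun y hy => ?_) hν
        exact mul_le_mul_of_nonneg_right (h2 y (Finset.mem_filter.1 hy).2) (sq_nonneg _)
    _ = ν ^ 2 * ∑ y ∈ Sb, f y ^ 2 := by
        rw [← Finset.mul_sum]
        ring
    _ ≤ ν ^ 2 * ∑ x, f x ^ 2 := by
        refine mul_le_mul_of_nonneg_left ?_ (sq_nonneg _)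
        exact Finset.sum_le_sum_of_subset_of_nonneg (Finset.filter_subset _ _) fun _ _ _ =>
          sq_nonneg _

end geo

section blocks

variable {N l Q : ℕ} [NeZero N] [NeZero (N / (l * Q))]

/-- the index of a block -/
def pb {n : ℕ} (β : V n) : ℕ × ℕ := (β.1.val, β.2.val)

/-- the block of a site, in natural numbers -/
lemma clQ (h : l * Q ∣ N) (x : V N) :
    pb (cl x : V (N / (l * Q))) = (x.1.val / l / Q, x.2.val / l / Q) := by
  unfold pb
  have h1 : (cl x : V (N / (l * Q))).1.val = x.1.val / (l * Q) := cl1_val h x.1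
  have h2 : (cl x : V (N / (l * Q))).2.val = x.2.val / (l * Q) := cl1_val h x.2
  rw [h1, h2, Nat.div_div_eq_div_mul, Nat.div_div_eq_div_mul]

lemma pb_inj {n : ℕ} [NeZero n] {β γ : V n} (h : pb β = pb γ) : β = γ := by
  unfold pb at h
  simp only [Prod.mk.injEq] at h
  exact Prod.ext (ZMod.val_injective n h.1) (ZMod.val_injective n h.2)

/-- the entries of the block matrix, seen from the sites -/
theorem cobB_site (h : l * Q ∣ N) (β : V (N / (l * Q))) (x : V N)
    (c : Fin (N / l) × Fin (N / l)) :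
    cobB N l Q (pb β) x c = if (cl x : V (N / (l * Q))) = β then cob N l c x else 0 := by
  unfold cobB
  rw [Matrix.of_apply]
  by_cases h1 : x.1.val / l = c.1.val ∧ x.2.val / l = c.2.val
  · have e : (c.1.val / Q = (pb β).1 ∧ c.2.val / Q = (pb β).2) ↔
        (cl x : V (N / (l * Q))) = β := by
      have h2 := clQ h x
      rw [h1.1, h1.2] at h2
      constructor
      · intro h3
        refine pb_inj ?_
        rw [h2]
        exact Prod.ext h3.1 h3.2
      · intro h3
        rw [← h3, h2]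
        exact ⟨rfl, rfl⟩
    simp only [e]
  · have h2 : cob N l c x = 0 := by
      unfold cob
      rw [Matrix.of_apply, if_neg h1]
    rw [h2, ite_self, ite_self]

/-- restriction of a field to a block -/
def rB (l Q : ℕ) [NeZero (N / (l * Q))] (β : V (N / (l * Q))) (α : V N → ℝ) (x : V N) : ℝ :=
  if (cl x : V (N / (l * Q))) = β then α x else 0

theorem vecMul_cobB (h : l * Q ∣ N) (β : V (N / (l * Q))) (α : V N → ℝ) :
    α ᵥ* cobB N l Q (pb β) = cob N l *ᵥ rB l Q β α := by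
  funext c
  show ∑ x, α x * cobB N l Q (pb β) x c = ∑ x, cob N l c x * rB l Q β α x
  refine Finset.sum_congr rfl fun x _ => ?_
  rw [cobB_site h]
  unfold rB
  split_ifs
  · exact mul_comm _ _
  · rw [mul_zero, mul_zero]

theorem cobB_mulVec (h : l * Q ∣ N) (β : V (N / (l * Q))) (g : Fin (N / l) × Fin (N / l) → ℝ) :
    cobB N l Q (pb β) *ᵥ g = rB l Q β ((cob N l)ᵀ *ᵥ g) := by
  funext x
  show ∑ c, cobB N l Q (pb β) x c * g c = _
  unfold rB
  by_cases h1 : (cl x : V (N / (l * Q))) = β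
  · rw [if_pos h1]
    show _ = ∑ c, cob N l c x * g c
    refine Finset.sum_congr rfl fun c _ => ?_
    rw [cobB_site h, if_pos h1]
  · rw [if_neg h1]
    refine Finset.sum_eq_zero fun c _ => ?_
    rw [cobB_site h, if_neg h1, zero_mul]

/-- a field is the sum of its blocks -/
theorem sum_rB (α : V N → ℝ) : ∑ β : V (N / (l * Q)), rB l Q β α = α := by
  funext x
  rw [Finset.sum_apply]
  unfold rB
  rw [Finset.sum_ite_eq, if_pos (Finset.mem_univ _)]

theorem sum_cobB (h : l * Q ∣ N) (g : Fin (N / l) × Fin (N / l) → ℝ) :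
    ∑ β : V (N / (l * Q)), cobB N l Q (pb β) *ᵥ g = (cob N l)ᵀ *ᵥ g := by
  simp only [cobB_mulVec h]
  exact sum_rB _

/-- the cell average preserves the blocks -/
theorem cellP_rB [NeZero (N / l)] (hl : l ∣ N) (h : l * Q ∣ N) (β : V (N / (l * Q)))
    (α : V N → ℝ) (x : V N)
    (hx : (cl x : V (N / (l * Q))) ≠ β) : (cellP N l *ᵥ rB l Q β α) x = 0 := by
  rw [H864.cellP_mulVec hl, Finset.sum_eq_zero, mul_zero]
  intro y hy
  rw [Finset.mem_filter] at hy
  unfold rB
  rw [if_neg]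
  intro h3
  apply hx
  rw [← h3]
  refine pb_inj ?_
  rw [clQ h, clQ h]
  have h4 : (cl y : V (N / l)).1.val = (cl x : V (N / l)).1.val := by rw [hy.2]
  have h5 : (cl y : V (N / l)).2.val = (cl x : V (N / l)).2.val := by rw [hy.2]
  have e1 : ∀ z : V N, (cl z : V (N / l)).1.val = z.1.val / l := fun z => cl1_val hl z.1
  have e2 : ∀ z : V N, (cl z : V (N / l)).2.val = z.2.val / l := fun z => cl1_val hl z.2
  rw [e1, e1] at h4
  rw [e2, e2] at h5
  rw [h4, h5]

/-- **the block kernel is dominated by block noise** -/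
theorem blk_dom [NeZero (N / l)] (hl : l ∣ N) (h : l * Q ∣ N) (hQ : 0 < l * Q)
    {G : Matrix (V N) (V N) ℝ}
    (h0 : ∀ x y, 0 ≤ G x y) (hs : Gᵀ = G) {c S : ℝ} (hc : 0 ≤ c) (hS0 : 0 ≤ S)
    (hS : ∀ x, ∑ y, G x y * Real.exp (c * sn (y - x) / (l * Q : ℕ)) ≤ S)
    (β j : V (N / (l * Q))) (α : V N → ℝ) :
    ∑ i, (α ᵥ* (cobB N l Q (pb β) * (cob N l * (G * cobB N l Q (pb j))))) i ^ 2 ≤
      (S * Real.exp c * Real.exp (-(c * sn (β - j)))) ^ 2 *
        ∑ i, (α ᵥ* cobB N l Q (pb β)) i ^ 2 := by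
  set ν := S * Real.exp c * Real.exp (-(c * sn (β - j))) with hν
  have hν0 : 0 ≤ ν := by positivity
  set f : V N → ℝ := cellP N l *ᵥ rB l Q β α with hf
  have e1 : α ᵥ* (cobB N l Q (pb β) * (cob N l * (G * cobB N l Q (pb j)))) =
      cob N l *ᵥ rB l Q j (G *ᵥ f) := by
    rw [← Matrix.vecMul_vecMul, vecMul_cobB h, ← Matrix.vecMul_vecMul, ← Matrix.vecMul_vecMul,
      vecMul_cobB h]
    have e2 : (cob N l *ᵥ rB l Q β α) ᵥ* cob N l = f := by
      rw [hf]
      unfold cellP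
      rw [← Matrix.mulVec_mulVec, Matrix.mulVec_transpose]
    rw [e2]
    have e3 : f ᵥ* G = G *ᵥ f := by
      rw [← Matrix.mulVec_transpose, hs]
    rw [e3]
  have e4 : ∀ u : V N → ℝ, ∑ i, (cob N l *ᵥ u) i ^ 2 = qf (cellP N l) u := fun u => by
    unfold cellP
    rw [H37.qf_gram]
  rw [e1, e4, vecMul_cobB h, e4]
  have e5 : qf (cellP N l) (rB l Q β α) = ∑ x, f x ^ 2 := by
    have h1 : qf ((cellP N l)ᵀ * cellP N l) (rB l Q β α) = ∑ x, f x ^ 2 := H37.qf_gram _ _
    rwa [H864.cellP_tr, H864.cellP_mul_self hl] at h1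
  rw [e5]
  refine (H864.qf_cellP_le hl _).trans ?_
  refine schur_block h0 hs (fun x hx => ?_) (fun y hy => ?_) hν0
    fun x hx => cellP_rB hl h β α x hx
  · have h1 := row_block h hQ h0 hc hS x β
    rwa [hx] at h1
  · have h1 := row_block h hQ h0 hc hS y j
    rw [hy] at h1
    have h2 : sn (j - β) = sn (β - j) := by
      rw [← TM.H459.sn_neg, neg_sub]
    rwa [h2] at h1

end blocks

end

end Vale.Agent.P159.H30
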