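import Vale.Agent.P159.H276.Eta2
import Vale.Agent.P159.H37.Rxg
import Vale.Agent.P159.H375.FineM
import Vale.Agent.P159.H316.Yb1

/-!
P159, module AP AT EVERY REAL MASS (helper30), part 3: the response defect of the full model.
-/

set_option linter.unusedSectionVars false

namespace Vale.Agent.P159.H30

open Finset Matrix MeasureTheory ProbabilityTheory
open Vale.Agent.P159.TM.H104 (EM Ex Lg li)
open Vale.Agent.P159.H37
open Vale.Agent.P159.TM.H764 (EE grd)
open Vale.Agent.P159.TM.Spec (V)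
open Vale.Agent.P159.TM.SpecC (wT)
open Vale.Agent.P159.H612 (ZC)
open Vale.Agent.P159.H864 (yt TI sym Gc qf_le_iff lapM ti_Gm_wt sym_Gm_wt Ght_pos Ght_le_inv
  Ght_mono Ght_eq_inv Pik_nonneg Pik_mono)
open Vale.Agent.P159.H963 (Gnh Gn)
open Vale.Agent.P159.H276 (Wm sym_Wm)
open Vale.Agent.P159.H972 (FL)

noncomputable section

section mb

variable {N : ℕ} [NeZero N] {b : ℝ}

/-- the response defect of the full model between the masses `t ≤ T` -/
def Mb (N : ℕ) [NeZero N] (b t T : ℝ) : Matrix (V N) (V N) ℝ :=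
  (1 - (T - t) • Gm (wt N b T)) * Gm (wt N b t) * (1 - (T - t) • Gm (wt N b T)) -
    Gm (wt N b T) * (1 - (T - t) • Gm (wt N b T))

lemma ti_oq (b t T : ℝ) : TI (1 - (T - t) • Gm (wt N b T) : Matrix (V N) (V N) ℝ) :=
  TI.one.sub ((ti_Gm_wt T).smul _)

theorem ti_Mb (b t T : ℝ) : TI (Mb N b t T) :=
  (((ti_oq b t T).mul (ti_Gm_wt t)).mul (ti_oq b t T)).sub ((ti_Gm_wt T).mul (ti_oq b t T))

lemma sym_oq (b t T : ℝ) (k : V N) :
    sym (1 - (T - t) • Gm (wt N b T) : Matrix (V N) (V N) ℝ) k = 1 - (T - t) * Ght N b T k := by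
  rw [H864.sym_sub, H864.sym_one, H864.sym_smul, sym_Gm_wt]

theorem sym_Mb (b t T : ℝ) (k : V N) : sym (Mb N b t T) k =
    (1 - (T - t) * Ght N b T k) * Ght N b t k * (1 - (T - t) * Ght N b T k) -
      Ght N b T k * (1 - (T - t) * Ght N b T k) := by
  unfold Mb
  rw [H864.sym_sub, H864.sym_mul ((ti_oq b t T).mul (ti_Gm_wt t)) (ti_oq b t T),
    H864.sym_mul (ti_oq b t T) (ti_Gm_wt t), H864.sym_mul (ti_Gm_wt T) (ti_oq b t T), sym_oq,
    sym_Gm_wt, sym_Gm_wt]

/-- the factor `1 - q G` is at least `t / T` -/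
lemma oq_ge (hb : 0 ≤ b) {t T : ℝ} (ht : 0 < t) (h : t ≤ T) (k : V N) :
    t / T ≤ 1 - (T - t) * Ght N b T k := by
  have hT : 0 < T := ht.trans_le h
  have h1 := Ght_le_inv (N := N) hb hT k
  have h2 : (T - t) * Ght N b T k ≤ (T - t) * T⁻¹ := mul_le_mul_of_nonneg_left h1 (by linarith)
  have h3 : (T - t) * T⁻¹ = 1 - t / T := by
    field_simp
  linarith

lemma oq_le (hb : 0 < b) {t T : ℝ} (ht : 0 < t) (h : t ≤ T) (k : V N) :
    1 - (T - t) * Ght N b T k ≤ 1 := by
  have := mul_nonneg (sub_nonneg.2 h) (Ght_pos (N := N) hb (ht.trans_le h) k).le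
  linarith

/-- the defect as a difference of resolvents -/
theorem sym_Mb_eq (hb : 0 < b) {t T : ℝ} (ht : 0 < t) (h : t ≤ T) (k : V N) :
    sym (Mb N b t T) k = (1 - (T - t) * Ght N b T k) ^ 2 *
      (Ght N b t k - Ght N b T k / (1 - (T - t) * Ght N b T k)) := by
  have h1 := oq_ge (N := N) hb.le ht h k
  have h2 : 0 < 1 - (T - t) * Ght N b T k := lt_of_lt_of_le (div_pos ht (ht.trans_le h)) h1
  rw [sym_Mb]
  field_simp

/-- the resolvent with the posterior self energy -/
lemma lin_w (hb : 0 < b) {t T : ℝ} (ht : 0 < t) (h : t ≤ T) (k : V N) :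
    Ght N b T k / (1 - (T - t) * Ght N b T k) = (t + Pik N b T k)⁻¹ := by
  have hT : 0 < T := ht.trans_le h
  have h1 := Ght_eq_inv (N := N) hb hT k
  have h2 := Pik_nonneg (N := N) hb hT k
  have h3 : 0 < T + Pik N b T k := by linarith
  have h4 : 0 < t + Pik N b T k := by linarith
  rw [h1]
  have h5 : 1 - (T - t) * (T + Pik N b T k)⁻¹ = (t + Pik N b T k) * (T + Pik N b T k)⁻¹ := by
    field_simp
    ring
  rw [h5]
  field_simp

theorem sym_Mb_nonneg (hb : 0 < b) {t T : ℝ} (ht : 0 < t) (h : t ≤ T) (k : V N) :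
    0 ≤ sym (Mb N b t T) k := by
  rw [sym_Mb_eq hb ht h, lin_w hb ht h, Ght_eq_inv hb ht]
  refine mul_nonneg (sq_nonneg _) (sub_nonneg.2 ?_)
  have h2 := Pik_nonneg (N := N) hb ht k
  exact inv_anti₀ (by linarith) (by linarith [Pik_mono (N := N) hb ht h k])

/-- the defect is below the difference of the resolvents -/
theorem sym_Mb_le (hb : 0 < b) {t T : ℝ} (ht : 0 < t) (h : t ≤ T) (k : V N) :
    sym (Mb N b t T) k ≤ Ght N b t k - Ght N b T k / (1 - (T - t) * Ght N b T k) := by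
  have h0 := sym_Mb_nonneg (N := N) hb ht h k
  rw [sym_Mb_eq hb ht h] at h0 ⊢
  have h1 := oq_ge (N := N) hb.le ht h k
  have h2 := oq_le (N := N) hb ht h k
  have h3 : 0 < 1 - (T - t) * Ght N b T k := lt_of_lt_of_le (div_pos ht (ht.trans_le h)) h1
  have h4 : 0 ≤ Ght N b t k - Ght N b T k / (1 - (T - t) * Ght N b T k) :=
    nonneg_of_mul_nonneg_right h0 (by positivity)
  have h5 : (1 - (T - t) * Ght N b T k) ^ 2 ≤ 1 := pow_le_one₀ h3.le h2
  calc _ ≤ 1 * (Ght N b t k - Ght N b T k / (1 - (T - t) * Ght N b T k)) :=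
        mul_le_mul_of_nonneg_right h5 h4
    _ = _ := one_mul _

/-- the defect is below the difference of the covariances -/
theorem sym_Mb_diff (hb : 0 < b) {t T : ℝ} (ht : 0 < t) (h : t ≤ T) (k : V N) :
    sym (Mb N b t T) k ≤ Ght N b t k - Ght N b T k := by
  refine (sym_Mb_le hb ht h k).trans ?_
  have h1 := oq_ge (N := N) hb.le ht h k
  have h2 := oq_le (N := N) hb ht h k
  have h3 : 0 < 1 - (T - t) * Ght N b T k := lt_of_lt_of_le (div_pos ht (ht.trans_le h)) h1
  have h4 := (Ght_pos (N := N) hb (ht.trans_le h) k).le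
  have h5 : Ght N b T k ≤ Ght N b T k / (1 - (T - t) * Ght N b T k) := by
    rw [le_div_iff₀ h3]
    nlinarith
  linarith

/-- `x / (1 - q x)` at a smaller argument -/
lemma frac_low {q x y e T t : ℝ} (ht : 0 < t) (hT : t ≤ T) (hT4 : T ≤ 4 * t) (hq : q = T - t)
    (hx : x ≤ T⁻¹) (hy : y ≤ T⁻¹) (hxy : y ≤ x + e) (he : 0 ≤ e) :
    y / (1 - q * y) - 16 * e ≤ x / (1 - q * x) := by
  have hT0 : 0 < T := ht.trans_le hT
  have hq0 : 0 ≤ q := by rw [hq]; linarith
  have key : ∀ z : ℝ, z ≤ T⁻¹ → t / T ≤ 1 - q * z := by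
    intro z hz
    have h2 : q * z ≤ q * T⁻¹ := mul_le_mul_of_nonneg_left hz hq0
    have h3 : q * T⁻¹ = 1 - t / T := by
      rw [hq]
      field_simp
    linarith
  have hr : 1 / 4 ≤ t / T := by
    rw [le_div_iff₀ hT0]
    linarith
  have ky := key y hy
  have kx := key x hx
  have hy1 : 0 < 1 - q * y := by linarith
  have hx1 : 0 < 1 - q * x := by linarith
  have h1 : y / (1 - q * y) - x / (1 - q * x) = (y - x) / ((1 - q * y) * (1 - q * x)) := by
    rw [div_sub_div _ _ hy1.ne' hx1.ne']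
    congr 1
    ring
  have h2 : 1 / 16 ≤ (1 - q * y) * (1 - q * x) := by nlinarith
  have h3 : (y - x) / ((1 - q * y) * (1 - q * x)) ≤ 16 * e := by
    rw [div_le_iff₀ (by positivity)]
    nlinarith
  linarith

/-- **pointwise bound of the defect**: flat profiles of the neutral model at `t`, `4 t`, distance
`e` of the two models at `T` -/
theorem sym_Mb_FL (hb : 0 < b) {t T a η δ s : ℝ} (ht : 0 < t) (h1 : t ≤ T) (h2 : T ≤ 4 * t)
    (htN : 1 ≤ t * (N : ℝ) ^ 2) (F1 : FL b t a η N) (F4 : FL b (4 * t) a η N)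
    (hosc : ∀ c d : ℝ, Real.log (ZC N b T c) - Real.log (ZC N b T d) ≤ δ) (hδ : 4 * δ ≤ 1)
    (hs : yt N b T ≤ s) (k : V N) :
    sym (Mb N b t T) k ≤ (2 * (1 + b) ^ 2 * η + 960 * √δ + 4 * s) / t := by
  have hT : 0 < T := ht.trans_le h1
  have hη : 0 ≤ η := by
    obtain ⟨z1, a1, hz1, hzN1, -⟩ := F1
    exact le_trans (by positivity) hzN1
  have hs0 : 0 ≤ s := (H864.yt_nonneg hb.le hT).trans hs
  refine (sym_Mb_le hb ht h1 k).trans ?_
  have g1 := oq_ge (N := N) hb.le ht h1 k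
  have g2 : 0 < 1 - (T - t) * Ght N b T k := lt_of_lt_of_le (div_pos ht hT) g1
  by_cases hk : k = 0
  · subst hk
    have e1 := Ght_le_inv (N := N) hb.le ht 0
    have e2 : Ght N b T 0 = (1 - yt N b T) / T := by
      unfold yt
      field_simp
      ring
    have hy1 := H864.yt_lt_one (N := N) hb hT
    have hy0 := H864.yt_nonneg (N := N) hb.le hT
    set y := yt N b T with hy
    have e3 : Ght N b T 0 / (1 - (T - t) * Ght N b T 0) = (1 - y) / (t + (T - t) * y) := by
      rw [e2]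
      have h3 : 0 < t + (T - t) * y := by
        have := mul_nonneg (sub_nonneg.2 h1) hy0
        linarith
      have h4 : 1 - (T - t) * ((1 - y) / T) = (t + (T - t) * y) / T := by
        field_simp
        ring
      rw [h4]
      field_simp
    rw [e3]
    have h3 : 0 < t + (T - t) * y := by
      have := mul_nonneg (sub_nonneg.2 h1) hy0
      linarith
    have e4 : t⁻¹ - (1 - y) / (t + (T - t) * y) ≤ 4 * s / t := by
      have h4 : t⁻¹ - (1 - y) / (t + (T - t) * y) = (T * y) / (t + (T - t) * y) / t := by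
        rw [inv_eq_one_div, div_sub_div _ _ ht.ne' h3.ne', div_div,
          div_eq_div_iff (mul_pos ht h3).ne' (mul_pos h3 ht).ne']
        ring
      rw [h4]
      refine div_le_div_of_nonneg_right ?_ ht.le
      rw [div_le_iff₀ h3]
      have h5 : T * y ≤ 4 * t * s := mul_le_mul h2 hs hy0 (by linarith)
      have h6 : 0 ≤ 4 * s * ((T - t) * y) := by
        have := mul_nonneg (sub_nonneg.2 h1) hy0
        positivity
      nlinarith
    have e5 : 4 * s / t ≤ (2 * (1 + b) ^ 2 * η + 960 * √δ + 4 * s) / t := by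
      refine div_le_div_of_nonneg_right ?_ ht.le
      have := Real.sqrt_nonneg δ
      have h7 : 0 ≤ 2 * (1 + b) ^ 2 * η := by positivity
      linarith
    linarith
  · have c1 := H963.Ght_le_Gnh (N := N) hb.le ht hk
    have c2 := H37.Gnh_le hb.le hT hosc hδ hk
    have c3 : Gnh N b T k ≤ Ght N b T k + 60 * √δ / T := by
      rw [div_eq_mul_inv, ← sub_nonneg]
      have h3 : Ght N b T k + 60 * √δ * T⁻¹ - Gnh N b T k =
          (T * Ght N b T k + 60 * √δ - T * Gnh N b T k) * T⁻¹ := by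
        field_simp
      rw [h3]
      exact mul_nonneg (by linarith) (by positivity)
    have c4 : Gnh N b T k ≤ T⁻¹ := by
      have h3 := H276.Gnh_dom (N := N) hb hT k
      refine h3.trans (inv_anti₀ hT ?_)
      have := mul_nonneg (show (0 : ℝ) ≤ 1 / b by positivity) (TM.H764.EE_nonneg k)
      linarith
    have c5 := frac_low ht h1 h2 rfl (Ght_le_inv (N := N) hb.le hT k) c4 c3 (by positivity)
    have c6 := H276.sym_Wm_FL hb ht h1 h2 htN F1 F4 k
    rw [sym_Wm] at c6
    have c7 : 60 * √δ / T ≤ 60 * √δ / t := div_le_div_of_nonneg_left (by positivity) ht h1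
    have c8 : (2 * (1 + b) ^ 2 * η + 960 * √δ + 4 * s) / t =
        2 * (1 + b) ^ 2 * (η / t) + 16 * (60 * √δ / t) + 4 * s / t := by ring
    have c9 : 0 ≤ 4 * s / t := by positivity
    rw [c8]
    linarith

end mb

end

end Vale.Agent.P159.H30
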