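import Vale.Agent.P159.H30.Apr3

/-!
P159, module AP AT EVERY REAL MASS (helper30), part 4: trace of the response defect, raising the
mass, the part inside the cells (full model).
-/

set_option linter.unusedSectionVars false

namespace Vale.Agent.P159.H30

open Finset Matrix MeasureTheory ProbabilityTheory
open Vale.Agent.P159.TM.H104 (EM Ex Lg li)
open Vale.Agent.P159.H37
open Vale.Agent.P159.TM.H764 (EE grd)
open Vale.Agent.P159.TM.Spec (V)
open Vale.Agent.P159.TM.SpecC (wT)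
open Vale.Agent.P159.H612 (ZC)
open Vale.Agent.P159.H864 (yt TI sym Gc qf_le_iff lapM ti_Gm_wt sym_Gm_wt Ght_pos Ght_le_inv
  Ght_mono Ght_eq_inv Pik_nonneg Pik_mono rd Wl)
open Vale.Agent.P159.H972 (FL)

noncomputable section

section tr

variable {N l : ℕ} [NeZero N] [NeZero (N / l)] {b : ℝ}

lemma ti_GcMb (hl : l ∣ N) (b t T : ℝ) : TI (Gc l (Mb N b t T)) := H864.ti_Gc hl (ti_Mb b t T).ct

lemma sym_GcMb_nonneg (hb : 0 < b) (hl : l ∣ N) {t T : ℝ} (ht : 0 < t) (h : t ≤ T)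
    (k : V (N / l)) : 0 ≤ sym (Gc l (Mb N b t T)) k := by
  rw [H864.sym_Gc hl (ti_Mb b t T)]
  unfold H864.als
  exact Finset.sum_nonneg fun p _ => mul_nonneg (sym_Mb_nonneg hb ht h p) (H864.Wl_nonneg p)

lemma sym_GcMb_le (hl : l ∣ N) {t T w : ℝ} (hw : ∀ p : V N, sym (Mb N b t T) p ≤ w)
    (k : V (N / l)) : sym (Gc l (Mb N b t T)) k ≤ w := by
  rw [H864.sym_Gc hl (ti_Mb b t T)]
  unfold H864.als
  calc ∑ p ∈ univ.filter (fun p : V N => rd p = k), sym (Mb N b t T) p * Wl l p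
      ≤ ∑ p ∈ univ.filter (fun p : V N => rd p = k), w * Wl l p :=
        Finset.sum_le_sum fun p _ => mul_le_mul_of_nonneg_right (hw p) (H864.Wl_nonneg p)
    _ = w := by rw [← Finset.mul_sum, H864.sum_Wl hl, mul_one]

lemma sym_GcMb_diff (hb : 0 < b) (hl : l ∣ N) {t T : ℝ} (ht : 0 < t) (h : t ≤ T) (k : V (N / l)) :
    sym (Gc l (Mb N b t T)) k ≤ sym (Gc l (Gm (wt N b t) - Gm (wt N b T))) k := by
  rw [H864.sym_Gc hl (ti_Mb b t T), H864.sym_Gc hl ((ti_Gm_wt t).sub (ti_Gm_wt T))]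
  unfold H864.als
  refine Finset.sum_le_sum fun p _ => mul_le_mul_of_nonneg_right ?_ (H864.Wl_nonneg p)
  rw [H864.sym_sub, sym_Gm_wt, sym_Gm_wt]
  exact sym_Mb_diff hb ht h p

/-- **the trace of the defect** -/
theorem trGcMb (hb : 0 < b) (hl : l ∣ N) {ρ : ℕ} (h8 : 8 * l ∣ ρ) (hρ : ρ ∣ N) {t T w E : ℝ}
    (ht : 0 < t) (h1 : t ≤ T) (hw : ∀ p : V N, sym (Mb N b t T) p ≤ w)
    (hE : Ex (wt N b t) 0 (fun h => qf (1 - cellP N ρ) (re h)) -
      Ex (wt N b T) 0 (fun h => qf (1 - cellP N ρ) (re h)) ≤ E) :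
    (Gc l (Mb N b t T)).trace ≤ 128 * ((N : ℝ) / ρ) ^ 2 * w + 4 / 3 * E := by
  classical
  have hT : 0 < T := ht.trans_le h1
  have hl0 : 0 < l := H864.l_pos hl
  have hρ0 : 0 < ρ := Nat.pos_of_dvd_of_pos hρ (NeZero.pos N)
  have hlR : (0 : ℝ) < l := by exact_mod_cast hl0
  have hρR : (0 : ℝ) < ρ := by exact_mod_cast hρ0
  have hN0 : 0 < N := NeZero.pos N
  obtain ⟨m, hm⟩ := h8
  obtain ⟨M, hM⟩ := hρ
  have hm0 : 0 < m := by
    rcases Nat.eq_zero_or_pos m with h0 | h0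
    · rw [h0, mul_zero] at hm
      omega
    · exact h0
  have hM0 : 0 < M := by
    rcases Nat.eq_zero_or_pos M with h0 | h0
    · rw [h0, mul_zero] at hM
      omega
    · exact h0
  have hNl : N / l = m * (8 * M) := by
    rw [hM, hm]
    have : 8 * l * m * M = l * (m * (8 * M)) := by ring
    rw [this, Nat.mul_div_cancel_left _ hl0]
  have hmd : m ∣ N / l := ⟨8 * M, hNl⟩
  have hNlm : N / l / m = 8 * M := by
    rw [hNl, Nat.mul_div_cancel_left _ hm0]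
  have inst1 : NeZero (N / l / m) := ⟨by rw [hNlm]; omega⟩
  have inst2 : NeZero (N / ρ) := ⟨by rw [hM, Nat.mul_div_cancel_left _ hρ0]; omega⟩
  have hρd : ρ ∣ N := ⟨M, hM⟩
  have hw0 : 0 ≤ w := (sym_Mb_nonneg hb ht h1 0).trans (hw 0)
  rw [(ti_GcMb hl b t T).trace_eq]
  set H : Finset (V (N / l)) := univ.filter fun k => 32 * (l : ℝ) ^ 2 ≤ (ρ : ℝ) ^ 2 * EE k with hH
  rw [← Finset.sum_add_sum_compl H]
  have a1 : ∑ k ∈ H, sym (Gc l (Mb N b t T)) k ≤ 4 / 3 * E := by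
    refine (Finset.sum_le_sum fun k _ => sym_GcMb_diff hb hl ht h1 k).trans ?_
    have b1 := H159.high_le hl hρd ((ti_Gm_wt (b := b) t).sub (ti_Gm_wt T)) (fun p => by
      rw [H864.sym_sub, sym_Gm_wt, sym_Gm_wt]
      exact sub_nonneg.2 (Ght_mono hb.le ht h1 p)) H fun k hk => (Finset.mem_filter.1 hk).2
    refine b1.trans (mul_le_mul_of_nonneg_left ?_ (by norm_num))
    rw [Matrix.mul_sub, Matrix.trace_sub, ← H159.Ex_qf_tr (H789.em_wt hb.le ht) H789.ev_wt,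
      ← H159.Ex_qf_tr (H789.em_wt hb.le hT) H789.ev_wt]
    exact hE
  have a2 : (Hᶜ.card : ℝ) ≤ 128 * ((N : ℝ) / ρ) ^ 2 := by
    have b1 := H159.card_low (N := N / l) (ρ := m) hmd Hᶜ fun p hp => by
      rw [Finset.mem_compl, hH, Finset.mem_filter, not_and, not_le] at hp
      have c1 := hp (Finset.mem_univ p)
      have c2 : (ρ : ℝ) = 8 * l * m := by
        rw [hm]
        push_cast
        ring
      rw [c2] at c1
      have c3 : (8 * (l : ℝ) * m) ^ 2 * EE p = (l : ℝ) ^ 2 * (32 * (2 * ((m : ℝ) ^ 2 * EE p))) := by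
        ring
      rw [c3] at c1
      have c4 : (l : ℝ) ^ 2 * (32 * (2 * ((m : ℝ) ^ 2 * EE p))) < (l : ℝ) ^ 2 * 32 := by linarith
      have c5 := lt_of_mul_lt_mul_left c4 (by positivity)
      linarith
    refine b1.trans (le_of_eq ?_)
    have b2 : (N : ℝ) / ρ = M := by
      rw [hM]
      push_cast
      field_simp
    rw [hNlm, b2]
    push_cast
    ring
  have a3 : ∑ k ∈ Hᶜ, sym (Gc l (Mb N b t T)) k ≤ 128 * ((N : ℝ) / ρ) ^ 2 * w := by
    calc ∑ k ∈ Hᶜ, sym (Gc l (Mb N b t T)) k ≤ ∑ k ∈ Hᶜ, w :=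
          Finset.sum_le_sum fun k _ => sym_GcMb_le hl hw k
      _ = (Hᶜ.card : ℝ) * w := by rw [Finset.sum_const, nsmul_eq_mul]
      _ ≤ _ := mul_le_mul_of_nonneg_right a2 hw0
  linarith

/-- the trace of the cell covariance, full model -/
theorem trGcw (hb : 0 < b) (hl : l ∣ N) {T : ℝ} (hT : 0 < T) :
    (Gc l (Gm (wt N b T))).trace ≤
      1 / T + b * (N : ℝ) ^ 2 * (1 + Real.log ((N / l : ℕ) : ℝ)) := by
  have hlR : (0 : ℝ) < l := by exact_mod_cast H864.l_pos hl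
  have hκ : (0 : ℝ) < 1 / b / (l : ℝ) ^ 2 := by positivity
  have hn : (0 : ℝ) < ((N / l : ℕ) : ℝ) := by exact_mod_cast NeZero.pos (N / l)
  rw [(H864.ti_Gc hl (ti_Gm_wt (b := b) T).ct).trace_eq]
  have h1 : ∑ k, sym (Gc l (Gm (wt N b T))) k ≤
      ∑ k : V (N / l), (T + 1 / b / (l : ℝ) ^ 2 * EE k)⁻¹ := by
    refine Finset.sum_le_sum fun k _ => ?_
    have h2 := H859.Gck_dom hb.le hl hT le_rfl (κ := 1 / b) (by positivity)
      (by rw [mul_one_div_cancel hb.ne']) k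
    unfold H864.Gck at h2
    rwa [H864.GM_self] at h2
  have h2 := H859.gd_le (n := N / l) hT hκ
  rw [H859.gd_eq hT hκ.le, inv_mul_le_iff₀ (by positivity)] at h2
  refine h1.trans (h2.trans (le_of_eq ?_))
  have h3 := H963.N_eq hl
  rw [h3]
  field_simp

end tr

section rs

variable {N l : ℕ} [NeZero N] {b : ℝ}

/-- **raising the mass**, full model -/
theorem raise_w (hb : 0 < b) {t T : ℝ} (ht : 0 < t) (h : t ≤ T) (K : V N → ℝ) :
    Rs (wt N b T) K ≤ Rs (wt N b t) (K - (T - t) • (Gm (wt N b T) *ᵥ K)) +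
      qf (Mb N b t T) K / 2 := by
  have hT : 0 < T := ht.trans_le h
  have hq : 0 ≤ T - t := by linarith
  set P : Matrix (V N) (V N) ℝ := √(T - t) • 1 with hP
  have hPP : Pᵀ * P = (T - t) • (1 : Matrix (V N) (V N) ℝ) := by
    rw [hP, Matrix.transpose_smul, Matrix.transpose_one, Matrix.smul_mul, Matrix.mul_smul,
      Matrix.one_mul, smul_smul, Real.mul_self_sqrt hq]
  have hp : post (wt N b t) P = wt N b T := by
    unfold wt
    rw [H37.post_wM, hPP, ← add_smul]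
    congr 2
    ring
  set J : V N → ℝ := K - (T - t) • (Gm (wt N b T) *ᵥ K) with hJ
  have hJ' : J = K - Pᵀ *ᵥ (P *ᵥ (Gm (post (wt N b t) P) *ᵥ K)) := by
    rw [hp, Matrix.mulVec_mulVec (Gm (wt N b T) *ᵥ K), hPP, Matrix.smul_mulVec, Matrix.one_mulVec]
  have h1 := H692.raise (H789.em_wt hb.le ht) H789.ev_wt P
    (by rw [hp]; exact H789.pk_wt hb.le hT) hJ'
  rw [hp] at h1
  have e1 : J = (1 - (T - t) • Gm (wt N b T)) *ᵥ K := by
    rw [Matrix.sub_mulVec, Matrix.one_mulVec, Matrix.smul_mulVec, hJ]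
  have e2 : qf (Gm (wt N b t)) J - bf (Gm (wt N b T)) K J = qf (Mb N b t T) K := by
    have tq := (ti_oq (N := N) b t T).transpose
    have e3 : ∀ v : V N → ℝ, ((1 - (T - t) • Gm (wt N b T)) *ᵥ K) ⬝ᵥ v =
        K ⬝ᵥ ((1 - (T - t) • Gm (wt N b T)) *ᵥ v) := fun v => by
      rw [Matrix.dotProduct_mulVec K, ← Matrix.mulVec_transpose, tq]
    unfold Mb
    rw [H864.qf_sub_mat, H37.qf_eq, H37.bf_eq, H37.qf_eq, H37.qf_eq, e1,
      ← Matrix.mulVec_mulVec, ← Matrix.mulVec_mulVec, ← Matrix.mulVec_mulVec, e3]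
  rw [e2] at h1
  exact h1

/-- the gradient of the mean, full model -/
theorem grd_Gw (hb : 0 < b) {T : ℝ} (hT : 0 < T) (K : V N → ℝ) :
    grd (Gm (wt N b T) *ᵥ K) ≤ b * qf (Gm (wt N b T)) K := by
  have tG := ti_Gm_wt (N := N) (b := b) T
  have e1 : grd (Gm (wt N b T) *ᵥ K) = qf (Gm (wt N b T) * lapM * Gm (wt N b T)) K := by
    rw [← H864.qf_lapM, H37.qf_eq, H37.qf_eq, ← mulVec_mulVec, ← mulVec_mulVec,
      dotProduct_mulVec K, ← mulVec_transpose, tG.transpose]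
  rw [e1, ← H864.qf_smul_mat]
  refine (qf_le_iff ((tG.mul H864.ti_lapM).mul tG) (tG.smul b)).2 (fun k => ?_) K
  rw [H864.sym_mul (tG.mul H864.ti_lapM) tG, H864.sym_mul tG H864.ti_lapM, H864.sym_smul,
    sym_Gm_wt, H864.sym_lapM]
  have h2 := (Ght_pos (N := N) hb hT k).le
  have h3 := TM.H764.EE_nonneg k
  have h4 : EE k * Ght N b T k ≤ b := by
    by_cases hk : k = 0
    · rw [hk, TM.H764.EE_zero, zero_mul]
      exact hb.le
    · have h1 := (H963.Ght_le_Gnh (N := N) hb.le hT hk).trans (H276.Gnh_dom (N := N) hb hT k)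
      have hpos : 0 < T + 1 / b * EE k := by
        have := mul_nonneg (show (0 : ℝ) ≤ 1 / b by positivity) h3
        linarith
      refine (mul_le_mul_of_nonneg_left h1 h3).trans ?_
      rw [← div_eq_mul_inv, div_le_iff₀ hpos]
      have h5 : b * (T + 1 / b * EE k) = b * T + EE k := by
        field_simp
      rw [h5]
      have := mul_pos hb hT
      linarith
  calc Ght N b T k * EE k * Ght N b T k = (EE k * Ght N b T k) * Ght N b T k := by ring
    _ ≤ b * Ght N b T k := mul_le_mul_of_nonneg_right h4 h2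

/-- sub-Gaussian bound of `R` -/
theorem Rs_le_sq (hb : 0 < b) {t : ℝ} (ht : 0 < t) (u : V N → ℝ) :
    Rs (wt N b t) u ≤ (∑ x, u x ^ 2) / (2 * t) := by
  have h2 := Lg_wt_le (N := N) hb.le ht u
  have h3 : 0 ≤ qf (Gm (wt N b t)) u :=
    (H864.psd_iff (ti_Gm_wt t)).2 (fun k => (Ght_pos (N := N) hb ht k).le) u
  unfold Rs
  linarith

/-- the part of the source inside the cells costs little -/
theorem Rs_fine_w [NeZero (N / l)] (hb : 0 < b) (hl : l ∣ N) {t T : ℝ} (ht : 0 < t) (h : t ≤ T) (h4 : T ≤ 4 * t)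
    (K : V N → ℝ) :
    Rs (wt N b t) ((4 * (T - t)) • (Gm (wt N b T) *ᵥ K - cellP N l *ᵥ (Gm (wt N b T) *ᵥ K))) ≤
      1152 * b * t * (l : ℝ) ^ 2 * qf (Gm (wt N b T)) K := by
  have hT : 0 < T := ht.trans_le h
  set g : V N → ℝ := Gm (wt N b T) *ᵥ K with hg
  refine (Rs_le_sq hb ht _).trans ?_
  have h3 : ∑ x, ((4 * (T - t)) • (g - cellP N l *ᵥ g)) x ^ 2 =
      16 * (T - t) ^ 2 * ∑ x, (g x - (cellP N l *ᵥ g) x) ^ 2 := by
    rw [Finset.mul_sum]
    refine Finset.sum_congr rfl fun x _ => ?_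
    simp only [Pi.smul_apply, Pi.sub_apply, smul_eq_mul]
    ring
  rw [h3]
  have h5 := H859.poin_cellP hl g
  have h6 := grd_Gw (N := N) hb hT K
  have h0 : 0 ≤ qf (Gm (wt N b T)) K :=
    (H864.psd_iff (ti_Gm_wt T)).2 (fun k => (Ght_pos (N := N) hb hT k).le) K
  have h7 : ∑ x, (g x - (cellP N l *ᵥ g) x) ^ 2 ≤
      16 * (l : ℝ) ^ 2 * (b * qf (Gm (wt N b T)) K) :=
    h5.trans (mul_le_mul_of_nonneg_left h6 (by positivity))
  have h8 : (T - t) ^ 2 ≤ (3 * t) ^ 2 := pow_le_pow_left₀ (by linarith) (by linarith) 2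
  rw [div_le_iff₀ (by positivity)]
  calc 16 * (T - t) ^ 2 * ∑ x, (g x - (cellP N l *ᵥ g) x) ^ 2
      ≤ 16 * (3 * t) ^ 2 * (16 * (l : ℝ) ^ 2 * (b * qf (Gm (wt N b T)) K)) :=
        mul_le_mul (mul_le_mul_of_nonneg_left h8 (by norm_num)) h7
          (Finset.sum_nonneg fun _ _ => sq_nonneg _) (by positivity)
    _ = _ := by ring

end rs

end

end Vale.Agent.P159.H30
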