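import Vale.Agent.P159.H30.Apr2
import Vale.Agent.P159.H30.Apr4
import Vale.Agent.P159.H358.Up3
import Vale.Agent.P159.TM.H857.H2B1

/-!
P159, module AP AT EVERY REAL MASS (helper30), part 5: the a priori bound of block noise at the mass
`T ∈ [t, 4 t]` from the one at the mass `t`.
-/

set_option linter.unusedSectionVars false

namespace Vale.Agent.P159.H30

open Finset Matrix MeasureTheory ProbabilityTheory
open Vale.Agent.P159.TM.H104 (EM Ex Lg li)
open Vale.Agent.P159.TM.H459 (sn sd)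
open Vale.Agent.P159.H37
open Vale.Agent.P159.TM.Spec (V)
open Vale.Agent.P159.H864 (TI sym Gc cl ti_Gm_wt sym_Gm_wt Ght_pos)
open Vale.Agent.P159.H972 (cobB)
open Vale.Agent.P159.H358 (APB jb)

noncomputable section

section tr

variable {N l Q : ℕ} [NeZero N] [NeZero (N / l)] [NeZero (N / (l * Q))]

/-- quadratic forms of block noise in the mean -/
theorem tr_blk (hl : l ∣ N) (hQ0 : 0 < Q) (j : ℕ × ℕ) {A : Matrix (V N) (V N) ℝ}
    (hA : TI A) (h0 : ∀ k, 0 ≤ sym (Gc l A) k) (σ : ℝ) :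
    (A * ((σ • cobB N l Q j) * (σ • cobB N l Q j)ᵀ)).trace ≤
      σ ^ 2 * (Q : ℝ) ^ 2 / ((N / l : ℕ) : ℝ) ^ 2 * (Gc l A).trace := by
  have tG : TI (Gc l A) := H864.ti_Gc hl hA.ct
  have hn : (0 : ℝ) < ((N / l : ℕ) : ℝ) := by exact_mod_cast NeZero.pos (N / l)
  set B := cobB N l Q j with hB
  have e1 : (A * ((σ • B) * (σ • B)ᵀ)).trace = σ ^ 2 * (Bᵀ * (A * B)).trace := by
    rw [Matrix.transpose_smul, Matrix.smul_mul, Matrix.mul_smul, Matrix.mul_smul,
      Matrix.trace_smul, Matrix.mul_smul, Matrix.trace_smul, smul_eq_mul, smul_eq_mul,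
      ← Matrix.mul_assoc A, Matrix.trace_mul_comm (A * B)]
    ring
  have e2 : ∀ c, (Bᵀ * (A * B)) c c = if jb Q c = j then
      (((N / l : ℕ) : ℝ) ^ 2)⁻¹ * (Gc l A).trace else 0 := by
    intro c
    by_cases hc : jb Q c = j
    · rw [if_pos hc]
      have hc' : c.1.val / Q = j.1 ∧ c.2.val / Q = j.2 := by
        rw [← hc]
        exact ⟨rfl, rfl⟩
      set v : V (N / l) := (H864.ce (N / l)).symm c with hv
      have hcv : H864.ce (N / l) v = c := by rw [hv, Equiv.apply_symm_apply]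
      have e3 : ∀ x, B x c = H864.cobV N l v x := by
        intro x
        rw [hB]
        unfold cobB
        rw [Matrix.of_apply, if_pos hc', ← H864.cob_ce hl, hcv]
      have e4 : (Bᵀ * (A * B)) c c = Gc l A v v := by
        have e5 : Gc l A = H864.cobV N l * (A * (H864.cobV N l)ᵀ) := by
          unfold H864.Gc
          rw [Matrix.mul_assoc]
        rw [e5, Matrix.mul_apply, Matrix.mul_apply]
        refine Finset.sum_congr rfl fun x _ => ?_
        rw [Matrix.transpose_apply, e3, Matrix.mul_apply, Matrix.mul_apply]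
        congr 1
        exact Finset.sum_congr rfl fun y _ => by rw [e3, Matrix.transpose_apply]
      rw [e4, tG.diag_eq, tG.trace_eq]
    · rw [if_neg hc]
      have e3 : ∀ x, B x c = 0 := by
        intro x
        rw [hB]
        unfold cobB
        rw [Matrix.of_apply, if_neg]
        intro h2
        exact hc (Prod.ext h2.1 h2.2)
      rw [Matrix.mul_apply]
      refine Finset.sum_eq_zero fun x _ => ?_
      rw [Matrix.transpose_apply, e3, zero_mul]
  rw [e1]
  unfold Matrix.trace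
  simp only [Matrix.diag_apply, e2]
  rw [← Finset.sum_filter, Finset.sum_const, nsmul_eq_mul]
  have e6 : 0 ≤ (Gc l A).trace := by
    rw [tG.trace_eq]
    exact Finset.sum_nonneg fun k _ => h0 k
  have e7 := H358.card_jb (n := N / l) hQ0 j
  have e8 : 0 ≤ σ ^ 2 * ((((N / l : ℕ) : ℝ) ^ 2)⁻¹ * (Gc l A).trace) := by positivity
  have e9 := mul_le_mul_of_nonneg_right e7 e8
  have e10 : (∑ i, Gc l A i i) = (Gc l A).trace := rfl
  rw [e10]
  calc σ ^ 2 * (((Finset.univ.filter fun c : Fin (N / l) × Fin (N / l) => jb Q c = j).card : ℝ) *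
        ((((N / l : ℕ) : ℝ) ^ 2)⁻¹ * (Gc l A).trace))
      = ((Finset.univ.filter fun c : Fin (N / l) × Fin (N / l) => jb Q c = j).card : ℝ) *
        (σ ^ 2 * ((((N / l : ℕ) : ℝ) ^ 2)⁻¹ * (Gc l A).trace)) := by ring
    _ ≤ (Q : ℝ) ^ 2 * (σ ^ 2 * ((((N / l : ℕ) : ℝ) ^ 2)⁻¹ * (Gc l A).trace)) := e9
    _ = _ := by
        field_simp

end tr

/-- the constant of the block sums -/
def Zr (c : ℝ) : ℝ := (∑' i : ℤ, Real.exp (-(c / 2 / 2 * |(i : ℝ)|))) ^ 2

lemma Zr_sum {c : ℝ} (hc : 0 < c) (n : ℕ) [NeZero n] (j : V n) :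
    ∑ β : V n, Real.exp (-(c / 2 * sn (β - j))) ≤ Zr c := by
  have h := TM.H857.sum_exp_sd n j (half_pos hc)
  exact h

lemma Zr_ge {c : ℝ} (hc : 0 < c) : 1 ≤ Zr c := by
  have h := Zr_sum hc 1 (0 : V 1)
  refine le_trans ?_ h
  have h1 := Finset.single_le_sum (f := fun β : V 1 => Real.exp (-(c / 2 * sn (β - 0))))
    (s := univ) (fun _ _ => (Real.exp_pos _).le) (Finset.mem_univ (0 : V 1))
  refine le_trans (le_of_eq ?_) h1
  simp [TM.H459.sn_zero]

section main

variable {N l Q : ℕ} [NeZero N] [NeZero (N / l)] [NeZero (N / (l * Q))] {b : ℝ}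

/-- **tail of the coarse response** -/
theorem coarse_tail (hb : 0 < b) (hl : l ∣ N) (hQ : l * Q ∣ N) {t T : ℝ} (ht : 0 < t) (h1 : t ≤ T)
    (h4 : T ≤ 4 * t) (htξ : t * ((l * Q : ℕ) : ℝ) ^ 2 ≤ 1) {c C : ℝ} (hc : 0 < c) (hC : 0 < C)
    (hS : ∀ x : V N, ∑ y, Gm (wt N b T) x y * Real.exp (c * sn (y - x) / (l * Q : ℕ)) ≤
      C * ((l * Q : ℕ) : ℝ) ^ 2)
    {X X' δ : ℝ} (hX' : 0 < X') (hδ : 0 ≤ δ) (hAP : APB N l Q b X t δ)
    (hA1 : 24 * C * Real.exp c * Zr c * X' ≤ X)
    (hA2 : 1680 * Zr c * (24 * C * Real.exp c * Zr c * X') ^ 2 ≤ X ^ 2)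
    (j : V (N / (l * Q))) :
    (gau (Fin (N / l) × Fin (N / l))).real {g | δ < Rs (wt N b t) ((4 * (T - t)) •
      (cellP N l *ᵥ (Gm (wt N b T) *ᵥ (((X' * √T) • cobB N l Q (pb j)) *ᵥ g))))} ≤ 1 / 120 := by
  have hT : 0 < T := ht.trans_le h1
  have hμ := H789.em_wt (N := N) hb.le ht
  have hE : Ev (wt N b t) := H789.ev_wt
  have hPK : PK (wt N b t) := H789.pk_wt (N := N) hb.le ht
  have hq : 0 ≤ T - t := by linarith
  have hst : 0 < √t := Real.sqrt_pos.2 ht
  have hsT : 0 < √T := Real.sqrt_pos.2 hT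
  have hξ0 : 0 < l * Q := Nat.pos_of_dvd_of_pos hQ (NeZero.pos N)
  have hξ : (0 : ℝ) < ((l * Q : ℕ) : ℝ) := by exact_mod_cast hξ0
  have hZ := Zr_ge hc
  have hZ0 : 0 < Zr c := lt_of_lt_of_le one_pos hZ
  set G := Gm (wt N b T) with hG
  have hG0 : ∀ x y, 0 ≤ G x y := fun x y => H612.Gm_nonneg hb.le hT x y
  have hGs : Gᵀ = G := (ti_Gm_wt (N := N) (b := b) T).transpose
  set σ := X' * √T with hσ
  have hσ0 : 0 < σ := by positivity
  set D := 24 * C * Real.exp c * Zr c * X' with hD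
  have hD0 : 0 < D := by positivity
  set A := X / D with hA
  have hX0 : 0 < X := hD0.trans_le hA1
  have hA1' : 1 ≤ A := by rwa [hA, le_div_iff₀ hD0, one_mul]
  have hA0 : 0 < A := by linarith
  -- weights
  set w : V (N / (l * Q)) → ℝ := fun β => (Zr c)⁻¹ * Real.exp (-(c / 2 * sn (β - j))) with hw
  have hw0 : ∀ β, 0 < w β := fun β => by positivity
  have hw1 : ∑ β, w β ≤ 1 := by
    rw [hw]
    simp only
    rw [← Finset.mul_sum, inv_mul_le_iff₀ hZ0, mul_one]
    exact Zr_sum hc _ j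
  set a : V (N / (l * Q)) → ℝ := fun β => A * Real.exp (c / 2 * sn (β - j)) with ha
  have ha1 : ∀ β, 1 ≤ a β := fun β => by
    have h2 : 1 ≤ Real.exp (c / 2 * sn (β - j)) := Real.one_le_exp (by positivity)
    calc (1 : ℝ) = 1 * 1 := by ring
      _ ≤ A * Real.exp (c / 2 * sn (β - j)) := mul_le_mul hA1' h2 zero_le_one hA0.le
  set Am : V (N / (l * Q)) → Matrix (V N) (Fin (N / l) × Fin (N / l)) ℝ := fun β =>
    ((w β)⁻¹ * (4 * (T - t)) * σ) •
      (cobB N l Q (pb β) * (cob N l * (G * cobB N l Q (pb j)))) with hAm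
  -- one block
  have hblk : ∀ β, (gau (Fin (N / l) × Fin (N / l))).real
      {g | δ < Rs (wt N b t) (Am β *ᵥ g)} ≤ 2 * Real.exp (-(a β ^ 2 / 7)) := by
    intro β
    refine tail_dom hμ hE hPK (ha1 β) (fun α => ?_) (hAP (pb β))
    have e1 : ∑ i, (α ᵥ* Am β) i ^ 2 = ((w β)⁻¹ * (4 * (T - t)) * σ) ^ 2 *
        ∑ i, (α ᵥ* (cobB N l Q (pb β) * (cob N l * (G * cobB N l Q (pb j))))) i ^ 2 := by
      rw [Finset.mul_sum]
      refine Finset.sum_congr rfl fun i _ => ?_
      rw [hAm]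
      simp only
      rw [Matrix.vecMul_smul, Pi.smul_apply, smul_eq_mul, mul_pow]
    have e2 : ∑ i, (α ᵥ* ((X * √t) • cobB N l Q (pb β))) i ^ 2 = (X * √t) ^ 2 *
        ∑ i, (α ᵥ* cobB N l Q (pb β)) i ^ 2 := by
      rw [Finset.mul_sum]
      refine Finset.sum_congr rfl fun i _ => ?_
      rw [Matrix.vecMul_smul, Pi.smul_apply, smul_eq_mul, mul_pow]
    have e3 := blk_dom hl hQ hξ0 hG0 hGs hc.le (by positivity) hS β j α
    have e0 : 0 ≤ ∑ i, (α ᵥ* cobB N l Q (pb β)) i ^ 2 := Finset.sum_nonneg fun _ _ => sq_nonneg _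
    rw [e1, e2]
    have key : a β * ((w β)⁻¹ * (4 * (T - t)) * σ) *
        (C * ((l * Q : ℕ) : ℝ) ^ 2 * Real.exp c * Real.exp (-(c * sn (β - j)))) ≤ X * √t := by
      have f1 : (w β)⁻¹ = Zr c * Real.exp (c / 2 * sn (β - j)) := by
        rw [hw]
        simp only
        rw [mul_inv, inv_inv, ← Real.exp_neg, neg_neg]
      have f2 : Real.exp (c / 2 * sn (β - j)) * Real.exp (c / 2 * sn (β - j)) *
          Real.exp (-(c * sn (β - j))) = 1 := by
        rw [← Real.exp_add, ← Real.exp_add, ← Real.exp_zero]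
        congr 1
        ring
      have f3 : √T ≤ 2 * √t := by
        rw [show (2 : ℝ) = √4 by
          rw [show (4 : ℝ) = 2 ^ 2 by norm_num, Real.sqrt_sq (by norm_num)],
          ← Real.sqrt_mul (by norm_num)]
        exact Real.sqrt_le_sqrt h4
      have f4 : a β * ((w β)⁻¹ * (4 * (T - t)) * σ) *
          (C * ((l * Q : ℕ) : ℝ) ^ 2 * Real.exp c * Real.exp (-(c * sn (β - j)))) =
          (A * Zr c * C * Real.exp c * X') * (4 * (T - t)) * (((l * Q : ℕ) : ℝ) ^ 2 * √T) *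
          (Real.exp (c / 2 * sn (β - j)) * Real.exp (c / 2 * sn (β - j)) *
          Real.exp (-(c * sn (β - j)))) := by
        rw [f1, ha, hσ]
        simp only
        ring
      have f5 : (4 * (T - t)) * (((l * Q : ℕ) : ℝ) ^ 2 * √T) ≤ 24 * √t := by
        calc (4 * (T - t)) * (((l * Q : ℕ) : ℝ) ^ 2 * √T)
            ≤ (12 * t) * (((l * Q : ℕ) : ℝ) ^ 2 * (2 * √t)) := by
              refine mul_le_mul (by linarith) (mul_le_mul_of_nonneg_left f3 (by positivity))
                (by positivity) (by positivity)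
          _ = 24 * √t * (t * ((l * Q : ℕ) : ℝ) ^ 2) := by ring
          _ ≤ 24 * √t * 1 := mul_le_mul_of_nonneg_left htξ (by positivity)
          _ = _ := by ring
      rw [f4, f2, mul_one, mul_assoc]
      calc A * Zr c * C * Real.exp c * X' * ((4 * (T - t)) * (((l * Q : ℕ) : ℝ) ^ 2 * √T))
          ≤ A * Zr c * C * Real.exp c * X' * (24 * √t) :=
            mul_le_mul_of_nonneg_left f5 (by positivity)
        _ = A * D * √t := by
            rw [hD]
            ring
        _ = X * √t := by rw [hA, div_mul_cancel₀ _ hD0.ne']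
    have k0 : 0 ≤ a β * ((w β)⁻¹ * (4 * (T - t)) * σ) *
        (C * ((l * Q : ℕ) : ℝ) ^ 2 * Real.exp c * Real.exp (-(c * sn (β - j)))) := by
      have := hw0 β
      have := ha1 β
      positivity
    have key2 := pow_le_pow_left₀ k0 key 2
    calc a β ^ 2 * (((w β)⁻¹ * (4 * (T - t)) * σ) ^ 2 *
          ∑ i, (α ᵥ* (cobB N l Q (pb β) * (cob N l * (G * cobB N l Q (pb j))))) i ^ 2)
        ≤ a β ^ 2 * (((w β)⁻¹ * (4 * (T - t)) * σ) ^ 2 *
          ((C * ((l * Q : ℕ) : ℝ) ^ 2 * Real.exp c * Real.exp (-(c * sn (β - j)))) ^ 2 *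
            ∑ i, (α ᵥ* cobB N l Q (pb β)) i ^ 2)) := by gcongr
      _ = (a β * ((w β)⁻¹ * (4 * (T - t)) * σ) *
          (C * ((l * Q : ℕ) : ℝ) ^ 2 * Real.exp c * Real.exp (-(c * sn (β - j))))) ^ 2 *
            ∑ i, (α ᵥ* cobB N l Q (pb β)) i ^ 2 := by ring
      _ ≤ (X * √t) ^ 2 * ∑ i, (α ᵥ* cobB N l Q (pb β)) i ^ 2 :=
          mul_le_mul_of_nonneg_right key2 e0
  -- union
  have hsub : {g | δ < Rs (wt N b t) ((4 * (T - t)) • (cellP N l *ᵥ
      (G *ᵥ ((σ • cobB N l Q (pb j)) *ᵥ g))))} ⊆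
      ⋃ β ∈ (univ : Finset (V (N / (l * Q)))), {g | δ < Rs (wt N b t) (Am β *ᵥ g)} := by
    intro g hg
    simp only [Set.mem_iUnion, Set.mem_ofPred_eq, exists_prop] at hg ⊢
    by_contra hcon
    push Not at hcon
    apply absurd hg
    rw [not_lt]
    have edec : (4 * (T - t)) • (cellP N l *ᵥ (G *ᵥ ((σ • cobB N l Q (pb j)) *ᵥ g))) =
        ∑ β : V (N / (l * Q)), (4 * (T - t)) • (cobB N l Q (pb β) *ᵥ
          (cob N l *ᵥ (G *ᵥ ((σ • cobB N l Q (pb j)) *ᵥ g)))) := by
      rw [← Finset.smul_sum, sum_cobB hQ]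
      unfold cellP
      rw [← Matrix.mulVec_mulVec]
    rw [edec]
    refine conv_w (H789.Rs_convex hμ hE hPK) (by rw [H789.Rs_zero]; exact hδ) univ
      (fun β _ => hw0 β) hw1 _ fun β hβ => ?_
    refine le_trans (le_of_eq ?_) (hcon β hβ)
    congr 1
    rw [hAm]
    simp only [Matrix.smul_mulVec, Matrix.mulVec_smul, ← Matrix.mulVec_mulVec, smul_smul]
    congr 1
    ring
  calc (gau (Fin (N / l) × Fin (N / l))).real _
      ≤ (gau (Fin (N / l) × Fin (N / l))).real
        (⋃ β ∈ (univ : Finset (V (N / (l * Q)))), {g | δ < Rs (wt N b t) (Am β *ᵥ g)}) :=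
        measureReal_mono hsub (measure_ne_top _ _)
    _ ≤ ∑ β, (gau (Fin (N / l) × Fin (N / l))).real {g | δ < Rs (wt N b t) (Am β *ᵥ g)} :=
        measureReal_biUnion_finset_le _ _
    _ ≤ ∑ β, 14 / A ^ 2 * Real.exp (-(c / 2 * sn (β - j))) := by
        refine Finset.sum_le_sum fun β _ => (hblk β).trans ?_
        have g1 : 0 < a β ^ 2 := by
          have := ha1 β
          positivity
        have g2 : Real.exp (-(a β ^ 2 / 7)) ≤ 7 / a β ^ 2 := by
          have g3 := Real.add_one_le_exp (a β ^ 2 / 7)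
          rw [Real.exp_neg, inv_le_comm₀ (Real.exp_pos _) (by positivity), inv_div]
          linarith
        have g4 : 7 / a β ^ 2 ≤ 7 / A ^ 2 * Real.exp (-(c / 2 * sn (β - j))) := by
          have g5 : a β ^ 2 = A ^ 2 * Real.exp (c * sn (β - j)) := by
            rw [ha]
            simp only
            rw [mul_pow, ← Real.exp_nat_mul]
            congr 2
            push_cast
            ring
          rw [g5, ← div_div, div_eq_mul_inv (7 / A ^ 2), ← Real.exp_neg]
          refine mul_le_mul_of_nonneg_left (Real.exp_le_exp.2 ?_) (by positivity)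
          have : (0 : ℝ) ≤ c * sn (β - j) := by positivity
          linarith
        calc 2 * Real.exp (-(a β ^ 2 / 7)) ≤ 2 * (7 / A ^ 2 * Real.exp (-(c / 2 * sn (β - j)))) := by
              linarith
          _ = _ := by ring
    _ ≤ 14 / A ^ 2 * Zr c := by
        rw [← Finset.mul_sum]
        exact mul_le_mul_of_nonneg_left (Zr_sum hc _ j) (by positivity)
    _ ≤ 1 / 120 := by
        rw [div_mul_eq_mul_div, div_le_div_iff₀ (by positivity) (by norm_num)]
        have : 1680 * Zr c * D ^ 2 ≤ A ^ 2 * D ^ 2 := by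
          rw [← mul_pow, hA, div_mul_cancel₀ _ hD0.ne']
          exact hA2
        have := le_of_mul_le_mul_right this (by positivity)
        linarith

end main

end

end Vale.Agent.P159.H30
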