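import Vale.Agent.P159.H30.Apr5

/-!
P159, module AP AT EVERY REAL MASS (helper30), part 6: the a priori bound of block noise at the mass
`T ∈ [t, 4 t]` from the one at the mass `t`, conclusion.
-/

set_option linter.unusedSectionVars false

namespace Vale.Agent.P159.H30

open Finset Matrix MeasureTheory ProbabilityTheory
open Vale.Agent.P159.TM.H104 (EM Ex Lg li)
open Vale.Agent.P159.TM.H459 (sn sd)
open Vale.Agent.P159.H37
open Vale.Agent.P159.TM.Spec (V)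
open Vale.Agent.P159.H864 (TI sym Gc cl ti_Gm_wt sym_Gm_wt Ght_pos)
open Vale.Agent.P159.H972 (cobB)
open Vale.Agent.P159.H358 (APB jb)

noncomputable section

lemma exp36 : Real.exp (-((6 : ℝ) ^ 2 / 7)) ≤ 1 / 120 := by
  have h2 : Real.exp (-((6 : ℝ) ^ 2 / 7)) ≤ Real.exp (-5) := Real.exp_le_exp.2 (by norm_num)
  have h3 : Real.exp (-5 : ℝ) ≤ 1 / 120 := by
    rw [Real.exp_neg, inv_le_comm₀ (Real.exp_pos _) (by norm_num)]
    have h4 : (2.7182818283 : ℝ) < Real.exp 1 := Real.exp_one_gt_d9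
    have h5 : Real.exp (5 : ℝ) = Real.exp 1 ^ 5 := by rw [← Real.exp_nat_mul]; norm_num
    rw [h5]
    have h6 : (2.7182818283 : ℝ) ^ 5 ≤ Real.exp 1 ^ 5 :=
      pow_le_pow_left₀ (by norm_num) h4.le 5
    refine le_trans ?_ h6
    norm_num
  exact h2.trans h3

section main

variable {N l Q : ℕ} [NeZero N] [NeZero (N / l)] [NeZero (N / (l * Q))] {b : ℝ}

/-- blocks outside of the torus are empty -/
lemma cobB_out (hQ : l * Q ∣ N) {j : ℕ × ℕ} (hj : ∀ β : V (N / (l * Q)), pb β ≠ j) :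
    cobB N l Q j = 0 := by
  have hξ0 : 0 < l * Q := Nat.pos_of_dvd_of_pos hQ (NeZero.pos N)
  have hl0 : 0 < l := Nat.pos_of_mul_pos_right hξ0
  have hQ0 : 0 < Q := Nat.pos_of_mul_pos_left hξ0
  ext x c
  unfold cobB
  rw [Matrix.of_apply, Matrix.zero_apply, if_neg]
  rintro ⟨h1, h2⟩
  have h3 : N / l / Q = N / (l * Q) := Nat.div_div_eq_div_mul _ _ _
  have hd : Q ∣ N / l := by
    obtain ⟨m, hm⟩ := hQ
    refine ⟨m, ?_⟩
    rw [hm, mul_assoc, Nat.mul_div_cancel_left _ hl0]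
  have key : ∀ i : Fin (N / l), i.val / Q < N / (l * Q) := by
    intro i
    rw [← h3]
    exact Nat.div_lt_div_of_lt_of_dvd hd i.isLt
  have k1 : j.1 < N / (l * Q) := by rw [← h1]; exact key _
  have k2 : j.2 < N / (l * Q) := by rw [← h2]; exact key _
  refine hj ((j.1 : ZMod (N / (l * Q))), (j.2 : ZMod (N / (l * Q)))) ?_
  unfold pb
  simp only
  rw [ZMod.val_cast_of_lt k1, ZMod.val_cast_of_lt k2]

/-- **AP at the mass `T` from AP at the mass `t`** (`t ≤ T ≤ 4 t`, blocks of side `ξ = l Q`,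
`t ξ² ≤ 1`): loss `ε` of the level, loss `X / X'` of the amplitude -/
theorem apb_raise (hb : 0 < b) (hl : l ∣ N) (hQ : l * Q ∣ N) {t T : ℝ} (ht : 0 < t) (h1 : t ≤ T)
    (h4 : T ≤ 4 * t) (htξ : t * ((l * Q : ℕ) : ℝ) ^ 2 ≤ 1) {c C : ℝ} (hc : 0 < c) (hC : 0 < C)
    (hS : ∀ x : V N, ∑ y, Gm (wt N b T) x y * Real.exp (c * sn (y - x) / (l * Q : ℕ)) ≤
      C * ((l * Q : ℕ) : ℝ) ^ 2)
    {X X' δ ε : ℝ} (hX' : 0 < X') (hδ : 0 ≤ δ) (hε : 0 < ε) (hAP : APB N l Q b X t δ)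
    (hA0 : 24 * X' ≤ X) (hA1 : 24 * C * Real.exp c * Zr c * X' ≤ X)
    (hA2 : 1680 * Zr c * (24 * C * Real.exp c * Zr c * X') ^ 2 ≤ X ^ 2)
    (hE1 : X' ^ 2 * T * (Q : ℝ) ^ 2 / ((N / l : ℕ) : ℝ) ^ 2 * (Gc l (Mb N b t T)).trace ≤ ε / 120)
    (hE2 : 1152 * b * t * (l : ℝ) ^ 2 * (X' ^ 2 * T * (Q : ℝ) ^ 2 / ((N / l : ℕ) : ℝ) ^ 2 *
      (Gc l (Gm (wt N b T))).trace) ≤ ε / 120) :
    APB N l Q b X' T (δ + ε) := by
  intro j
  have hT : 0 < T := ht.trans_le h1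
  have hξ0 : 0 < l * Q := Nat.pos_of_dvd_of_pos hQ (NeZero.pos N)
  have hQ0 : 0 < Q := Nat.pos_of_mul_pos_left hξ0
  have hlR : (0 : ℝ) < l := by exact_mod_cast H864.l_pos hl
  have hμ := H789.em_wt (N := N) hb.le ht
  have hE : Ev (wt N b t) := H789.ev_wt
  have hPK : PK (wt N b t) := H789.pk_wt (N := N) hb.le ht
  by_cases hj : ∀ β : V (N / (l * Q)), pb β ≠ j
  · rw [cobB_out hQ hj, smul_zero]
    have e : {g : Fin (N / l) × Fin (N / l) → ℝ | δ + ε < Rs (wt N b T)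
        ((0 : Matrix (V N) (Fin (N / l) × Fin (N / l)) ℝ) *ᵥ g)} = ∅ := by
      ext g
      simp only [Set.mem_ofPred_eq, Set.mem_empty_iff_false, iff_false, not_lt, Matrix.zero_mulVec,
        H789.Rs_zero]
      linarith
    rw [e, measureReal_empty]
    norm_num
  push Not at hj
  obtain ⟨β0, rfl⟩ := hj
  have hst : 0 < √t := Real.sqrt_pos.2 ht
  have hsT : 0 < √T := Real.sqrt_pos.2 hT
  have hsT2 : √T ≤ 2 * √t := by
    rw [show (2 : ℝ) = √4 by
      rw [show (4 : ℝ) = 2 ^ 2 by norm_num, Real.sqrt_sq (by norm_num)],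
      ← Real.sqrt_mul (by norm_num)]
    exact Real.sqrt_le_sqrt h4
  set B := cobB N l Q (pb β0) with hB
  set σ := X' * √T with hσ
  have hσ0 : 0 < σ := by positivity
  have hσ2 : σ ^ 2 = X' ^ 2 * T := by rw [hσ, mul_pow, Real.sq_sqrt hT.le]
  set G := Gm (wt N b T) with hG
  set K : (Fin (N / l) × Fin (N / l) → ℝ) → V N → ℝ := fun g => (σ • B) *ᵥ g with hK
  have hX0 : 0 < X := by linarith
  -- the four events
  have p1 : (gau (Fin (N / l) × Fin (N / l))).real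
      {g | δ < Rs (wt N b t) ((2 : ℝ) • K g)} ≤ 1 / 120 := by
    set a0 : ℝ := X * √t / (2 * σ) with ha0
    have ha6 : 6 ≤ a0 := by
      rw [ha0, le_div_iff₀ (by positivity), hσ]
      calc 6 * (2 * (X' * √T)) = 12 * X' * √T := by ring
        _ ≤ 12 * X' * (2 * √t) := mul_le_mul_of_nonneg_left hsT2 (by positivity)
        _ = 24 * X' * √t := by ring
        _ ≤ X * √t := mul_le_mul_of_nonneg_right hA0 hst.le
    have h2 := H586.fern_Rs hμ hE hPK _ (hAP (pb β0)) (a := a0) (by linarith)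
    have e : ∀ g, a0⁻¹ • (((X * √t) • cobB N l Q (pb β0)) *ᵥ g) = (2 : ℝ) • K g := by
      intro g
      rw [← hB, hK]
      simp only [Matrix.smul_mulVec, smul_smul]
      congr 1
      rw [ha0, inv_div, div_mul_cancel₀ _ (by positivity)]
    simp only [e] at h2
    refine h2.trans (le_trans (Real.exp_le_exp.2 ?_) exp36)
    have : (6 : ℝ) ^ 2 ≤ a0 ^ 2 := pow_le_pow_left₀ (by norm_num) ha6 2
    linarith
  have p2 := coarse_tail hb hl hQ ht h1 h4 htξ hc hC hS hX' hδ hAP hA1 hA2 β0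
  have p3 : (gau (Fin (N / l) × Fin (N / l))).real
      {g | ε < qf (Mb N b t T) (K g)} ≤ 1 / 120 := by
    have h2 := gau_mk (M := Mb N b t T)
      ((H864.psd_iff (ti_Mb b t T)).2 fun k => sym_Mb_nonneg hb ht h1 k) (σ • B) hε
    refine h2.trans ?_
    rw [div_le_iff₀ hε]
    refine (tr_blk hl hQ0 (pb β0) (ti_Mb b t T) (fun k => sym_GcMb_nonneg hb hl ht h1 k) σ).trans ?_
    rw [hσ2]
    linarith
  have hGnn : ∀ k, 0 ≤ sym (Gc l G) k := by
    intro k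
    rw [H864.sym_Gc hl (ti_Gm_wt T)]
    unfold H864.als
    exact Finset.sum_nonneg fun p _ => mul_nonneg (Ght_pos (N := N) hb hT p).le (H864.Wl_nonneg p)
  have p4 : (gau (Fin (N / l) × Fin (N / l))).real
      {g | ε < qf ((1152 * b * t * (l : ℝ) ^ 2) • G) (K g)} ≤ 1 / 120 := by
    have hpos : 0 ≤ 1152 * b * t * (l : ℝ) ^ 2 := by positivity
    have h2 := gau_mk (M := (1152 * b * t * (l : ℝ) ^ 2) • G) (fun u => by
      rw [H864.qf_smul_mat]
      exact mul_nonneg hpos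
        ((H864.psd_iff (ti_Gm_wt T)).2 (fun k => (Ght_pos (N := N) hb hT k).le) u)) (σ • B) hε
    refine h2.trans ?_
    rw [div_le_iff₀ hε, Matrix.smul_mul, Matrix.trace_smul, smul_eq_mul]
    have h3 := tr_blk hl hQ0 (pb β0) (ti_Gm_wt (b := b) T) hGnn σ
    rw [hσ2] at h3
    refine (mul_le_mul_of_nonneg_left h3 hpos).trans ?_
    linarith
  -- the inequality
  have hsub : {g | δ + ε < Rs (wt N b T) ((σ • B) *ᵥ g)} ⊆
      (({g | δ < Rs (wt N b t) ((2 : ℝ) • K g)} ∪ {g | δ < Rs (wt N b t) ((4 * (T - t)) •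
        (cellP N l *ᵥ (G *ᵥ K g)))}) ∪ {g | ε < qf (Mb N b t T) (K g)}) ∪
        {g | ε < qf ((1152 * b * t * (l : ℝ) ^ 2) • G) (K g)} := by
    intro g hg
    simp only [Set.mem_union, Set.mem_ofPred_eq] at hg ⊢
    by_contra hcon
    push Not at hcon
    obtain ⟨⟨⟨c1, c2⟩, c3⟩, c4⟩ := hcon
    have r1 := raise_w hb ht h1 (K g)
    have r2 := H692.Rs_add_le_two hμ hE hPK (K g) (-((T - t) • (G *ᵥ K g)))
    rw [← sub_eq_add_neg, smul_neg, H789.Rs_neg hE, smul_smul] at r2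
    have e5 : (2 * (T - t)) • (G *ᵥ K g) = (2 * (T - t)) • (cellP N l *ᵥ (G *ᵥ K g)) +
        (2 * (T - t)) • (G *ᵥ K g - cellP N l *ᵥ (G *ᵥ K g)) := by
      rw [← smul_add, add_sub_cancel]
    have r3 := H692.Rs_add_le_two hμ hE hPK ((2 * (T - t)) • (cellP N l *ᵥ (G *ᵥ K g)))
      ((2 * (T - t)) • (G *ᵥ K g - cellP N l *ᵥ (G *ᵥ K g)))
    rw [← e5, smul_smul, smul_smul, show (2 : ℝ) * (2 * (T - t)) = 4 * (T - t) by ring] at r3
    have r4 := Rs_fine_w hb hl ht h1 h4 (K g)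
    rw [H864.qf_smul_mat] at c4
    have hgR : δ + ε < Rs (wt N b T) (K g) := hg
    linarith
  refine (measureReal_mono hsub (measure_ne_top _ _)).trans ?_
  refine (measureReal_union_le _ _).trans ?_
  have q1 := measureReal_union_le (μ := gau (Fin (N / l) × Fin (N / l)))
    ({g | δ < Rs (wt N b t) ((2 : ℝ) • K g)} ∪ {g | δ < Rs (wt N b t) ((4 * (T - t)) •
        (cellP N l *ᵥ (G *ᵥ K g)))}) {g | ε < qf (Mb N b t T) (K g)}
  have q2 := measureReal_union_le (μ := gau (Fin (N / l) × Fin (N / l)))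
    {g | δ < Rs (wt N b t) ((2 : ℝ) • K g)} {g | δ < Rs (wt N b t) ((4 * (T - t)) •
        (cellP N l *ᵥ (G *ᵥ K g)))}
  have p2' : (gau (Fin (N / l) × Fin (N / l))).real {g | δ < Rs (wt N b t) ((4 * (T - t)) •
        (cellP N l *ᵥ (G *ᵥ K g)))} ≤ 1 / 120 := p2
  linarith

end main

end

end Vale.Agent.P159.H30
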