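import Vale.Agent.P159.H30.Apr6
import Vale.Agent.P159.H43.OscP

/-!
P159, module AP AT EVERY REAL MASS (helper30), part 7: the quadratic losses of `apb_raise` from the
flat profiles, the integrality effect and the fine energy.
-/

set_option linter.unusedSectionVars false

namespace Vale.Agent.P159.H30

open Finset Matrix MeasureTheory ProbabilityTheory
open Vale.Agent.P159.TM.H104 (EM Ex Lg li)
open Vale.Agent.P159.TM.H459 (sn sd)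
open Vale.Agent.P159.H37
open Vale.Agent.P159.TM.Spec (V)
open Vale.Agent.P159.TM.SpecC (wT)
open Vale.Agent.P159.H612 (ZC)
open Vale.Agent.P159.H864 (yt TI sym Gc)
open Vale.Agent.P159.H972 (FL)
open Vale.Agent.P159.H358 (APB)

noncomputable section

/-- pointwise bound of the defect, flat profiles and integrality effect at `4 t` -/
theorem sym_Mb_num {N : ℕ} [NeZero N] {b : ℝ} (hb : 0 < b) {t T a η y : ℝ} (ht : 0 < t)
    (h1 : t ≤ T) (h4 : T ≤ 4 * t) (htN : 9 ≤ t * (N : ℝ) ^ 2) (F1 : FL b t a η N)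
    (F4 : FL b (4 * t) a η N) (hy : yt N b (4 * t) ≤ y) (hy1 : 32 * (t * (N : ℝ) ^ 2) * y ≤ 1)
    (p : V N) : sym (Mb N b t T) p ≤
      (2 * (1 + b) ^ 2 * η + 960 * √(8 * (t * (N : ℝ) ^ 2) * y) + 16 * y) / t := by
  have hT : 0 < T := ht.trans_le h1
  have h4t : 0 < 4 * t := by positivity
  have hy0 : 0 ≤ y := (H864.yt_nonneg (N := N) hb.le h4t).trans hy
  have hyT : yt N b T ≤ 4 * y := by
    have g1 := H43.mul_yt_mono (N := N) hb hT h4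
    have g2 : T * yt N b T ≤ 4 * t * y := g1.trans (mul_le_mul_of_nonneg_left hy h4t.le)
    have g3 : 4 * t * y ≤ T * (4 * y) := by nlinarith
    exact le_of_mul_le_mul_left (g2.trans g3) hT
  have hy4 : 4 * y ≤ 1 / 2 := by nlinarith
  have hPi := H37.Pik_zero_le hb hT hyT hy4
  have hosc : ∀ c d : ℝ, Real.log (ZC N b T c) - Real.log (ZC N b T d) ≤
      8 * (t * (N : ℝ) ^ 2) * y := by
    intro c d
    refine (H37.osc_le hb hT c d).trans ?_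
    have g1 : (N : ℝ) ^ 2 * Pik N b T 0 ≤ (N : ℝ) ^ 2 * (2 * T * (4 * y)) :=
      mul_le_mul_of_nonneg_left hPi (by positivity)
    have g2 : (N : ℝ) ^ 2 * (2 * T * (4 * y)) ≤ (N : ℝ) ^ 2 * (2 * (4 * t) * (4 * y)) := by
      gcongr
    linarith
  refine (sym_Mb_FL hb ht h1 h4 (by linarith) F1 F4 hosc (by linarith) hyT p).trans (le_of_eq ?_)
  ring

/-- the fine energy of the two masses -/
theorem fine_tT {b : ℝ} (hb : 0 < b) : ∃ C1 cf : ℝ, 0 < C1 ∧ 0 < cf ∧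
    ∀ (N ρ : ℕ) [NeZero N] (t T : ℝ), ρ ∣ N → 0 < t → t ≤ T → T ≤ 4 * t →
      9 ≤ t * (N : ℝ) ^ 2 → 4 * t * (ρ : ℝ) ^ 2 ≤ 1 →
      Ex (wt N b t) 0 (fun h => qf (1 - cellP N ρ) (re h)) -
      Ex (wt N b T) 0 (fun h => qf (1 - cellP N ρ) (re h)) ≤
        C1 * (N : ℝ) ^ 2 * (4 * t * (ρ : ℝ) ^ 2) ^ cf := by
  obtain ⟨C1, cf, hC1, hcf, hF⟩ := H375.fine_M (b := b) hb.le
  refine ⟨C1, cf, hC1, hcf, ?_⟩
  intro N ρ _ t T hρ ht h1 h4 htN htρ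
  have hT : 0 < T := ht.trans_le h1
  have m1 : H375.MasM T t (t • (1 : Matrix (V N) (V N) ℝ)) (T • (1 : Matrix (V N) (V N) ℝ)) :=
    { s0 := by rw [Matrix.transpose_smul, Matrix.transpose_one]
      s1 := by rw [Matrix.transpose_smul, Matrix.transpose_one]
      lo := fun u => by rw [H37.qf_smul_one]
      mid := fun u => by
        rw [H37.qf_smul_one, H37.qf_smul_one]
        exact mul_le_mul_of_nonneg_right h1 (Finset.sum_nonneg fun _ _ => sq_nonneg _)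
      up := fun u => by rw [H37.qf_smul_one] }
  have g1 : 9 ≤ T * (N : ℝ) ^ 2 := htN.trans (mul_le_mul_of_nonneg_right h1 (by positivity))
  have g2 : T * (ρ : ℝ) ^ 2 ≤ 4 * t * (ρ : ℝ) ^ 2 := mul_le_mul_of_nonneg_right h4 (by positivity)
  have hE := (hF N T hT g1 ρ hρ (g2.trans htρ) t _ _ ht m1).2
  have hR : (T * (ρ : ℝ) ^ 2) ^ cf ≤ (4 * t * (ρ : ℝ) ^ 2) ^ cf :=
    Real.rpow_le_rpow (by positivity) g2 hcf.le
  exact hE.trans (mul_le_mul_of_nonneg_left hR (by positivity))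

section pre

variable {N l Q : ℕ} [NeZero N] [NeZero (N / l)] {b t T X' : ℝ}

/-- the prefactor of the losses -/
lemma pre_le (hl : l ∣ N) (h4 : T ≤ 4 * t) (htξ : t * ((l * Q : ℕ) : ℝ) ^ 2 = 1) :
    X' ^ 2 * T * (Q : ℝ) ^ 2 / ((N / l : ℕ) : ℝ) ^ 2 ≤ 4 * X' ^ 2 / (N : ℝ) ^ 2 := by
  have hnR : (0 : ℝ) < ((N / l : ℕ) : ℝ) := by exact_mod_cast NeZero.pos (N / l)
  have hlR : (0 : ℝ) < l := by exact_mod_cast H864.l_pos hl
  have hN : (0 : ℝ) < N := by exact_mod_cast NeZero.pos N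
  have e1 := H963.N_eq hl
  rw [div_le_div_iff₀ (by positivity) (by positivity)]
  have e3 : T * ((l * Q : ℕ) : ℝ) ^ 2 ≤ 4 := by
    calc T * ((l * Q : ℕ) : ℝ) ^ 2 ≤ 4 * t * ((l * Q : ℕ) : ℝ) ^ 2 :=
          mul_le_mul_of_nonneg_right h4 (by positivity)
      _ = 4 * (t * ((l * Q : ℕ) : ℝ) ^ 2) := by ring
      _ = 4 := by rw [htξ, mul_one]
  have e2 : X' ^ 2 * T * (Q : ℝ) ^ 2 * (N : ℝ) ^ 2 =
      X' ^ 2 * ((N / l : ℕ) : ℝ) ^ 2 * (T * ((l * Q : ℕ) : ℝ) ^ 2) := by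
    rw [e1]
    push_cast
    ring
  rw [e2]
  calc X' ^ 2 * ((N / l : ℕ) : ℝ) ^ 2 * (T * ((l * Q : ℕ) : ℝ) ^ 2) ≤
        X' ^ 2 * ((N / l : ℕ) : ℝ) ^ 2 * 4 := mul_le_mul_of_nonneg_left e3 (by positivity)
    _ = _ := by ring

/-- the loss inside the cells -/
lemma loss_fine (hb : 0 < b) (hl : l ∣ N) (ht : 0 < t) (h1 : t ≤ T) (h4 : T ≤ 4 * t)
    (htξ : t * ((l * Q : ℕ) : ℝ) ^ 2 = 1) (htN : 9 ≤ t * (N : ℝ) ^ 2) {ε : ℝ}
    (hn : 552960 * b * (1 + b) * X' ^ 2 * (t * (l : ℝ) ^ 2) * (2 + Real.log ((N / l : ℕ) : ℝ)) ≤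
      ε) :
    1152 * b * t * (l : ℝ) ^ 2 * (X' ^ 2 * T * (Q : ℝ) ^ 2 / ((N / l : ℕ) : ℝ) ^ 2 *
      (Gc l (Gm (wt N b T))).trace) ≤ ε / 120 := by
  have hT : 0 < T := ht.trans_le h1
  have hN : (0 : ℝ) < N := by exact_mod_cast NeZero.pos N
  have hlR : (0 : ℝ) < l := by exact_mod_cast H864.l_pos hl
  have pre := pre_le (X' := X') hl h4 htξ
  have pre0 : 0 ≤ 4 * X' ^ 2 / (N : ℝ) ^ 2 := by positivity
  have tr2 := trGcw (N := N) hb hl hT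
  have hL : 0 ≤ Real.log ((N / l : ℕ) : ℝ) := Real.log_natCast_nonneg _
  set L := Real.log ((N / l : ℕ) : ℝ) with hLd
  have f0 : 0 ≤ (Gc l (Gm (wt N b T))).trace := by
    rw [(H864.ti_Gc hl (H864.ti_Gm_wt (b := b) T).ct).trace_eq]
    refine Finset.sum_nonneg fun k _ => ?_
    rw [H864.sym_Gc hl (H864.ti_Gm_wt T)]
    unfold H864.als
    exact Finset.sum_nonneg fun p _ =>
      mul_nonneg (H864.Ght_pos (N := N) hb hT p).le (H864.Wl_nonneg p)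
  have f1 : X' ^ 2 * T * (Q : ℝ) ^ 2 / ((N / l : ℕ) : ℝ) ^ 2 * (Gc l (Gm (wt N b T))).trace ≤
      4 * X' ^ 2 * ((1 + b) * (2 + L)) := by
    refine (mul_le_mul_of_nonneg_right pre f0).trans ?_
    refine (mul_le_mul_of_nonneg_left tr2 pre0).trans ?_
    have g0 : 9 ≤ T * (N : ℝ) ^ 2 := htN.trans (mul_le_mul_of_nonneg_right h1 (by positivity))
    have g1 : 1 / T ≤ (N : ℝ) ^ 2 := by
      rw [div_le_iff₀ hT]
      linarith
    have g2 : 1 / T + b * (N : ℝ) ^ 2 * (1 + L) ≤ (N : ℝ) ^ 2 * ((1 + b) * (2 + L)) := by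
      have g3 : 0 ≤ (N : ℝ) ^ 2 * (b + (1 + L)) := by positivity
      have g4 : (N : ℝ) ^ 2 * ((1 + b) * (2 + L)) - (b * (N : ℝ) ^ 2 * (1 + L)) - (N : ℝ) ^ 2 =
          (N : ℝ) ^ 2 * (b + (1 + L)) := by ring
      linarith
    refine (mul_le_mul_of_nonneg_left g2 pre0).trans (le_of_eq ?_)
    field_simp
  have hpos : 0 ≤ 1152 * b * t * (l : ℝ) ^ 2 := by positivity
  refine (mul_le_mul_of_nonneg_left f1 hpos).trans ?_
  have e1 : 1152 * b * t * (l : ℝ) ^ 2 * (4 * X' ^ 2 * ((1 + b) * (2 + L))) =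
      (552960 * b * (1 + b) * X' ^ 2 * (t * (l : ℝ) ^ 2) * (2 + L)) / 120 := by ring
  rw [e1]
  exact div_le_div_of_nonneg_right hn (by norm_num)

/-- the loss of the defect -/
lemma loss_def (hb : 0 < b) (hl : l ∣ N) (ht : 0 < t) (h1 : t ≤ T) (h4 : T ≤ 4 * t)
    (htξ : t * ((l * Q : ℕ) : ℝ) ^ 2 = 1) {ρ : ℕ} (h8 : 8 * l ∣ ρ) (hρ : ρ ∣ N) {W R ε : ℝ}
    (hw : ∀ p : V N, sym (Mb N b t T) p ≤ W / t)
    (hE : Ex (wt N b t) 0 (fun h => qf (1 - cellP N ρ) (re h)) -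
      Ex (wt N b T) 0 (fun h => qf (1 - cellP N ρ) (re h)) ≤ (N : ℝ) ^ 2 * R)
    (hn : 480 * X' ^ 2 * (128 * (W / (t * (ρ : ℝ) ^ 2)) + 4 / 3 * R) ≤ ε) :
    X' ^ 2 * T * (Q : ℝ) ^ 2 / ((N / l : ℕ) : ℝ) ^ 2 * (Gc l (Mb N b t T)).trace ≤ ε / 120 := by
  have hN : (0 : ℝ) < N := by exact_mod_cast NeZero.pos N
  have hρR : (0 : ℝ) < ρ := by exact_mod_cast Nat.pos_of_dvd_of_pos hρ (NeZero.pos N)
  have pre := pre_le (X' := X') hl h4 htξ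
  have pre0 : 0 ≤ 4 * X' ^ 2 / (N : ℝ) ^ 2 := by positivity
  have tr1 := trGcMb hb hl h8 hρ ht h1 hw hE
  have t1nn : 0 ≤ (Gc l (Mb N b t T)).trace := by
    rw [(ti_GcMb hl b t T).trace_eq]
    exact Finset.sum_nonneg fun k _ => sym_GcMb_nonneg hb hl ht h1 k
  refine (mul_le_mul_of_nonneg_right pre t1nn).trans ?_
  refine (mul_le_mul_of_nonneg_left tr1 pre0).trans ?_
  have e1 : 4 * X' ^ 2 / (N : ℝ) ^ 2 * (128 * ((N : ℝ) / ρ) ^ 2 * (W / t) +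
      4 / 3 * ((N : ℝ) ^ 2 * R)) =
      (480 * X' ^ 2 * (128 * (W / (t * (ρ : ℝ) ^ 2)) + 4 / 3 * R)) / 120 := by
    field_simp
    ring
  rw [e1]
  exact div_le_div_of_nonneg_right hn (by norm_num)

end pre

/-- **AP at the mass `T` from AP at the mass `t`, quantitative** -/
theorem apb_num {b : ℝ} (hb : 0 < b) : ∃ C1 cf : ℝ, 0 < C1 ∧ 0 < cf ∧
    ∀ (N l Q ρ : ℕ) [NeZero N] [NeZero (N / l)] [NeZero (N / (l * Q))] (t T a η y c C X X' δ ε : ℝ),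
      l ∣ N → l * Q ∣ N → 8 * l ∣ ρ → ρ ∣ N → 0 < t → t ≤ T → T ≤ 4 * t →
      t * ((l * Q : ℕ) : ℝ) ^ 2 = 1 → 9 ≤ t * (N : ℝ) ^ 2 → 4 * t * (ρ : ℝ) ^ 2 ≤ 1 →
      FL b t a η N → FL b (4 * t) a η N → yt N b (4 * t) ≤ y → 32 * (t * (N : ℝ) ^ 2) * y ≤ 1 →
      0 < c → 0 < C →
      (∀ x : V N, ∑ y, Gm (wt N b T) x y * Real.exp (c * sn (y - x) / (l * Q : ℕ)) ≤
        C * ((l * Q : ℕ) : ℝ) ^ 2) →
      0 < X' → 0 ≤ δ → 0 < ε → APB N l Q b X t δ → 24 * X' ≤ X →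
      24 * C * Real.exp c * Zr c * X' ≤ X →
      1680 * Zr c * (24 * C * Real.exp c * Zr c * X') ^ 2 ≤ X ^ 2 →
      480 * X' ^ 2 * (128 * ((2 * (1 + b) ^ 2 * η + 960 * √(8 * (t * (N : ℝ) ^ 2) * y) + 16 * y) /
        (t * (ρ : ℝ) ^ 2)) + 4 / 3 * (C1 * (4 * t * (ρ : ℝ) ^ 2) ^ cf)) ≤ ε →
      552960 * b * (1 + b) * X' ^ 2 * (t * (l : ℝ) ^ 2) * (2 + Real.log ((N / l : ℕ) : ℝ)) ≤ ε →
      APB N l Q b X' T (δ + ε) := by
  obtain ⟨C1, cf, hC1, hcf, hF⟩ := fine_tT hb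
  refine ⟨C1, cf, hC1, hcf, ?_⟩
  intro N l Q ρ _ _ _ t T a η y c C X X' δ ε hl hQ h8 hρ ht h1 h4 htξ htN htρ F1 F4 hy hy1 hc hC hS
    hX' hδ hε hAP hA0 hA1 hA2 hn1 hn2
  have hE := hF N ρ t T hρ ht h1 h4 htN htρ
  exact apb_raise hb hl hQ ht h1 h4 htξ.le hc hC hS hX' hδ hε hAP hA0 hA1 hA2
    (loss_def hb hl ht h1 h4 htξ h8 hρ (sym_Mb_num hb ht h1 h4 htN F1 F4 hy hy1)
      (hE.trans (le_of_eq (by ring))) hn1) (loss_fine hb hl ht h1 h4 htξ htN hn2)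

end

end Vale.Agent.P159.H30
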