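import Vale.Agent.P159.H30.Apr7
import Vale.Agent.P159.H789.TaI
import Vale.Agent.P159.TM.H857.GlueB

/-!
P159, module AP AT EVERY REAL MASS (helper30), part 8: the family form.
-/

set_option linter.unusedSectionVars false

namespace Vale.Agent.P159.H30

open Finset Matrix MeasureTheory ProbabilityTheory
open Vale.Agent.P159.TM.H459 (sn sd)
open Vale.Agent.P159.H37
open Vale.Agent.P159.TM.Spec (V Rng)
open Vale.Agent.P159.H864 (yt)
open Vale.Agent.P159.H972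
open Vale.Agent.P159.H358 (APB)
open Vale.Agent.P159.H239 (Fam Sel)

noncomputable section

/-- numbers of the defect: `G = 4 ^ g`, `K = 2 ^ (r - n)` -/
lemma num_def {x1 κ pf cf C1 Cq b e X' K G R : ℝ} (hx1 : 0 < x1) (hcf : 0 < cf) (hC1 : 0 < C1)
    (hCq : 0 < Cq) (hb : 0 < b) (he : 0 < e) (he1 : e ≤ 1) (hκ : κ = 2 * x1 / cf)
    (p1 : 4 * x1 + 2 * κ ≤ pf) (p2 : 13 * x1 + 2 * κ ≤ 1 / 8)
    (hX0 : 0 < X') (hX : X' ≤ 2 * e ^ (-x1)) (hK0 : 0 < K) (hK : K ≤ Cq * e ^ (-(9 * x1)))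
    (hG0 : 0 < G) (hG : G ≤ 4 * e ^ (-(2 * κ))) (hR0 : 0 < R) (hR : R ≤ e ^ (2 * κ))
    (hsm : 3840 * (512 * (2 * (1 + b) ^ 2 + 2880 * Cq + 16) + 4 / 3 * (C1 * 4 ^ cf)) * e ^ x1 ≤ 1) :
    480 * X' ^ 2 * (128 * ((2 * (1 + b) ^ 2 * e ^ pf + 960 * √(8 * K ^ 2 * e ^ (1 / 4 : ℝ)) +
      16 * e ^ (1 / 4 : ℝ)) * G) + 4 / 3 * (C1 * (4 * R) ^ cf)) ≤ e ^ x1 / 2 := by
  have pe : ∀ p : ℝ, 0 < e ^ p := fun p => Real.rpow_pos_of_pos he p
  have mono : ∀ {p q : ℝ}, p ≤ q → e ^ q ≤ e ^ p := fun h =>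
    Real.rpow_le_rpow_of_exponent_ge he he1 h
  have hκ0 : 0 ≤ κ := by rw [hκ]; positivity
  have s1 : √(8 * K ^ 2 * e ^ (1 / 4 : ℝ)) ≤ 3 * K * e ^ (1 / 8 : ℝ) := by
    rw [show (3 * K * e ^ (1 / 8 : ℝ)) = √((3 * K * e ^ (1 / 8 : ℝ)) ^ 2) by
      rw [Real.sqrt_sq (by have := pe (1 / 8); positivity)]]
    refine Real.sqrt_le_sqrt ?_
    have h2 : (e ^ (1 / 8 : ℝ)) ^ 2 = e ^ (1 / 4 : ℝ) := by
      rw [← Real.rpow_natCast, ← Real.rpow_mul he.le]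
      norm_num
    rw [mul_pow, h2, mul_pow]
    have := pe (1 / 4)
    have h3 : 0 ≤ K ^ 2 * e ^ (1 / 4 : ℝ) := by positivity
    nlinarith
  have s2 : 3 * K * e ^ (1 / 8 : ℝ) ≤ 3 * Cq * e ^ (4 * x1 + 2 * κ) := by
    calc 3 * K * e ^ (1 / 8 : ℝ) ≤ 3 * (Cq * e ^ (-(9 * x1))) * e ^ (1 / 8 : ℝ) := by
          have := pe (1 / 8)
          gcongr
      _ = 3 * Cq * (e ^ (-(9 * x1)) * e ^ (1 / 8 : ℝ)) := by ring
      _ = 3 * Cq * e ^ (-(9 * x1) + 1 / 8) := by rw [← Real.rpow_add he]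
      _ ≤ 3 * Cq * e ^ (4 * x1 + 2 * κ) :=
          mul_le_mul_of_nonneg_left (mono (by linarith)) (by positivity)
  have s3 : e ^ pf ≤ e ^ (4 * x1 + 2 * κ) := mono p1
  have s4 : e ^ (1 / 4 : ℝ) ≤ e ^ (4 * x1 + 2 * κ) := mono (by linarith)
  set W := 2 * (1 + b) ^ 2 * e ^ pf + 960 * √(8 * K ^ 2 * e ^ (1 / 4 : ℝ)) +
      16 * e ^ (1 / 4 : ℝ) with hW
  have hW0 : 0 ≤ W := by
    have := pe pf
    have := pe (1 / 4)
    positivity
  have s5 : W ≤ (2 * (1 + b) ^ 2 + 2880 * Cq + 16) * e ^ (4 * x1 + 2 * κ) := by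
    have h1 := mul_le_mul_of_nonneg_left s3 (show 0 ≤ 2 * (1 + b) ^ 2 by positivity)
    rw [hW]
    linarith
  have s6 : W * G ≤ 4 * (2 * (1 + b) ^ 2 + 2880 * Cq + 16) * e ^ (4 * x1) := by
    calc W * G ≤ ((2 * (1 + b) ^ 2 + 2880 * Cq + 16) * e ^ (4 * x1 + 2 * κ)) *
          (4 * e ^ (-(2 * κ))) := mul_le_mul s5 hG hG0.le (by
            have := pe (4 * x1 + 2 * κ)
            positivity)
      _ = 4 * (2 * (1 + b) ^ 2 + 2880 * Cq + 16) * (e ^ (4 * x1 + 2 * κ) * e ^ (-(2 * κ))) := by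
          ring
      _ = _ := by
          rw [← Real.rpow_add he]
          congr 2
          ring
  have s7 : (4 * R) ^ cf ≤ 4 ^ cf * e ^ (4 * x1) := by
    calc (4 * R) ^ cf ≤ (4 * e ^ (2 * κ)) ^ cf :=
          Real.rpow_le_rpow (by positivity) (by linarith) hcf.le
      _ = 4 ^ cf * e ^ (2 * κ * cf) := by
          rw [Real.mul_rpow (by norm_num) (pe _).le, ← Real.rpow_mul he.le]
      _ = _ := by
          congr 2
          rw [hκ]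
          field_simp
          ring
  have s8 : X' ^ 2 ≤ 4 * e ^ (-(2 * x1)) := by
    refine (pow_le_pow_left₀ hX0.le hX 2).trans (le_of_eq ?_)
    have h2 : (e ^ (-x1)) ^ 2 = e ^ (-(2 * x1)) := by
      rw [← Real.rpow_natCast, ← Real.rpow_mul he.le]
      congr 1
      push_cast
      ring
    rw [mul_pow, h2]
    norm_num
  have s9 : 128 * (W * G) + 4 / 3 * (C1 * (4 * R) ^ cf) ≤
      (512 * (2 * (1 + b) ^ 2 + 2880 * Cq + 16) + 4 / 3 * (C1 * 4 ^ cf)) * e ^ (4 * x1) := by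
    have h1 := mul_le_mul_of_nonneg_left s7 hC1.le
    linarith
  have s10 : 0 ≤ 128 * (W * G) + 4 / 3 * (C1 * (4 * R) ^ cf) := by positivity
  set D := 512 * (2 * (1 + b) ^ 2 + 2880 * Cq + 16) + 4 / 3 * (C1 * 4 ^ cf) with hD
  have hD0 : 0 ≤ D := by positivity
  calc 480 * X' ^ 2 * (128 * (W * G) + 4 / 3 * (C1 * (4 * R) ^ cf))
      ≤ 480 * (4 * e ^ (-(2 * x1))) * (D * e ^ (4 * x1)) := by gcongr
    _ = 1920 * D * (e ^ (-(2 * x1)) * e ^ (4 * x1)) := by ring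
    _ = 1920 * D * (e ^ x1 * e ^ x1) := by
        rw [← Real.rpow_add he, ← Real.rpow_add he]
        congr 2
        ring
    _ = (3840 * D * e ^ x1) * (e ^ x1 / 2) := by ring
    _ ≤ 1 * (e ^ x1 / 2) := mul_le_mul_of_nonneg_right hsm (by have := pe x1; positivity)
    _ = _ := one_mul _

/-- numbers of the part inside the cells: `S = 2 ^ (n - s)` -/
lemma num_fine {x1 C0 Cq b e X' K S L : ℝ} (hx1 : 0 < x1)
    (hCq : 0 < Cq) (hb : 0 < b) (he : 0 < e) (he1 : e ≤ 1)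
    (p1 : 13 * x1 ≤ C0) (hX0 : 0 < X') (hX : X' ≤ 2 * e ^ (-x1)) (hK0 : 0 < K)
    (hK : K ≤ Cq * e ^ (-(9 * x1))) (hS0 : 0 < S) (hS : S⁻¹ ≤ e ^ C0) (hL : 2 + L ≤ 2 * K * S)
    (hsm : 8847360 * b * (1 + b) * Cq * e ^ x1 ≤ 1) :
    552960 * b * (1 + b) * X' ^ 2 * (S⁻¹ ^ 2) * (2 + L) ≤ e ^ x1 / 2 := by
  have pe : ∀ p : ℝ, 0 < e ^ p := fun p => Real.rpow_pos_of_pos he p
  have mono : ∀ {p q : ℝ}, p ≤ q → e ^ q ≤ e ^ p := fun h =>
    Real.rpow_le_rpow_of_exponent_ge he he1 h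
  have s8 : X' ^ 2 ≤ 4 * e ^ (-(2 * x1)) := by
    refine (pow_le_pow_left₀ hX0.le hX 2).trans (le_of_eq ?_)
    have h2 : (e ^ (-x1)) ^ 2 = e ^ (-(2 * x1)) := by
      rw [← Real.rpow_natCast, ← Real.rpow_mul he.le]
      congr 1
      push_cast
      ring
    rw [mul_pow, h2]
    norm_num
  have k1 : S⁻¹ ^ 2 * (2 + L) ≤ 2 * K * S⁻¹ := by
    calc S⁻¹ ^ 2 * (2 + L) ≤ S⁻¹ ^ 2 * (2 * K * S) := mul_le_mul_of_nonneg_left hL (by positivity)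
      _ = _ := by field_simp
  have k2 : 2 * K * S⁻¹ ≤ 2 * (Cq * e ^ (-(9 * x1))) * e ^ C0 :=
    mul_le_mul (by linarith) hS (by positivity) (by have := pe (-(9 * x1)); positivity)
  have k3 : 2 * (Cq * e ^ (-(9 * x1))) * e ^ C0 ≤ 2 * Cq * e ^ (4 * x1) := by
    calc 2 * (Cq * e ^ (-(9 * x1))) * e ^ C0 = 2 * Cq * (e ^ (-(9 * x1)) * e ^ C0) := by ring
      _ = 2 * Cq * e ^ (-(9 * x1) + C0) := by rw [← Real.rpow_add he]
      _ ≤ _ := mul_le_mul_of_nonneg_left (mono (by linarith)) (by positivity)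
  have k4 := k1.trans (k2.trans k3)
  calc 552960 * b * (1 + b) * X' ^ 2 * (S⁻¹ ^ 2) * (2 + L) =
        552960 * b * (1 + b) * X' ^ 2 * (S⁻¹ ^ 2 * (2 + L)) := by ring
    _ ≤ 552960 * b * (1 + b) * X' ^ 2 * (2 * Cq * e ^ (4 * x1)) :=
        mul_le_mul_of_nonneg_left k4 (by positivity)
    _ ≤ 552960 * b * (1 + b) * (4 * e ^ (-(2 * x1))) * (2 * Cq * e ^ (4 * x1)) := by
        have := pe (4 * x1)
        gcongr
    _ = 4423680 * b * (1 + b) * Cq * (e ^ (-(2 * x1)) * e ^ (4 * x1)) := by ring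
    _ = 4423680 * b * (1 + b) * Cq * (e ^ x1 * e ^ x1) := by
        rw [← Real.rpow_add he, ← Real.rpow_add he]
        congr 2
        ring
    _ = (8847360 * b * (1 + b) * Cq * e ^ x1) * (e ^ x1 / 2) := by ring
    _ ≤ 1 * (e ^ x1 / 2) := mul_le_mul_of_nonneg_right hsm (by have := pe x1; positivity)
    _ = _ := one_mul _

end

end Vale.Agent.P159.H30
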