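import Vale.Agent.P159.H30.Apr8

/-!
P159, module AP AT EVERY REAL MASS (helper30), part 9: the family form `fam_apr` and, with 789's
`fam_apV`, the a priori bound at every real mass `T ∈ [t_n, 4 t_n]`, all tori, all finer cells.
-/

set_option linter.unusedSectionVars false

namespace Vale.Agent.P159.H30

open Finset Matrix MeasureTheory ProbabilityTheory
open Vale.Agent.P159.TM.H459 (sn sd)
open Vale.Agent.P159.H37
open Vale.Agent.P159.TM.Spec (V Rng)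
open Vale.Agent.P159.H864 (yt)
open Vale.Agent.P159.H972
open Vale.Agent.P159.H358 (APB)
open Vale.Agent.P159.H239 (Fam Sel)

noncomputable section

/-- sizes of a dyadic torus: everything `apb_num` needs, in numbers -/
theorem apb_dy {b : ℝ} (hb : 0 < b) : ∃ C1 cf : ℝ, 0 < C1 ∧ 0 < cf ∧
    ∀ (n r s m : ℕ) (T a η y c C X X' δ ε : ℝ), s + 3 ≤ m → m + 1 ≤ n → n + 2 ≤ r →
      tn n ≤ T → T ≤ 4 * tn n →
      FL b (tn n) a η (2 ^ r) → FL b (4 * tn n) a η (2 ^ r) → yt (2 ^ r) b (4 * tn n) ≤ y →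
      32 * (2 ^ (r - n)) ^ 2 * y ≤ 1 → 0 < c → 0 < C →
      (∑ w : V (2 ^ r), H37.Gt (2 ^ r) b T w * Real.exp (c * sn w / (2 ^ n : ℕ)) ≤
        C * ((2 ^ n : ℕ) : ℝ) ^ 2) →
      0 < X' → 0 ≤ δ → 0 < ε → AP b n r s X (tn n) δ → 24 * X' ≤ X →
      24 * C * Real.exp c * Zr c * X' ≤ X →
      1680 * Zr c * (24 * C * Real.exp c * Zr c * X') ^ 2 ≤ X ^ 2 →
      480 * X' ^ 2 * (128 * ((2 * (1 + b) ^ 2 * η + 960 * √(8 * (2 ^ (r - n)) ^ 2 * y) + 16 * y) *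
        4 ^ (n - m)) + 4 / 3 * (C1 * (4 * (4 ^ (n - m))⁻¹) ^ cf)) ≤ ε →
      552960 * b * (1 + b) * X' ^ 2 * (((2 ^ (n - s))⁻¹) ^ 2) *
        (2 + Real.log ((2 : ℝ) ^ (r - s))) ≤ ε →
      APB (2 ^ r) (2 ^ s) (2 ^ (n - s)) b X' T (δ + ε) := by
  obtain ⟨C1, cf, hC1, hcf, hN⟩ := apb_num hb
  refine ⟨C1, cf, hC1, hcf, ?_⟩
  intro n r s m T a η y c C X X' δ ε hsm hmn hnr hT1 hT2 F1 F4 hy hy1 hc hC hS hX' hδ hε hAP hA0
    hA1 hA2 hn1 hn2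
  have hlQ : 2 ^ s * 2 ^ (n - s) = 2 ^ n := by
    rw [← pow_add]
    congr 1
    omega
  have d1 : (2 : ℕ) ^ s ∣ 2 ^ r := pow_dvd_pow 2 (by omega)
  have d2 : (2 : ℕ) ^ s * 2 ^ (n - s) ∣ 2 ^ r := by
    rw [hlQ]
    exact pow_dvd_pow 2 (by omega)
  have d3 : 8 * (2 : ℕ) ^ s ∣ 2 ^ m := by
    have : 8 * (2 : ℕ) ^ s = 2 ^ (s + 3) := by ring
    rw [this]
    exact pow_dvd_pow 2 hsm
  have d4 : (2 : ℕ) ^ m ∣ 2 ^ r := pow_dvd_pow 2 (by omega)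
  have q1 : (2 : ℕ) ^ r / 2 ^ s = 2 ^ (r - s) := Nat.pow_div (by omega) two_pos
  have q2 : (2 : ℕ) ^ r / (2 ^ s * 2 ^ (n - s)) = 2 ^ (r - n) := by
    rw [hlQ]
    exact Nat.pow_div (by omega) two_pos
  have : NeZero (2 ^ r / 2 ^ s) := ⟨by rw [q1]; positivity⟩
  have : NeZero (2 ^ r / (2 ^ s * 2 ^ (n - s))) := ⟨by rw [q2]; positivity⟩
  have ht : 0 < tn n := H316.tn_pos' n
  have k4 : ∀ i : ℕ, (4 : ℝ) ^ i = ((2 : ℝ) ^ i) ^ 2 := fun i => by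
    rw [← pow_mul, mul_comm, pow_mul]
    norm_num
  have e1 : tn n * (((2 ^ s * 2 ^ (n - s) : ℕ)) : ℝ) ^ 2 = 1 := by
    rw [hlQ]
    unfold tn
    push_cast
    rw [← k4, inv_mul_cancel₀ (by positivity)]
  have e2 : tn n * (((2 ^ r : ℕ)) : ℝ) ^ 2 = (2 ^ (r - n)) ^ 2 := by
    unfold tn
    push_cast
    rw [← k4, ← k4, inv_mul_eq_div, div_eq_iff (by positivity), ← pow_add]
    congr 1
    omega
  have e3 : tn n * (((2 ^ m : ℕ)) : ℝ) ^ 2 = (4 ^ (n - m))⁻¹ := by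
    unfold tn
    push_cast
    rw [← k4, inv_mul_eq_div, div_eq_iff (by positivity), inv_mul_eq_div, eq_div_iff (by positivity),
      ← pow_add]
    congr 1
    omega
  have e4 : tn n * (((2 ^ s : ℕ)) : ℝ) ^ 2 = ((2 ^ (n - s))⁻¹) ^ 2 := by
    unfold tn
    push_cast
    rw [inv_pow, ← k4, ← k4, inv_mul_eq_div, div_eq_iff (by positivity), inv_mul_eq_div,
      eq_div_iff (by positivity), ← pow_add]
    congr 1
    omega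
  have g1 : (4 : ℝ) ≤ 2 ^ (r - n) := by
    calc (4 : ℝ) = 2 ^ 2 := by norm_num
      _ ≤ 2 ^ (r - n) := pow_le_pow_right₀ (by norm_num) (by omega)
  have g2 : (4 : ℝ) ≤ 4 ^ (n - m) := by
    calc (4 : ℝ) = 4 ^ 1 := by norm_num
      _ ≤ 4 ^ (n - m) := pow_le_pow_right₀ (by norm_num) (by omega)
  refine hN (2 ^ r) (2 ^ s) (2 ^ (n - s)) (2 ^ m) (tn n) T a η y c C X X' δ ε d1 d2 d3 d4 ht hT1 hT2
    e1 ?_ ?_ F1 F4 hy ?_ hc hC ?_ hX' hδ hε hAP hA0 hA1 hA2 ?_ ?_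
  · rw [e2]
    nlinarith
  · rw [mul_assoc, e3, ← div_eq_mul_inv, div_le_one (by positivity)]
    exact g2
  · rw [e2]
    exact hy1
  · intro x
    rw [hlQ]
    have e5 : ∑ y, Gm (wt (2 ^ r) b T) x y * Real.exp (c * sn (y - x) / (2 ^ n : ℕ)) =
        ∑ w : V (2 ^ r), H37.Gt (2 ^ r) b T w * Real.exp (c * sn w / (2 ^ n : ℕ)) := by
      rw [← Equiv.sum_comp (Equiv.subRight x) fun w : V (2 ^ r) =>
        H37.Gt (2 ^ r) b T w * Real.exp (c * sn w / (2 ^ n : ℕ))]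
      refine Finset.sum_congr rfl fun y _ => ?_
      rw [H864.Gm_wt]
      rfl
    rw [e5]
    exact hS
  · have f1 : (2 * (1 + b) ^ 2 * η + 960 * √(8 * (tn n * (((2 ^ r : ℕ)) : ℝ) ^ 2) * y) + 16 * y) /
        (tn n * (((2 ^ m : ℕ)) : ℝ) ^ 2) =
        (2 * (1 + b) ^ 2 * η + 960 * √(8 * (2 ^ (r - n)) ^ 2 * y) + 16 * y) * 4 ^ (n - m) := by
      rw [e2, e3, div_inv_eq_mul]
    rw [f1, show 4 * tn n * (((2 ^ m : ℕ)) : ℝ) ^ 2 = 4 * (tn n * (((2 ^ m : ℕ)) : ℝ) ^ 2) by ring,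
      e3]
    exact hn1
  · rw [e4, q1]
    push_cast
    exact hn2

/-! ### lemmas at one level -/

section lev

variable {b1 b2 pf W ys x1 thp th C0 : ℝ} {X0 Q : ℕ} {P : Par}

/-- the torus ratio -/
lemma kr_le (hP : Sel P b1 b2 pf W ys X0 x1 Q thp th C0) (hthp : (Q + 3) * thp ≤ x1)
    (hth : th ≤ x1) (ht1 : 0 < thp) {qm : ℕ} (hqm : (x1 + (Q + 3) * thp) / thp ≤ qm) {n r : ℕ}
    {e : ℝ} (he : 0 < e) (he1 : e ≤ 1) (hr : P.TT n e r) :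
    (2 : ℝ) ^ (r - n) ≤ 2 ^ (1 + 4 * qm) * e ^ (-(9 * x1)) := by
  have pe : ∀ p : ℝ, 0 < e ^ p := fun p => Real.rpow_pos_of_pos he p
  have t1 := H789.tt_pow hP he he1 hr
  have hq0 : P.q0 ≤ qm := by
    have h2 : (P.q0 : ℝ) ≤ (x1 + (Q + 3) * thp) / thp := by
      rw [le_div_iff₀ ht1, ← hP.hthp]
      have := hP.hq
      rw [← hP.hthp] at this
      exact this
    exact_mod_cast h2.trans hqm
  refine t1.trans (mul_le_mul (pow_le_pow_right₀ (by norm_num) (by omega))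
    (Real.rpow_le_rpow_of_exponent_ge he he1 (by linarith)) (pe _).le (by positivity))

/-- the tori are larger than `4 ξ` -/
lemma r_ge (hth0 : P.th = th) {n r : ℕ} {e : ℝ} (he : 0 < e) (h5 : 4 * e ^ th ≤ 1)
    (hr : P.TT n e r) : n + 2 ≤ r := by
  have h2 : 2 ≤ P.kE e := by
    by_contra hcon
    have h3 : P.kE e ≤ 1 := by omega
    have h4 : e ^ (-th) ≤ (2 : ℝ) ^ P.kE e := by
      have := lg_lo (c := th) he
      unfold Par.kE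
      rwa [hth0]
    have h5' : (2 : ℝ) ^ P.kE e ≤ 2 := by
      calc (2 : ℝ) ^ P.kE e ≤ 2 ^ 1 := pow_le_pow_right₀ (by norm_num) h3
        _ = 2 := by norm_num
    have h6 : 1 = e ^ (-th) * e ^ th := by
      rw [← Real.rpow_add he]
      simp
    have h7 : 0 < e ^ th := Real.rpow_pos_of_pos he th
    have h8 : e ^ (-th) * e ^ th ≤ 2 * e ^ th :=
      mul_le_mul_of_nonneg_right (h4.trans h5') h7.le
    linarith
  have := hr.1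
  omega

lemma log_ge {e : ℝ} (he : 0 < e) (he2 : e ≤ 1 / 2) : 1 ≤ Real.logb 2 (1 / e) := by
  rw [Real.le_logb_iff_rpow_le (by norm_num) (by positivity), Real.rpow_one, le_div_iff₀ he]
  linarith

lemma g_one {κ e : ℝ} (hκ : 0 < κ) (he : 0 < e) (he2 : e ≤ 1 / 2) : 1 ≤ lg κ e := by
  have := log_ge he he2
  unfold lg
  exact Nat.one_le_iff_ne_zero.2 (by
    rw [Ne, Nat.ceil_eq_zero, not_le]
    positivity)

lemma g_three {κ C0 e : ℝ} (hκ : 0 < κ) (c1 : κ + 4 ≤ C0) (he : 0 < e) (he2 : e ≤ 1 / 2) :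
    lg κ e + 3 ≤ lg C0 e := by
  have h1 := log_ge he he2
  have h2 : (lg κ e : ℝ) ≤ κ * Real.logb 2 (1 / e) + 1 := by
    exact (Nat.ceil_lt_add_one (by positivity)).le
  have h3 : C0 * Real.logb 2 (1 / e) ≤ lg C0 e := Nat.le_ceil _
  have h4 : (κ + 4) * Real.logb 2 (1 / e) ≤ C0 * Real.logb 2 (1 / e) :=
    mul_le_mul_of_nonneg_right c1 (by linarith)
  have h5 : (lg κ e : ℝ) + 3 ≤ lg C0 e := by nlinarith
  exact_mod_cast h5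

lemma four_pow (g : ℕ) : (4 : ℝ) ^ g = (2 ^ g) ^ 2 := by
  rw [← pow_mul, mul_comm, pow_mul]
  norm_num

lemma sq_rpow {κ e : ℝ} (he : 0 < e) : (e ^ (-κ)) ^ 2 = e ^ (-(2 * κ)) := by
  rw [← Real.rpow_natCast, ← Real.rpow_mul he.le]
  congr 1
  push_cast
  ring

lemma g_hi {κ e : ℝ} (hκ : 0 ≤ κ) (he : 0 < e) (he1 : e ≤ 1) :
    (4 : ℝ) ^ lg κ e ≤ 4 * e ^ (-(2 * κ)) := by
  have h2 : (2 : ℝ) ^ lg κ e ≤ 2 * e ^ (-κ) := lg_hi hκ he he1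
  rw [four_pow]
  refine (pow_le_pow_left₀ (by positivity) h2 2).trans (le_of_eq ?_)
  rw [mul_pow, sq_rpow he]
  norm_num

lemma g_lo {κ e : ℝ} (he : 0 < e) : ((4 : ℝ) ^ lg κ e)⁻¹ ≤ e ^ (2 * κ) := by
  have pe : ∀ p : ℝ, 0 < e ^ p := fun p => Real.rpow_pos_of_pos he p
  have h2 : e ^ (-κ) ≤ (2 : ℝ) ^ lg κ e := lg_lo he
  have h4 : e ^ (-(2 * κ)) ≤ (4 : ℝ) ^ lg κ e := by
    rw [four_pow, ← sq_rpow he]
    exact pow_le_pow_left₀ (pe _).le h2 2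
  rw [inv_le_comm₀ (by positivity) (pe _), ← Real.rpow_neg he.le]
  exact h4

lemma s_lo {C0 e : ℝ} (he : 0 < e) {D : ℕ} (hD : lg C0 e ≤ D) : ((2 : ℝ) ^ D)⁻¹ ≤ e ^ C0 := by
  have pe : ∀ p : ℝ, 0 < e ^ p := fun p => Real.rpow_pos_of_pos he p
  have h2 : e ^ (-C0) ≤ (2 : ℝ) ^ lg C0 e := lg_lo he
  have h3 : (2 : ℝ) ^ lg C0 e ≤ 2 ^ D := pow_le_pow_right₀ (by norm_num) hD
  rw [inv_le_comm₀ (by positivity) (pe _), ← Real.rpow_neg he.le]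
  exact h2.trans h3

lemma log_dy {n r s : ℕ} (h1 : s ≤ n) (h2 : n ≤ r) :
    2 + Real.log ((2 : ℝ) ^ (r - s)) ≤ 2 * 2 ^ (r - n) * 2 ^ (n - s) := by
  have h2 : Real.log ((2 : ℝ) ^ (r - s)) ≤ ((r - n : ℕ) : ℝ) + ((n - s : ℕ) : ℝ) := by
    rw [Real.log_pow]
    have h3 : ((r - s : ℕ) : ℝ) = ((r - n : ℕ) : ℝ) + ((n - s : ℕ) : ℝ) := by
      have : r - s = (r - n) + (n - s) := by omega
      rw [this]
      push_cast
      ring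
    rw [← h3]
    have h4 : Real.log 2 ≤ 1 := by
      have := Real.log_two_lt_d9
      linarith
    exact mul_le_of_le_one_right (Nat.cast_nonneg _) h4
  have h3 : ∀ i : ℕ, (i : ℝ) + 1 ≤ 2 ^ i := fun i => by
    exact_mod_cast Nat.lt_two_pow_self
  have h4 := h3 (r - n)
  have h5 := h3 (n - s)
  have h6 : (1 : ℝ) ≤ 2 ^ (r - n) := one_le_pow₀ (by norm_num)
  have h7 : (1 : ℝ) ≤ 2 ^ (n - s) := one_le_pow₀ (by norm_num)
  nlinarith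

lemma yt_gp {b a : ℝ} {n r : ℕ} {e τ : ℝ} (hn : 1 ≤ n) (hG : GP P b a n e τ) (hr : P.TT n e r) :
    yt (2 ^ r) b (4 * tn n) ≤ e ^ (1 / 4 : ℝ) := by
  have h2 := H316.yt_of_rng (hG.rng r (Or.inl hr)).2
  have h3 : tn (n - 1) = 4 * tn n := by
    obtain ⟨k, rfl⟩ : ∃ k, n = k + 1 := ⟨n - 1, by omega⟩
    unfold tn
    rw [Nat.add_sub_cancel, pow_succ]
    field_simp
  rwa [h3] at h2

lemma ny_le {Cq e c : ℝ} {n r : ℕ} (hnr : n ≤ r) (he : 0 < e) (he1 : e ≤ 1) (hx : 13 * x1 ≤ 1 / 8)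
    (hx0 : 0 < x1) (hCq : 0 < Cq) (hKr : (2 : ℝ) ^ (r - n) ≤ Cq * e ^ (-(9 * x1)))
    (G4 : Cq * e ^ (1 / 8 : ℝ) ≤ c) :
    (((2 ^ r : ℕ)) : ℝ) * e ^ (1 / 4 : ℝ) ≤ c * ((2 ^ n : ℕ) : ℝ) := by
  have pe : ∀ p : ℝ, 0 < e ^ p := fun p => Real.rpow_pos_of_pos he p
  have h2 : (((2 ^ r : ℕ)) : ℝ) = 2 ^ (r - n) * ((2 ^ n : ℕ) : ℝ) := by
    push_cast
    rw [← pow_add]
    congr 1
    omega
  rw [h2]
  have h3 : (2 : ℝ) ^ (r - n) * e ^ (1 / 4 : ℝ) ≤ c := by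
    calc (2 : ℝ) ^ (r - n) * e ^ (1 / 4 : ℝ) ≤ Cq * e ^ (-(9 * x1)) * e ^ (1 / 4 : ℝ) :=
          mul_le_mul_of_nonneg_right hKr (pe _).le
      _ = Cq * e ^ (-(9 * x1) + 1 / 4) := by rw [mul_assoc, ← Real.rpow_add he]
      _ ≤ Cq * e ^ (1 / 8 : ℝ) := mul_le_mul_of_nonneg_left
          (Real.rpow_le_rpow_of_exponent_ge he he1 (by linarith)) hCq.le
      _ ≤ c := G4
  calc 2 ^ (r - n) * ((2 ^ n : ℕ) : ℝ) * e ^ (1 / 4 : ℝ) =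
        (2 ^ (r - n) * e ^ (1 / 4 : ℝ)) * ((2 ^ n : ℕ) : ℝ) := by ring
    _ ≤ _ := mul_le_mul_of_nonneg_right h3 (by positivity)

lemma osc_sm {Cq e : ℝ} {n r : ℕ} (he : 0 < e) (he1 : e ≤ 1) (hKr : (2 : ℝ) ^ (r - n) ≤ Cq * e ^ (-(9 * x1)))
    (hKx : 18 * x1 ≤ 1 / 8) (G3 : 32 * Cq ^ 2 * e ^ (1 / 8 : ℝ) ≤ 1) :
    32 * ((2 : ℝ) ^ (r - n)) ^ 2 * e ^ (1 / 4 : ℝ) ≤ 1 := by
  have pe : ∀ p : ℝ, 0 < e ^ p := fun p => Real.rpow_pos_of_pos he p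
  have h1 : ((2 : ℝ) ^ (r - n)) ^ 2 ≤ (Cq * e ^ (-(9 * x1))) ^ 2 :=
    pow_le_pow_left₀ (by positivity) hKr 2
  calc 32 * ((2 : ℝ) ^ (r - n)) ^ 2 * e ^ (1 / 4 : ℝ) ≤
        32 * (Cq * e ^ (-(9 * x1))) ^ 2 * e ^ (1 / 4 : ℝ) :=
        mul_le_mul_of_nonneg_right (by linarith) (pe _).le
    _ = 32 * Cq ^ 2 * ((e ^ (-(9 * x1))) ^ 2 * e ^ (1 / 4 : ℝ)) := by ring
    _ = 32 * Cq ^ 2 * e ^ (-(2 * (9 * x1)) + 1 / 4) := by
        rw [sq_rpow he, ← Real.rpow_add he]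
    _ ≤ 32 * Cq ^ 2 * e ^ (1 / 8 : ℝ) := mul_le_mul_of_nonneg_left
        (Real.rpow_le_rpow_of_exponent_ge he he1 (by linarith)) (by positivity)
    _ ≤ 1 := G3

lemma amp_two {D Z X X' : ℝ} (hZ1 : 1 ≤ Z) (hD0 : 0 < D) (hX' : 0 < X')
    (hCX : max 24 (D * √(1680 * Z)) * X' ≤ X) :
    24 * X' ≤ X ∧ D * X' ≤ X ∧ 1680 * Z * (D * X') ^ 2 ≤ X ^ 2 := by
  have hq1 : 1 ≤ √(1680 * Z) := by
    rw [show (1 : ℝ) = √1 by simp]
    exact Real.sqrt_le_sqrt (by linarith)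
  have a0 : 24 * X' ≤ X := (mul_le_mul_of_nonneg_right (le_max_left _ _) hX'.le).trans hCX
  have a1 : D * √(1680 * Z) * X' ≤ X :=
    (mul_le_mul_of_nonneg_right (le_max_right _ _) hX'.le).trans hCX
  refine ⟨a0, ?_, ?_⟩
  · refine le_trans ?_ a1
    have h2 : D * 1 ≤ D * √(1680 * Z) := mul_le_mul_of_nonneg_left hq1 hD0.le
    have h3 := mul_le_mul_of_nonneg_right h2 hX'.le
    linarith
  · have h2 := pow_le_pow_left₀ (by positivity) a1 2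
    have h3 : (D * √(1680 * Z) * X') ^ 2 = 1680 * Z * (D * X') ^ 2 := by
      have h4 : √(1680 * Z) ^ 2 = 1680 * Z := Real.sq_sqrt (by positivity)
      calc (D * √(1680 * Z) * X') ^ 2 = √(1680 * Z) ^ 2 * (D * X') ^ 2 := by ring
        _ = _ := by rw [h4]
    rwa [h3] at h2

end lev

/-- **AP AT EVERY REAL MASS, family form**: from any a priori bound of the state at the natural
mass -/
theorem fam_apr {b1 b2 pf : ℝ} (hb1 : 0 < b1) (hpf : 0 < pf) : ∃ CX : ℝ, 24 ≤ CX ∧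
    ∀ b, b1 ≤ b → Fam b1 b2 pf fun P _ =>
    ∀ (a : ℝ) (n : ℕ) (e τ : ℝ), 0 < e → e ≤ P.es → 1 ≤ n → GP P b a n e τ → ∀ r, P.TT n e r →
    ∀ s, s ≤ P.sE n e → ∀ X X' δ : ℝ, 0 < X' → X' ≤ 2 ^ P.xE e → CX * X' ≤ X → 0 ≤ δ →
    AP b n r s X (tn n) δ → ∀ T, tn n ≤ T → T ≤ 4 * tn n →
    APB (2 ^ r) (2 ^ s) (2 ^ (n - s)) b X' T (δ + e ^ P.x1 / 2) := by
  obtain ⟨W₀, c, C, ys₀, Xm, hc, hC, hys₀, hXm, hA⟩ := H612.thmAexp_t hb1 b2 (5 / 2)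
  have hZ1 : 1 ≤ Zr c := Zr_ge hc
  have hD0 : 0 < 24 * C * Real.exp c * Zr c := by positivity
  refine ⟨max 24 (24 * C * Real.exp c * Zr c * √(1680 * Zr c)), le_max_left _ _, fun b h1 => ?_⟩
  have hb : 0 < b := hb1.trans_le h1
  obtain ⟨C1, cf, hC1, hcf, hdy⟩ := apb_dy hb
  refine ⟨W₀, fun W hW => ⟨ys₀, hys₀, fun ys hy1 hy2 => ⟨Xm, fun X0 hX0 => ?_⟩⟩⟩
  -- `x1` small
  refine ⟨min (pf / (4 + 4 / cf)) (1 / (8 * (18 + 4 / cf))), by positivity, fun x1 hx1 hx1' => ?_⟩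
  have hp1 : (4 + 4 / cf) * x1 ≤ pf := by
    have := hx1'.trans (min_le_left _ _)
    rwa [le_div_iff₀ (by positivity), mul_comm] at this
  have hp2 : (18 + 4 / cf) * x1 ≤ 1 / 8 := by
    have := hx1'.trans (min_le_right _ _)
    rw [le_div_iff₀ (by positivity)] at this
    linarith
  obtain ⟨κ, hκ⟩ : ∃ κ : ℝ, κ = 2 * x1 / cf := ⟨_, rfl⟩
  have hκ0 : 0 < κ := by rw [hκ]; positivity
  have hκ2 : 4 / cf * x1 = 2 * κ := by
    rw [hκ]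
    ring
  have p1 : 4 * x1 + 2 * κ ≤ pf := by linarith
  have p2 : 18 * x1 + 2 * κ ≤ 1 / 8 := by linarith
  refine ⟨0, fun Q _ => ⟨x1 / (Q + 3), by positivity, fun thp ht1 ht2 =>
    ⟨x1, hx1, fun th ht3 ht4 => ⟨max (κ + 4) (13 * x1), fun C0 hC0 hC0' => ?_⟩⟩⟩⟩
  have hthp : (Q + 3) * thp ≤ x1 := by
    rw [le_div_iff₀ (by positivity), mul_comm] at ht2
    exact ht2
  have c1 : κ + 4 ≤ C0 := (le_max_left _ _).trans hC0'
  have c2 : 13 * x1 ≤ C0 := (le_max_right _ _).trans hC0'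
  obtain ⟨qm, hqm⟩ : ∃ qm : ℕ, (x1 + (Q + 3) * thp) / thp ≤ qm := ⟨_, Nat.le_ceil _⟩
  obtain ⟨Cq, hCq⟩ : ∃ Cq : ℝ, Cq = 2 ^ (1 + 4 * qm) := ⟨_, rfl⟩
  have hCq0 : 0 < Cq := by rw [hCq]; positivity
  obtain ⟨E1, hE1, g1⟩ := small_rpow (s := x1)
    (A := 3840 * (512 * (2 * (1 + b) ^ 2 + 2880 * Cq + 16) + 4 / 3 * (C1 * 4 ^ cf))) hx1 one_pos
  obtain ⟨E2, hE2, g2⟩ := small_rpow (s := x1) (A := 8847360 * b * (1 + b) * Cq) hx1 one_pos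
  obtain ⟨E3, hE3, g3⟩ := small_rpow (s := 1 / 8) (A := 32 * Cq ^ 2) (by norm_num) one_pos
  obtain ⟨E4, hE4, g4⟩ := small_rpow (s := 1 / 8) (A := Cq) (by norm_num) hc
  obtain ⟨E5, hE5, g5⟩ := small_rpow (s := th) (A := 4) ht3 one_pos
  refine ⟨min (1 / 2) (min E1 (min E2 (min E3 (min E4 E5)))), by positivity, fun P hP hes =>
    ⟨0, fun N0 _ => ?_⟩⟩
  simp only [le_min_iff] at hes
  obtain ⟨hes0, hes1, hes2, hes3, hes4, hes5⟩ := hes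
  intro a n e τ he hee hn hG r hr s hs X X' δ hX' hXx hCX hδ hAP T hT1 hT2
  have he2 : e ≤ 1 / 2 := hee.trans hes0
  have he1 : e ≤ 1 := by linarith
  have hKr := kr_le hP hthp ht4 ht1 hqm he he1 hr
  rw [← hCq] at hKr
  have hr2 := r_ge hP.hth he (g5 e he (hee.trans hes5)) hr
  have hg1 := g_one hκ0 he he2
  have hgC := g_three hκ0 c1 he he2
  have hsE : P.sE n e = n - lg C0 e := by
    unfold Par.sE
    rw [hP.hC0]
  have hnE : 4 * lg C0 e ≤ n := by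
    have := hG.nE
    rwa [hP.hC0] at this
  rw [hsE] at hs
  have hgn : n - (n - lg κ e) = lg κ e := by omega
  have hXx' : X' ≤ 2 * e ^ (-x1) := by
    refine hXx.trans ?_
    unfold Par.xE
    rw [hP.hx1]
    exact lg_hi hx1.le he he1
  have hRng : Rng b1 b2 (5 / 2) W ys₀ Xm (2 ^ r) b (2 ^ n) (e ^ (1 / 4 : ℝ)) := by
    have h2 : Rng P.b1 P.b2 (5 / 2) P.W P.ys P.X0 (2 ^ r) b (2 ^ n) (e ^ (1 / 4 : ℝ)) :=
      (hG.rng r (Or.inl hr)).1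
    rw [hP.hb1, hP.hb2, hP.hW, hP.hys, hP.hX0] at h2
    exact TM.H857.rng_mono h2 le_rfl hy2 hX0
  have hS := hA W hW (2 ^ r) b (2 ^ n) (e ^ (1 / 4 : ℝ)) hRng
    (ny_le (by omega) he he1 (by linarith) hx1 hCq0 hKr (g4 e he (hee.trans hes4))) T (by
    rw [← H316.tn_inv]
    exact hT1)
  obtain ⟨a0, a2, a3⟩ := amp_two hZ1 hD0 hX' hCX
  rw [hP.hx1]
  refine hdy n r s (n - lg κ e) T a (e ^ pf) (e ^ (1 / 4 : ℝ)) c C X X' δ (e ^ x1 / 2) (by omega)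
    (by omega) hr2 hT1 hT2 ?_ ?_ (yt_gp hn hG hr)
    (osc_sm he he1 hKr (by linarith) (g3 e he (hee.trans hes3)))
    hc hC hS hX' hδ (by positivity) hAP a0 a2 a3 ?_ ?_
  · have := (hG.flat r hr).1
    rwa [hP.hpf] at this
  · have := (hG.flat r hr).2
    rwa [hP.hpf] at this
  · rw [hgn]
    exact num_def hx1 hcf hC1 hCq0 hb he he1 hκ p1 (by linarith) hX' hXx' (by positivity) hKr
      (by positivity) (g_hi hκ0.le he he1) (by positivity) (g_lo he) (g1 e he (hee.trans hes1))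
  · exact num_fine hx1 hCq0 hb he he1 c2 hX' hXx' (by positivity) hKr (by positivity)
      (s_lo he (by omega)) (log_dy (by omega) (by omega)) (g2 e he (hee.trans hes2))

end

end Vale.Agent.P159.H30
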