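import Vale.Agent.P159.H30.Main
import Mathlib.Analysis.Fourier.AddCircle

/-!
SANDWICH, part 7 (helper30): trigonometric polynomials; every function constant on the cells of the
torus is, up to a small error, `(t - Δ/Y) W` with `W` the restriction of a periodic `C²` function.
-/

open MeasureTheory Filter Topology

namespace Vale.Agent.P159.H30

open Vale.Agent.P159 Vale.Agent.P159.H353 Vale.Agent.P159.R2.H254

/-! ### one dimension -/

/-- the exponential -/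
noncomputable def ex (k : ℤ) (x : ℝ) : ℂ := Complex.exp (2 * Real.pi * Complex.I * k * x)

/-- trigonometric polynomials -/
noncomputable def S1 : Submodule ℂ (ℝ → ℂ) := Submodule.span ℂ (Set.range ex)

lemma trig1 {f : ℝ → ℝ} (hf : Continuous f) (h0 : f 0 = f 1) {ε : ℝ} (hε : 0 < ε) :
    ∃ P ∈ S1, ∀ x ∈ Set.Ico (0 : ℝ) 1, ‖P x - f x‖ ≤ ε := by
  have : Fact (0 < (1 : ℝ)) := ⟨one_pos⟩
  let g : C(AddCircle (1 : ℝ), ℂ) := ⟨AddCircle.liftIco 1 0 (fun x => (f x : ℂ)),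
    AddCircle.liftIco_continuous (by simp [h0])
      (Complex.continuous_ofReal.comp hf).continuousOn⟩
  have h1 : g ∈ (Submodule.span ℂ (Set.range (@fourier 1))).topologicalClosure := by
    rw [span_fourier_closure_eq_top]
    trivial
  rw [← SetLike.mem_coe, Submodule.topologicalClosure_coe, Metric.mem_closure_iff] at h1
  obtain ⟨Q, hQ, hd⟩ := h1 ε hε
  let L : C(AddCircle (1 : ℝ), ℂ) →ₗ[ℂ] (ℝ → ℂ) :=
    { toFun := fun Q x => Q (x : AddCircle (1 : ℝ))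
      map_add' := fun _ _ => rfl
      map_smul' := fun _ _ => rfl }
  refine ⟨L Q, ?_, ?_⟩
  · have h2 : L Q ∈ (Submodule.span ℂ (Set.range (@fourier 1))).map L := ⟨Q, hQ, rfl⟩
    rw [Submodule.map_span] at h2
    refine Submodule.span_mono ?_ h2
    rintro _ ⟨_, ⟨k, rfl⟩, rfl⟩
    refine ⟨k, ?_⟩
    funext x
    show ex k x = fourier k (x : AddCircle (1 : ℝ))
    rw [fourier_coe_apply]
    unfold ex
    rw [Complex.ofReal_one, div_one]
  · intro x hx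
    have h3 : g (x : AddCircle (1 : ℝ)) = (f x : ℂ) := by
      show AddCircle.liftIco 1 0 (fun x => (f x : ℂ)) (x : AddCircle (1 : ℝ)) = _
      rw [AddCircle.liftIco_coe_apply]
      rw [zero_add]
      exact hx
    have h4 := (ContinuousMap.dist_apply_le_dist (f := g) (g := Q) (x : AddCircle (1 : ℝ))).trans hd.le
    rw [h3, dist_comm, dist_eq_norm] at h4
    exact h4

/-! ### approximate solutions -/

/-- `(κ² - Δ_N / Y) w` on the lattice of mesh `1 / (N + 1)` -/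
noncomputable def PN (κ Y : ℝ) (w : ℝ → ℝ → ℂ) (N : ℕ) (x y : ℝ) : ℂ :=
  (κ : ℂ) ^ 2 * w x y + ((N : ℂ) + 1) ^ 2 * (Y : ℂ)⁻¹ * (4 * w x y - w (x + ((N : ℝ) + 1)⁻¹) y -
    w (x - ((N : ℝ) + 1)⁻¹) y - w x (y + ((N : ℝ) + 1)⁻¹) - w x (y - ((N : ℝ) + 1)⁻¹))

/-- `P` is the limit of `(κ² - Δ_N / Y) w` for a periodic `C²` function `w` -/
def Sol (κ Y : ℝ) (P : ℝ → ℝ → ℂ) : Prop := ∃ w : ℝ → ℝ → ℂ,
  (ContDiff ℝ 2 fun p : ℝ × ℝ => w p.1 p.2) ∧ (∀ x y, w (x + 1) y = w x y) ∧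
  (∀ x y, w x (y + 1) = w x y) ∧ ∀ ε > 0, ∀ᶠ N : ℕ in atTop, ∀ x y : ℝ,
    ‖PN κ Y w N x y - P x y‖ ≤ ε

lemma Sol.add {κ Y : ℝ} {P Q : ℝ → ℝ → ℂ} (hP : Sol κ Y P) (hQ : Sol κ Y Q) :
    Sol κ Y fun x y => P x y + Q x y := by
  obtain ⟨w, c, p1, p2, l⟩ := hP
  obtain ⟨w', c', p1', p2', l'⟩ := hQ
  refine ⟨fun x y => w x y + w' x y, c.add c', fun x y => by beta_reduce; rw [p1, p1'],
    fun x y => by beta_reduce; rw [p2, p2'], fun ε hε => ?_⟩
  filter_upwards [l (ε / 2) (half_pos hε), l' (ε / 2) (half_pos hε)] with N h h' x y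
  have e : PN κ Y (fun x y => w x y + w' x y) N x y - (P x y + Q x y) =
      (PN κ Y w N x y - P x y) + (PN κ Y w' N x y - Q x y) := by
    unfold PN
    ring
  rw [e]
  exact (norm_add_le _ _).trans (by linarith [h x y, h' x y])

lemma Sol.smul {κ Y : ℝ} {P : ℝ → ℝ → ℂ} (hP : Sol κ Y P) (a : ℂ) :
    Sol κ Y fun x y => a * P x y := by
  obtain ⟨w, c, p1, p2, l⟩ := hP
  refine ⟨fun x y => a * w x y, contDiff_const.mul c, fun x y => by beta_reduce; rw [p1],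
    fun x y => by beta_reduce; rw [p2], fun ε hε => ?_⟩
  have ha : 0 < ‖a‖ + 1 := by positivity
  filter_upwards [l (ε / (‖a‖ + 1)) (div_pos hε ha)] with N h x y
  have e : PN κ Y (fun x y => a * w x y) N x y - a * P x y =
      a * (PN κ Y w N x y - P x y) := by
    unfold PN
    ring
  rw [e, norm_mul]
  calc ‖a‖ * ‖PN κ Y w N x y - P x y‖ ≤ (‖a‖ + 1) * (ε / (‖a‖ + 1)) :=
        mul_le_mul (by linarith) (h x y) (norm_nonneg _) ha.le
    _ = ε := by field_simp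

lemma norm_ex (k : ℤ) (x : ℝ) : ‖ex k x‖ = 1 := by
  unfold ex
  have : (2 * Real.pi * Complex.I * k * x : ℂ) = ((2 * Real.pi * k * x : ℝ) : ℂ) * Complex.I := by
    push_cast
    ring
  rw [this, Complex.norm_exp_ofReal_mul_I]

lemma ex_shift (k : ℤ) (x h : ℝ) :
    ex k (x + h) + ex k (x - h) = (2 * Real.cos (2 * Real.pi * k * h) : ℝ) * ex k x := by
  unfold ex
  have e1 : (2 * Real.pi * Complex.I * k * ((x + h : ℝ) : ℂ) : ℂ) =
      2 * Real.pi * Complex.I * k * x + ((2 * Real.pi * k * h : ℝ) : ℂ) * Complex.I := by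
    push_cast
    ring
  have e2 : (2 * Real.pi * Complex.I * k * ((x - h : ℝ) : ℂ) : ℂ) =
      2 * Real.pi * Complex.I * k * x + -(((2 * Real.pi * k * h : ℝ) : ℂ)) * Complex.I := by
    push_cast
    ring
  have e3 : ((2 * Real.cos (2 * Real.pi * k * h) : ℝ) : ℂ) =
      2 * Complex.cos ((2 * Real.pi * k * h : ℝ) : ℂ) := by
    rw [Complex.ofReal_mul, Complex.ofReal_cos, Complex.ofReal_ofNat]
  rw [e1, e2, Complex.exp_add, Complex.exp_add, e3, Complex.cos]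
  ring

lemma ex_one (k : ℤ) (x : ℝ) : ex k (x + 1) = ex k x := by
  unfold ex
  have e1 : (2 * Real.pi * Complex.I * k * ((x + 1 : ℝ) : ℂ) : ℂ) =
      2 * Real.pi * Complex.I * k * x + k * (2 * Real.pi * Complex.I) := by
    push_cast
    ring
  rw [e1, Complex.exp_periodic.int_mul k]

lemma cont_ex (k : ℤ) : ContDiff ℝ 2 (ex k) := by
  unfold ex
  exact (Complex.contDiff_exp).comp (contDiff_const.mul Complex.ofRealCLM.contDiff)

lemma sol_ex {κ Y : ℝ} (hκ : 0 < κ) (hY : 0 < Y) (m n : ℤ) :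
    Sol κ Y fun x y => ex m x * ex n y := by
  set M : ℝ := (2 * Real.pi * m) ^ 2 + (2 * Real.pi * n) ^ 2 with hM
  have hM0 : 0 ≤ M := by positivity
  set D : ℝ := κ ^ 2 + Y⁻¹ * M with hD
  have hD0 : 0 < D := by positivity
  refine ⟨fun x y => (D⁻¹ : ℝ) * (ex m x * ex n y), ?_, fun x y => by beta_reduce; rw [ex_one],
    fun x y => by beta_reduce; rw [ex_one], fun ε hε => ?_⟩
  · refine contDiff_const.mul (ContDiff.mul ?_ ?_)
    · exact (cont_ex m).comp contDiff_fst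
    · exact (cont_ex n).comp contDiff_snd
  have h1 := ((cos_lim (2 * Real.pi * m)).add (cos_lim (2 * Real.pi * n))).comp
    (tendsto_add_atTop_nat 1)
  rw [← hM] at h1
  have h2 : Tendsto (fun N : ℕ => D⁻¹ * Y⁻¹ * |(((N + 1 : ℕ) : ℝ) ^ 2 *
      (2 * (1 - Real.cos (2 * Real.pi * m / ((N + 1 : ℕ) : ℝ)))) +
      ((N + 1 : ℕ) : ℝ) ^ 2 * (2 * (1 - Real.cos (2 * Real.pi * n / ((N + 1 : ℕ) : ℝ))))) - M|)
      atTop (𝓝 0) := by
    have h3 := ((h1.sub_const M).abs).const_mul (D⁻¹ * Y⁻¹)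
    rw [sub_self, abs_zero, mul_zero] at h3
    exact h3
  filter_upwards [h2.eventually (ge_mem_nhds hε)] with N hN x y
  have e : PN κ Y (fun x y => (D⁻¹ : ℝ) * (ex m x * ex n y)) N x y - ex m x * ex n y =
      ((D⁻¹ * Y⁻¹ * ((((N + 1 : ℕ) : ℝ) ^ 2 *
      (2 * (1 - Real.cos (2 * Real.pi * m / ((N + 1 : ℕ) : ℝ)))) +
      ((N + 1 : ℕ) : ℝ) ^ 2 * (2 * (1 - Real.cos (2 * Real.pi * n / ((N + 1 : ℕ) : ℝ))))) - M) : ℝ) :
        ℂ) * (ex m x * ex n y) := by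
    have s1 := ex_shift m x (((N : ℝ) + 1)⁻¹)
    have s2 := ex_shift n y (((N : ℝ) + 1)⁻¹)
    have r1 : 2 * Real.pi * m * ((N : ℝ) + 1)⁻¹ = 2 * Real.pi * m / ((N + 1 : ℕ) : ℝ) := by
      push_cast
      rw [div_eq_mul_inv]
    have r2 : 2 * Real.pi * n * ((N : ℝ) + 1)⁻¹ = 2 * Real.pi * n / ((N + 1 : ℕ) : ℝ) := by
      push_cast
      rw [div_eq_mul_inv]
    rw [r1] at s1
    rw [r2] at s2
    set C1 := Real.cos (2 * Real.pi * m / ((N + 1 : ℕ) : ℝ))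
    set C2 := Real.cos (2 * Real.pi * n / ((N + 1 : ℕ) : ℝ))
    have hDc : (D : ℂ) ≠ 0 := by exact_mod_cast hD0.ne'
    have hD1 : (D⁻¹ : ℂ) * ((κ : ℂ) ^ 2 + (Y : ℂ)⁻¹ * M) = 1 := by
      have : ((κ : ℂ) ^ 2 + (Y : ℂ)⁻¹ * M) = D := by
        rw [hD]
        push_cast
        ring
      rw [this, inv_mul_cancel₀ hDc]
    unfold PN
    have t1 : 4 * (((D⁻¹ : ℝ) : ℂ) * (ex m x * ex n y)) -
        ((D⁻¹ : ℝ) : ℂ) * (ex m (x + ((N : ℝ) + 1)⁻¹) * ex n y) -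
        ((D⁻¹ : ℝ) : ℂ) * (ex m (x - ((N : ℝ) + 1)⁻¹) * ex n y) -
        ((D⁻¹ : ℝ) : ℂ) * (ex m x * ex n (y + ((N : ℝ) + 1)⁻¹)) -
        ((D⁻¹ : ℝ) : ℂ) * (ex m x * ex n (y - ((N : ℝ) + 1)⁻¹)) =
        ((D⁻¹ : ℝ) : ℂ) * (4 * (ex m x * ex n y) -
          (ex m (x + ((N : ℝ) + 1)⁻¹) + ex m (x - ((N : ℝ) + 1)⁻¹)) * ex n y -
          (ex n (y + ((N : ℝ) + 1)⁻¹) + ex n (y - ((N : ℝ) + 1)⁻¹)) * ex m x) := by ring
    rw [t1, s1, s2]
    push_cast
    linear_combination (ex m x * ex n y) * hD1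
  rw [e, norm_mul, norm_mul, norm_ex, norm_ex, mul_one, mul_one, Complex.norm_real,
    Real.norm_eq_abs, abs_mul, abs_of_pos (mul_pos (inv_pos.2 hD0) (inv_pos.2 hY))]
  exact hN

lemma sol_mul {κ Y : ℝ} (hκ : 0 < κ) (hY : 0 < Y) {P Q : ℝ → ℂ} (hP : P ∈ S1) (hQ : Q ∈ S1) :
    Sol κ Y fun x y => P x * Q y := by
  have h0 : Sol κ Y fun _ _ => (0 : ℂ) := by
    have := (sol_ex hκ hY 0 0).smul 0
    simpa using this
  have h1 : ∀ m : ℤ, ∀ Q ∈ S1, Sol κ Y fun x y => ex m x * Q y := by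
    intro m Q hQ
    refine Submodule.span_induction (p := fun Q _ => Sol κ Y fun x y => ex m x * Q y)
      ?_ ?_ ?_ ?_ hQ
    · rintro _ ⟨n, rfl⟩
      exact sol_ex hκ hY m n
    · simpa using h0
    · intro Q1 Q2 _ _ g1 g2
      have := g1.add g2
      refine (congrArg (Sol κ Y) ?_).mp this
      funext x y
      simp only [Pi.add_apply]
      ring
    · intro a Q1 _ g1
      have := g1.smul a
      refine (congrArg (Sol κ Y) ?_).mp this
      funext x y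
      simp only [Pi.smul_apply, smul_eq_mul]
      ring
  refine Submodule.span_induction (p := fun P _ => Sol κ Y fun x y => P x * Q y)
    ?_ ?_ ?_ ?_ hP
  · rintro _ ⟨m, rfl⟩
    exact h1 m Q hQ
  · simpa using h0
  · intro P1 P2 _ _ g1 g2
    have := g1.add g2
    refine (congrArg (Sol κ Y) ?_).mp this
    funext x y
    simp only [Pi.add_apply]
    ring
  · intro a P1 _ g1
    have := g1.smul a
    refine (congrArg (Sol κ Y) ?_).mp this
    funext x y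
    simp only [Pi.smul_apply, smul_eq_mul]
    ring

end Vale.Agent.P159.H30
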