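import Vale.Agent.P159.H30.Ind2
import Vale.Agent.P159.TM.H968.Bare
import Vale.Agent.P159.TM.H845.Meas
import Vale.Agent.P159.H37.Spec0

/-!
SANDWICH, part 3 (helper30): the torus against the free box of the Gaussian limit.
The torus has `N + 1` sites per side.
-/

open MeasureTheory Filter Topology

namespace Vale.Agent.P159.H30

open Vale.Agent.P159 Vale.Agent.P159.H353 Vale.Agent.P159.R2.H254 Vale.Agent.P159.T1.H934
open Vale.Agent.P159.TM Vale.Agent.P159.TM.H22

/-- the currents of the free box -/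
def curH (N : ℕ) : (Fa N → ℤ) →+ (Eb N → ℤ) where
  toFun := bcur
  map_zero' := by
    funext e
    simp [bcur]
  map_add' h k := by
    funext e
    simp only [bcur, Pi.add_apply]
    ring

/-- the edges which wrap around -/
abbrev Ew (N : ℕ) : Type := Fin (N + 1) ⊕ Fin (N + 1)

/-- the currents through the edges which wrap around -/
def wrapH (N : ℕ) : (Fa N → ℤ) →+ (Ew N → ℤ) where
  toFun h := Sum.elim (fun j => h (0, j) - h (Fin.last N, j)) fun i => h (i, 0) - h (i, Fin.last N)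
  map_zero' := by
    funext e
    rcases e with j | j <;> simp
  map_add' h k := by
    funext e
    rcases e with j | j
    · simp only [Sum.elim_inl, Pi.add_apply]
      ring
    · simp only [Sum.elim_inr, Pi.add_apply]
      ring

lemma prod_cs {N : ℕ} (f : ZMod (N + 1) → ℝ) : ∏ i : ZMod (N + 1), f i =
    (∏ i : Fin N, f (i.castSucc : Fin (N + 1))) * f (Fin.last N : Fin (N + 1)) :=
  Fin.prod_univ_castSucc (fun i : Fin (N + 1) => f i)

lemma succ_zmod {N : ℕ} (i : Fin N) : (@HAdd.hAdd (ZMod (N + 1)) (ZMod (N + 1)) (ZMod (N + 1)) _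
    i.castSucc (1 : ZMod (N + 1))) = i.succ := by
  show (i.castSucc : Fin (N + 1)) + 1 = i.succ
  exact Fin.coeSucc_eq_succ

lemma last_zmod {N : ℕ} : (@HAdd.hAdd (ZMod (N + 1)) (ZMod (N + 1)) (ZMod (N + 1)) _
    (Fin.last N) (1 : ZMod (N + 1))) = (0 : ZMod (N + 1)) := by
  show (Fin.last N : Fin (N + 1)) + 1 = 0
  exact Fin.last_add_one N

lemma wT_eq (b : ℝ) (N : ℕ) (h : SpecC.Tor (N + 1) → ℤ) :
    SpecC.wT b (N + 1) h = W (curH N) (fun _ => b) h * W (wrapH N) (fun _ => b) h := by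
  unfold SpecC.wT
  rw [Finset.prod_mul_distrib]
  have e1 : ∏ x : SpecC.Tor (N + 1), wI b (h (x + (1, 0)) - h x) =
      (∏ p : Fin N × Fin (N + 1), wI b (curH N h (Sum.inl p))) *
        ∏ j : Fin (N + 1), wI b (wrapH N h (Sum.inl j)) := by
    have e2 : ∏ x : SpecC.Tor (N + 1), wI b (h (x + (1, 0)) - h x) =
        ∏ i : ZMod (N + 1), ∏ j : ZMod (N + 1), wI b (h (i + 1, j) - h (i, j)) := by
      rw [Fintype.prod_prod_type]
      refine Finset.prod_congr rfl fun i _ => Finset.prod_congr rfl fun j _ => ?_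
      rw [Prod.mk_add_mk, add_zero]
    rw [e2, prod_cs, Fintype.prod_prod_type]
    refine congrArg₂ (· * ·) ?_ ?_
    · refine Finset.prod_congr rfl fun i _ => Finset.prod_congr rfl fun j _ => ?_
      rw [← wI_neg]
      have e3 := succ_zmod i
      congr 1
      rw [neg_sub]
      show h ((i.castSucc : Fin (N + 1)), j) - h (_, j) =
        h ((i.castSucc : Fin (N + 1)), j) - h ((i.succ : Fin (N + 1)), j)
      congr 3
    · refine Finset.prod_congr rfl fun j _ => ?_
      have e3 := last_zmod (N := N)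
      congr 1
      show h (_, j) - h (_, j) = h ((0 : ZMod (N + 1)), j) - h ((Fin.last N : Fin (N + 1)), j)
      congr 3
  have e4 : ∏ x : SpecC.Tor (N + 1), wI b (h (x + (0, 1)) - h x) =
      (∏ p : Fin (N + 1) × Fin N, wI b (curH N h (Sum.inr p))) *
        ∏ j : Fin (N + 1), wI b (wrapH N h (Sum.inr j)) := by
    have e2 : ∏ x : SpecC.Tor (N + 1), wI b (h (x + (0, 1)) - h x) =
        ∏ i : Fin (N + 1), ∏ j : ZMod (N + 1), wI b (h ((i : ZMod (N + 1)), j + 1) - h (i, j)) := by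
      rw [Fintype.prod_prod_type]
      refine Finset.prod_congr rfl fun i _ => Finset.prod_congr rfl fun j _ => ?_
      rw [Prod.mk_add_mk, add_zero]
    rw [e2, Fintype.prod_prod_type, ← Finset.prod_mul_distrib]
    refine Finset.prod_congr rfl fun i _ => ?_
    rw [prod_cs]
    refine congrArg₂ (· * ·) ?_ ?_
    · refine Finset.prod_congr rfl fun j _ => ?_
      have e3 := succ_zmod j
      congr 1
      show h (i, _) - h (i, _) = h (i, (j.succ : Fin (N + 1))) - h (i, (j.castSucc : Fin (N + 1)))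
      congr 3
    · have e3 := last_zmod (N := N)
      congr 1
      show h (i, _) - h (i, _) = h (i, (0 : ZMod (N + 1))) - h (i, (Fin.last N : Fin (N + 1)))
      congr 3
  rw [e1, e4]
  unfold W
  rw [Fintype.prod_sum_type, Fintype.prod_sum_type]
  ring

/-! ### the free box with a mass at one site -/

lemma cur_path {N : ℕ} (h : Fa N → ℤ) (x : Fa N) :
    |((h x - h (0, 0) : ℤ) : ℝ)| ≤ (2 * N) * ∑ e, |(bcur h e : ℝ)| := by
  set M := ∑ e, |(bcur h e : ℝ)| with hM
  have hM0 : 0 ≤ M := Finset.sum_nonneg fun _ _ => abs_nonneg _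
  have hle : ∀ e, |(bcur h e : ℝ)| ≤ M := fun e =>
    Finset.single_le_sum (f := fun e => |(bcur h e : ℝ)|) (fun _ _ => abs_nonneg _)
      (Finset.mem_univ e)
  have h1 : ∀ (i : ℕ) (hi : i < N + 1),
      |((h (⟨i, hi⟩, 0) - h (0, 0) : ℤ) : ℝ)| ≤ i * M := by
    intro i
    induction i with
    | zero =>
      intro hi
      have : ((⟨0, hi⟩ : Fin (N + 1))) = 0 := rfl
      rw [this, sub_self]
      simp
    | succ i ih =>
      intro hi
      have h2 := ih (by omega)
      have h3 := hle (Sum.inl (⟨i, by omega⟩, 0))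
      simp only [bcur, blf, brt, Fin.castSucc_mk, Fin.succ_mk] at h3
      have e : ((h (⟨i + 1, hi⟩, 0) - h (0, 0) : ℤ) : ℝ) =
          ((h (⟨i, by omega⟩, 0) - h (0, 0) : ℤ) : ℝ) -
            ((h (⟨i, by omega⟩, 0) - h (⟨i + 1, hi⟩, 0) : ℤ) : ℝ) := by
        push_cast
        ring
      rw [e]
      refine (abs_sub _ _).trans ?_
      push_cast at h2 h3 ⊢
      linarith
  have h2 : ∀ (i : Fin (N + 1)) (j : ℕ) (hj : j < N + 1),
      |((h (i, ⟨j, hj⟩) - h (0, 0) : ℤ) : ℝ)| ≤ (i + j) * M := by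
    intro i j
    induction j with
    | zero =>
      intro hj
      have := h1 i.1 i.2
      have e : ((⟨0, hj⟩ : Fin (N + 1))) = 0 := rfl
      rw [e]
      simpa using this
    | succ j ih =>
      intro hj
      have h2 := ih (by omega)
      have h3 := hle (Sum.inr (i, ⟨j, by omega⟩))
      simp only [bcur, blf, brt, Fin.castSucc_mk, Fin.succ_mk] at h3
      have e : ((h (i, ⟨j + 1, hj⟩) - h (0, 0) : ℤ) : ℝ) =
          ((h (i, ⟨j, by omega⟩) - h (0, 0) : ℤ) : ℝ) +
            ((h (i, ⟨j + 1, hj⟩) - h (i, ⟨j, by omega⟩) : ℤ) : ℝ) := by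
        push_cast
        ring
      rw [e]
      refine (abs_add_le _ _).trans ?_
      push_cast at h2 h3 ⊢
      linarith
  obtain ⟨i, j⟩ := x
  refine (h2 i j.1 j.2).trans ?_
  refine mul_le_mul_of_nonneg_right ?_ hM0
  have a1 : ((i : ℕ) : ℝ) ≤ N := by exact_mod_cast Nat.lt_succ_iff.1 i.2
  have a2 : ((j : ℕ) : ℝ) ≤ N := by exact_mod_cast Nat.lt_succ_iff.1 j.2
  linarith

/-- mass `ε` at the site `(0,0)` -/
noncomputable def mpin (N : ℕ) (ε : ℝ) (x : Fa N) : ℝ := if x = (0, 0) then ε else 0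

lemma sg_box (N : ℕ) {b ε : ℝ} (hb : 0 ≤ b) (hε : 0 < ε) :
    SG (wm (curH N) (fun _ => b) (mpin N ε)) := by
  refine sg_of (curH N) (fun _ => hb) (fun x : Fa N => x = (0, 0)) (fun x => ?_) (fun x hx => ?_)
    (K := ((N : ℝ) + 1) ^ 2 * (2 * N + 1)) fun h => ?_
  · unfold mpin
    split_ifs
    · exact hε.le
    · exact le_rfl
  · unfold mpin
    rw [if_pos hx]
    exact hε
  · rw [Fintype.sum_sum_type]
    simp only [dat, Sum.elim_inl, Sum.elim_inr]
    have e1 : ∑ v : Fa N, |((if v = (0, 0) then h v else 0 : ℤ) : ℝ)| = |(h (0, 0) : ℝ)| := by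
      rw [Finset.sum_eq_single ((0, 0) : Fa N)]
      · simp
      · intro v _ hv
        rw [if_neg hv]
        simp
      · intro hv
        exact absurd (Finset.mem_univ _) hv
    rw [e1]
    have e2 : ∀ x : Fa N, |(h x : ℝ)| ≤ (2 * N + 1) * (∑ e, |((curH N) h e : ℝ)| +
        |(h (0, 0) : ℝ)|) := by
      intro x
      have h1 := cur_path h x
      have h2 : (h x : ℝ) = ((h x - h (0, 0) : ℤ) : ℝ) + (h (0, 0) : ℝ) := by
        push_cast
        ring
      have h3 := abs_add_le (((h x - h (0, 0) : ℤ) : ℝ)) (h (0, 0) : ℝ)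
      rw [← h2] at h3
      have h4 : 0 ≤ ∑ e, |((curH N) h e : ℝ)| := Finset.sum_nonneg fun _ _ => abs_nonneg _
      have h5 := abs_nonneg (h (0, 0) : ℝ)
      have h6 : ∑ e, |((curH N) h e : ℝ)| = ∑ e, |(bcur h e : ℝ)| := rfl
      rw [h6] at h4 ⊢
      have hN : (0 : ℝ) ≤ N := Nat.cast_nonneg N
      nlinarith [mul_nonneg hN h5]
    unfold H22.nn
    refine (Finset.sum_le_sum fun x _ => e2 x).trans ?_
    rw [Finset.sum_const, Finset.card_univ, nsmul_eq_mul]
    simp only [Fintype.card_prod, Fintype.card_fin]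
    push_cast
    apply le_of_eq
    ring

/-- heights = pinned heights and a constant -/
def pz (N : ℕ) : Hgt N × ℤ ≃ (Fa N → ℤ) where
  toFun p x := p.1.1 x + p.2
  invFun h := (⟨fun y => h y - h (0, 0), by simp⟩, h (0, 0))
  left_inv := by
    rintro ⟨⟨g, hg⟩, z⟩
    simp [hg]
  right_inv := by
    intro h
    funext x
    simp

lemma box_fac (N : ℕ) {b ε : ℝ} (hb : 0 < b) (hε : 0 < ε) (ρ : Fa N → ℝ) (h0 : ∑ x, ρ x = 0) :
    (H22.MM (wm (curH N) (fun _ => b) (mpin N ε)) fun h => Real.exp (H22.lin ρ h)) =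
      (∑' h : Hgt N, hWt N b h.1 * Real.exp (H22.lin ρ h.1)) *
        ∑' c : ℤ, Real.exp (-(ε * (c : ℝ) ^ 2) / 2) := by
  have hs := (sg_box N hb.le hε).sum (Gr.exp_lin ρ)
  have key : ∀ p : Hgt N × ℤ, wm (curH N) (fun _ => b) (mpin N ε) (pz N p) *
      Real.exp (H22.lin ρ (pz N p)) = (hWt N b p.1.1 * Real.exp (H22.lin ρ p.1.1)) *
        Real.exp (-(ε * (p.2 : ℝ) ^ 2) / 2) := by
    intro p
    have e1 : W (curH N) (fun _ => b) (pz N p) = hWt N b p.1.1 := by
      rw [hWt_eq hb.le]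
      unfold W
      refine Finset.prod_congr rfl fun e _ => ?_
      have : (curH N) (pz N p) e = bcur p.1.1 e := by
        show bcur (fun x => p.1.1 x + p.2) e = _
        rw [bcur_add_const]
      rw [this]
    have e2 : gm (mpin N ε) (pz N p) = Real.exp (-(ε * (p.2 : ℝ) ^ 2) / 2) := by
      unfold gm
      congr 3
      rw [Finset.sum_eq_single ((0, 0) : Fa N)]
      · unfold mpin
        rw [if_pos rfl]
        have : pz N p (0, 0) = p.2 := by
          show p.1.1 (0, 0) + p.2 = p.2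
          rw [p.1.2, zero_add]
        rw [this]
      · intro v _ hv
        unfold mpin
        rw [if_neg hv, zero_mul]
      · intro hv
        exact absurd (Finset.mem_univ _) hv
    have e3 : H22.lin ρ (pz N p) = H22.lin ρ p.1.1 := by
      unfold H22.lin
      have : ∀ x, ρ x * ((pz N p x : ℤ) : ℝ) = ρ x * (p.1.1 x : ℝ) + ρ x * (p.2 : ℝ) := by
        intro x
        show ρ x * ((p.1.1 x + p.2 : ℤ) : ℝ) = _
        push_cast
        ring
      simp only [this]
      rw [Finset.sum_add_distrib, ← Finset.sum_mul, h0, zero_mul, add_zero]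
    unfold wm
    rw [e1, e2, e3]
    ring
  have s1 : Summable fun p : Hgt N × ℤ => (hWt N b p.1.1 * Real.exp (H22.lin ρ p.1.1)) *
        Real.exp (-(ε * (p.2 : ℝ) ^ 2) / 2) := by
    refine (((pz N).summable_iff (f := fun h => wm (curH N) (fun _ => b) (mpin N ε) h *
      Real.exp (H22.lin ρ h))).2 hs).congr fun p => ?_
    exact key p
  have s2 : Summable fun h : Hgt N => hWt N b h.1 * Real.exp (H22.lin ρ h.1) := by
    refine (s1.comp_injective (i := fun h : Hgt N => (h, (0 : ℤ)))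
      fun a c hac => (Prod.mk.inj hac).1).congr fun h => ?_
    simp
  have s3 : Summable fun c : ℤ => Real.exp (-(ε * (c : ℝ) ^ 2) / 2) := by
    have := summable_gauss1 hε 0
    simpa using this
  unfold H22.MM
  rw [← (pz N).tsum_eq, s2.tsum_mul_tsum s3 s1]
  exact tsum_congr key

/-! ### the mass factor -/

section massf

variable {V : Type} [Fintype V] {E : Type} [Fintype E]

/-- `E exp(ρ.h) ≤ exp(∑ ρ²/(2m))` for every gradient weight with masses `m` -/
theorem mass_le (D : (V → ℤ) →+ (E → ℤ)) {J : E → ℝ} (hJ : ∀ e, 0 ≤ J e) {m : V → ℝ}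
    (hm : ∀ v, 0 < m v) (ρ : V → ℝ) :
    (H22.MM (wm D J m) fun h => Real.exp (H22.lin ρ h)) ≤
      Real.exp (∑ v, ρ v ^ 2 / (2 * m v)) * H22.MM (wm D J m) fun _ => 1 := by
  have hW : H871.Wt (W D J) := by
    refine ⟨fun h => W_nonneg hJ h, ⟨_, fun h => W_le hJ h⟩, 0, ?_⟩
    unfold W
    refine Finset.prod_pos fun e _ => ?_
    rw [map_zero]
    exact wI_zero_pos (hJ e)
  have h1 := H845.Z_le_zero hW hm (gin_W D hJ hm) fun v => ρ v / m v
  rw [Z_eq_MM, Z_eq_MM] at h1
  have e1 : (fun v => m v * (fun v => ρ v / m v) v) = ρ := by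
    funext v
    have := (hm v).ne'
    field_simp
  have e2 : (fun v => m v * (0 : V → ℝ) v) = 0 := by
    funext v
    simp
  have e3 : (∑ v, m v * (fun v => ρ v / m v) v ^ 2) = ∑ v, ρ v ^ 2 / m v := by
    refine Finset.sum_congr rfl fun v _ => ?_
    have := (hm v).ne'
    field_simp
  have e4 : (∑ v, m v * (0 : V → ℝ) v ^ 2) = 0 := by simp
  rw [e1, e2, e3, e4, neg_zero, zero_div, Real.exp_zero, one_mul] at h1
  have e5 : (H22.MM (wm D J m) fun h => Real.exp (H22.lin 0 h)) = H22.MM (wm D J m) fun _ => 1 := by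
    unfold H22.MM
    exact tsum_congr fun h => by simp only [lin_zero, Real.exp_zero]
  rw [e5] at h1
  have e6 : Real.exp (∑ v, ρ v ^ 2 / (2 * m v)) * Real.exp (-(∑ v, ρ v ^ 2 / m v) / 2) = 1 := by
    rw [← Real.exp_add]
    have : ∑ v, ρ v ^ 2 / (2 * m v) + -(∑ v, ρ v ^ 2 / m v) / 2 = 0 := by
      rw [← add_right_inj ((∑ v, ρ v ^ 2 / m v) / 2)]
      have : ∑ v, ρ v ^ 2 / (2 * m v) = (∑ v, ρ v ^ 2 / m v) / 2 := by
        rw [Finset.sum_div]
        refine Finset.sum_congr rfl fun v _ => ?_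
        rw [mul_comm 2, div_div]
      rw [this]
      ring
    rw [this, Real.exp_zero]
  calc (H22.MM (wm D J m) fun h => Real.exp (H22.lin ρ h))
      = Real.exp (∑ v, ρ v ^ 2 / (2 * m v)) * (Real.exp (-(∑ v, ρ v ^ 2 / m v) / 2) *
        H22.MM (wm D J m) fun h => Real.exp (H22.lin ρ h)) := by
        rw [← mul_assoc, e6, one_mul]
    _ ≤ _ := mul_le_mul_of_nonneg_left h1 (Real.exp_pos _).le

end massf

/-! ### the torus -/

section adj

variable {V : Type} [Fintype V] [DecidableEq V] {E : Type} [Fintype E]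

/-- the adjoint of the gradient -/
noncomputable def adj (D : (V → ℤ) →+ (E → ℤ)) (a : E → ℝ) (v : V) : ℝ :=
  ∑ e, a e * (D (Pi.single v 1) e : ℝ)

lemma lin_adj (D : (V → ℤ) →+ (E → ℤ)) (a : E → ℝ) (h : V → ℤ) :
    H22.lin (adj D a) h = H22.lin a (D h) := by
  unfold H22.lin adj
  have e1 : D h = ∑ v, h v • D (Pi.single v 1) := by
    have : h = ∑ v, h v • (Pi.single v (1 : ℤ) : V → ℤ) := by
      funext x
      rw [Finset.sum_apply, Finset.sum_eq_single x]
      · simp
      · intro y _ hy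
        rw [Pi.smul_apply, Pi.single_eq_of_ne hy.symm, smul_zero]
      · intro hx
        exact absurd (Finset.mem_univ _) hx
    conv_lhs => rw [this]
    rw [map_sum]
    exact Finset.sum_congr rfl fun v _ => map_zsmul D _ _
  have e2 : ∀ e, (D h e : ℝ) = ∑ v, (h v : ℝ) * (D (Pi.single v 1) e : ℝ) := by
    intro e
    rw [e1, Finset.sum_apply]
    push_cast
    refine Finset.sum_congr rfl fun v _ => ?_
    rw [Pi.smul_apply, smul_eq_mul]
    push_cast
    rfl
  simp only [e2, Finset.sum_mul, Finset.mul_sum]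
  rw [Finset.sum_comm]
  exact Finset.sum_congr rfl fun e _ => Finset.sum_congr rfl fun v _ => by ring

end adj

lemma curH_one (N : ℕ) : curH N (fun _ => 1) = 0 := by
  funext e
  show bcur (fun _ => 1) e = 0
  simp [bcur]

lemma adj_cur_zero (N : ℕ) (a : Eb N → ℝ) : ∑ x, adj (curH N) a x = 0 := by
  have h := lin_adj (curH N) a fun _ => 1
  rw [curH_one] at h
  unfold H22.lin at h
  simpa using h

/-- the torus weight with mass `t` -/
noncomputable def wtor (N : ℕ) (b t : ℝ) (h : Fa N → ℤ) : ℝ :=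
  wc (curH N) (fun _ => b) (wrapH N) (fun _ => b) (fun _ => t) h

/-- **the torus against the free box**, `0 < ε < t` -/
theorem torus_eps (N : ℕ) {b t ε : ℝ} (hb : 0 < b) (hε : 0 < ε) (hεt : ε < t) (s : Fa N → ℝ)
    (a : Eb N → ℝ) (j : Ew N → ℝ) :
    ∑' h, wtor N b t h * Real.exp (H22.lin s h + H22.lin a (curH N h) + H22.lin j (wrapH N h)) ≤
      Real.exp (∑ x, s x ^ 2 / (2 * (t - mpin N ε x))) *
        H968.hE N b (fun h => Real.exp (H968.lin a h)) *
        Real.exp (∑ e, b * (Real.cosh (j e) - 1)) * ∑' h, wtor N b t h := by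
  have ht : 0 < t := hε.trans hεt
  set m1 : Fa N → ℝ := fun x => t - mpin N ε x with hm1
  have hp : ∀ x, 0 ≤ mpin N ε x := fun x => by
    unfold mpin
    split_ifs
    · exact hε.le
    · exact le_rfl
  have hm1' : ∀ x, 0 < m1 x := by
    intro x
    simp only [hm1]
    unfold mpin
    split_ifs
    · linarith
    · linarith
  have hmm : m1 + mpin N ε = fun _ => t := by
    funext x
    simp only [hm1, Pi.add_apply]
    ring
  have h3 := three (curH N) (J := fun _ => b) (fun _ => hb.le) (wrapH N) (I := fun _ => b)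
    (fun _ => hb.le) hm1' hp (sg_box N hb.le hε) s (adj (curH N) a) j
  rw [hmm] at h3
  have b1 := box_fac N hb hε (adj (curH N) a) (adj_cur_zero N a)
  have b0 := box_fac N hb hε (0 : Fa N → ℝ) (by simp)
  have e0 : (H22.MM (wm (curH N) (fun _ => b) (mpin N ε)) fun h =>
      Real.exp (H22.lin (0 : Fa N → ℝ) h)) =
      H22.MM (wm (curH N) (fun _ => b) (mpin N ε)) fun _ => 1 := by
    unfold H22.MM
    exact tsum_congr fun h => by simp only [lin_zero, Real.exp_zero]
  rw [e0] at b0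
  have e00 : ∑' h : Hgt N, hWt N b h.1 * Real.exp (H22.lin (0 : Fa N → ℝ) h.1) =
      ∑' h : Hgt N, hWt N b h.1 := by
    exact tsum_congr fun h => by rw [lin_zero, Real.exp_zero, mul_one]
  rw [e00] at b0
  have e1 : ∑' h : Hgt N, hWt N b h.1 * Real.exp (H22.lin (adj (curH N) a) h.1) =
      H968.hE N b (fun h => Real.exp (H968.lin a h)) * ∑' h : Hgt N, hWt N b h.1 := by
    unfold H968.hE
    rw [div_mul_cancel₀ _ (tsum_hWt_pos N hb).ne']
    refine tsum_congr fun h => ?_
    rw [lin_adj]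
    rfl
  rw [e1] at b1
  set Θ := ∑' c : ℤ, Real.exp (-(ε * (c : ℝ) ^ 2) / 2) with hΘ
  have hΘ0 : 0 < Θ := by
    have s3 : Summable fun c : ℤ => Real.exp (-(ε * (c : ℝ) ^ 2) / 2) := by
      have := summable_gauss1 hε 0
      simpa using this
    exact s3.tsum_pos (fun c => (Real.exp_pos _).le) 0 (Real.exp_pos _)
  -- the mass factor
  have m0 := mass_le (0 : (Fa N → ℤ) →+ (Empty → ℤ)) (J := fun e => e.elim) (fun e => e.elim)
    hm1' s
  have ew : ∀ h : Fa N → ℤ, wm (0 : (Fa N → ℤ) →+ (Empty → ℤ)) (fun e => e.elim) m1 h = gm m1 h := by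
    intro h
    unfold wm W
    simp
  have m1e : (∑' h, gm m1 h * Real.exp (H22.lin s h)) ≤
      Real.exp (∑ v, s v ^ 2 / (2 * m1 v)) * ∑' h, gm m1 h := by
    have e2 : (H22.MM (wm (0 : (Fa N → ℤ) →+ (Empty → ℤ)) (fun e => e.elim) m1) fun h =>
        Real.exp (H22.lin s h)) = ∑' h, gm m1 h * Real.exp (H22.lin s h) := by
      unfold H22.MM
      exact tsum_congr fun h => by rw [ew]
    have e3 : (H22.MM (wm (0 : (Fa N → ℤ) →+ (Empty → ℤ)) (fun e => e.elim) m1) fun _ => 1) =
        ∑' h, gm m1 h := by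
      unfold H22.MM
      exact tsum_congr fun h => by rw [ew, mul_one]
    rw [e2, e3] at m0
    exact m0
  have hgs : Summable fun h : Fa N → ℤ => gm m1 h := by
    have := summable_gm hm1' 0
    simpa using this
  have hg0 : 0 < ∑' h : Fa N → ℤ, gm m1 h :=
    hgs.tsum_pos (fun h => (gm_pos m1 h).le) 0 (gm_pos m1 0)
  have hY0 : 0 < ∑' h : Hgt N, hWt N b h.1 := tsum_hWt_pos N hb
  rw [b0, b1] at h3
  set X := ∑' h, wtor N b t h * Real.exp (H22.lin s h + H22.lin a (curH N h) +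
    H22.lin j (wrapH N h)) with hX
  have e5 : ∑' h, wc (curH N) (fun _ => b) (wrapH N) (fun _ => b) (fun _ => t) h *
      Real.exp (H22.lin s h + H22.lin (adj (curH N) a) h + H22.lin j (wrapH N h)) = X := by
    rw [hX]
    refine tsum_congr fun h => ?_
    rw [lin_adj]
    rfl
  rw [e5] at h3
  set A := H968.hE N b (fun h => Real.exp (H968.lin a h)) with hA
  have hA0 : 0 ≤ A := by
    rw [hA]
    unfold H968.hE
    exact div_nonneg (tsum_nonneg fun h => mul_nonneg (hWt_pos hb h.1).le (Real.exp_pos _).le) hY0.le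
  set Y := ∑' h : Hgt N, hWt N b h.1 with hY
  set g := ∑' h : Fa N → ℤ, gm m1 h with hg
  set Z := ∑' h, wtor N b t h with hZ
  have hZ' : ∑' h, wc (curH N) (fun _ => b) (wrapH N) (fun _ => b) (fun _ => t) h = Z := rfl
  rw [hZ'] at h3
  have hZ0 : 0 ≤ Z := tsum_nonneg fun h => mul_nonneg (mul_nonneg (W_nonneg (fun _ => hb.le) _)
    (W_nonneg (fun _ => hb.le) _)) (gm_pos _ _).le
  have e6 : Real.exp (∑ e : Ew N, b * Real.cosh (j e)) =
      Real.exp (∑ e : Ew N, b * (Real.cosh (j e) - 1)) * Real.exp (∑ _e : Ew N, b) := by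
    rw [← Real.exp_add, ← Finset.sum_add_distrib]
    congr 1
    exact Finset.sum_congr rfl fun e _ => by ring
  rw [e6] at h3
  set C1 := Real.exp (∑ e : Ew N, b * (Real.cosh (j e) - 1)) with hC1
  set C0 := Real.exp (∑ _e : Ew N, b) with hC0
  have hC0' : 0 < C0 := Real.exp_pos _
  have hC1' : 0 < C1 := Real.exp_pos _
  have h4 : X * (g * (Y * Θ * C0)) ≤
      (Real.exp (∑ v, s v ^ 2 / (2 * m1 v)) * A * C1 * Z) * (g * (Y * Θ * C0)) := by
    refine h3.trans ?_
    calc (∑' h, gm m1 h * Real.exp (H22.lin s h)) * (A * Y * Θ * (C1 * C0)) * Z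
        ≤ (Real.exp (∑ v, s v ^ 2 / (2 * m1 v)) * g) * (A * Y * Θ * (C1 * C0)) * Z := by
          refine mul_le_mul_of_nonneg_right (mul_le_mul_of_nonneg_right m1e ?_) hZ0
          positivity
      _ = _ := by ring
  exact le_of_mul_le_mul_right h4 (by positivity)

/-- **the torus against the free box** -/
theorem torus_le (N : ℕ) {b t : ℝ} (hb : 0 < b) (ht : 0 < t) (s : Fa N → ℝ)
    (a : Eb N → ℝ) (j : Ew N → ℝ) :
    ∑' h, wtor N b t h * Real.exp (H22.lin s h + H22.lin a (curH N h) + H22.lin j (wrapH N h)) ≤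
      Real.exp ((∑ x, s x ^ 2) / (2 * t)) *
        H968.hE N b (fun h => Real.exp (H968.lin a h)) *
        Real.exp (∑ e, b * (Real.cosh (j e) - 1)) * ∑' h, wtor N b t h := by
  set ε : ℕ → ℝ := fun n => t * (1 / ((n : ℝ) + 1)) / 2 with hε
  have hε0 : ∀ n, 0 < ε n := fun n => by simp only [hε]; positivity
  have hε1 : ∀ n, ε n < t := by
    intro n
    simp only [hε]
    have h1 : 1 / ((n : ℝ) + 1) ≤ 1 := by
      rw [div_le_one (by positivity)]
      have : (0 : ℝ) ≤ n := Nat.cast_nonneg n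
      linarith
    nlinarith [mul_le_mul_of_nonneg_left h1 ht.le]
  have hlim : Tendsto ε atTop (𝓝 0) := by
    have h1 : Tendsto (fun n : ℕ => 1 / ((n : ℝ) + 1)) atTop (𝓝 0) :=
      tendsto_one_div_add_atTop_nhds_zero_nat
    have h2 := (h1.const_mul t).div_const 2
    rw [mul_zero, zero_div] at h2
    exact h2
  have h1 : Tendsto (fun n => ∑ x, s x ^ 2 / (2 * (t - mpin N (ε n) x))) atTop
      (𝓝 ((∑ x, s x ^ 2) / (2 * t))) := by
    rw [Finset.sum_div]
    refine tendsto_finsetSum _ fun x _ => ?_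
    refine Tendsto.div tendsto_const_nhds ?_ (by positivity)
    refine Tendsto.const_mul 2 ?_
    have h2 : Tendsto (fun n => mpin N (ε n) x) atTop (𝓝 0) := by
      unfold mpin
      by_cases hx : x = (0, 0)
      · simp only [hx, if_true]
        exact hlim
      · simp only [hx, if_false]
        exact tendsto_const_nhds
    have h3 := (tendsto_const_nhds (x := t)).sub h2
    rwa [sub_zero] at h3
  have h2 := ((((Real.continuous_exp.tendsto _).comp h1).mul_const
    (H968.hE N b (fun h => Real.exp (H968.lin a h)))).mul_const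
    (Real.exp (∑ e, b * (Real.cosh (j e) - 1)))).mul_const (∑' h, wtor N b t h)
  exact ge_of_tendsto' h2 fun n => torus_eps N hb (hε0 n) (hε1 n) s a j

/-! ### the letters of `H37/Spec0` -/

open Vale.Agent.P159.H37 (Zs wM qf re)

lemma qf_smul_one {V : Type*} [Fintype V] [DecidableEq V] (t : ℝ) (u : V → ℝ) :
    qf (t • (1 : Matrix V V ℝ)) u = t * ∑ x, u x ^ 2 := by
  unfold H37.qf
  rw [Finset.mul_sum]
  refine Finset.sum_congr rfl fun x _ => ?_
  rw [Finset.sum_eq_single x]
  · rw [Matrix.smul_apply, Matrix.one_apply_eq]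
    simp only [smul_eq_mul]
    ring
  · intro y _ hy
    rw [Matrix.smul_apply, Matrix.one_apply_ne hy.symm]
    simp
  · intro hx
    exact absurd (Finset.mem_univ _) hx

lemma wtor_eq (N : ℕ) (b t : ℝ) (h : SpecC.Tor (N + 1) → ℤ) :
    H37.wt (N + 1) b t h = wtor N b t h := by
  unfold H37.wt H37.wM wtor wc gm
  rw [qf_smul_one, wT_eq]
  congr 2
  rw [Finset.mul_sum]
  rw [neg_div]
  rfl

/-- source = sites + currents of the box + currents which wrap around -/
noncomputable def src (N : ℕ) (s : Fa N → ℝ) (a : Eb N → ℝ) (j : Ew N → ℝ) : Fa N → ℝ :=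
  fun x => s x + adj (curH N) a x + adj (wrapH N) j x

lemma lin_src (N : ℕ) (s : Fa N → ℝ) (a : Eb N → ℝ) (j : Ew N → ℝ) (h : Fa N → ℤ) :
    H22.lin (src N s a j) h = H22.lin s h + H22.lin a (curH N h) + H22.lin j (wrapH N h) := by
  rw [← lin_adj, ← lin_adj, ← lin_add_left, ← lin_add_left]
  rfl

lemma Zs_eq (N : ℕ) (b t : ℝ) (J : SpecC.Tor (N + 1) → ℝ) :
    Zs (H37.wt (N + 1) b t) J = ∑' h : Fa N → ℤ, wtor N b t h * Real.exp (H22.lin J h) := by
  unfold Zs H104.T
  show ∑' h : SpecC.Tor (N + 1) → ℤ, (1 : ℝ) * H37.wt (N + 1) b t h * Real.exp (H104.li J h) =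
    ∑' h : SpecC.Tor (N + 1) → ℤ, wtor N b t h * Real.exp (H104.li J h)
  refine tsum_congr fun h => ?_
  rw [wtor_eq, one_mul]

theorem Zs_le (N : ℕ) {b t : ℝ} (hb : 0 < b) (ht : 0 < t) (s : Fa N → ℝ)
    (a : Eb N → ℝ) (j : Ew N → ℝ) (J : SpecC.Tor (N + 1) → ℝ) (hJ : J = src N s a j) :
    Zs (H37.wt (N + 1) b t) J ≤ Real.exp ((∑ x, s x ^ 2) / (2 * t)) *
        H968.hE N b (fun h => Real.exp (H968.lin a h)) *
        Real.exp (∑ e, b * (Real.cosh (j e) - 1)) *
        Zs (H37.wt (N + 1) b t) (0 : SpecC.Tor (N + 1) → ℝ) := by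
  have h := torus_le N hb ht s a j
  have e1 : ∑' h, wtor N b t h * Real.exp (H22.lin (src N s a j) h) =
      ∑' h, wtor N b t h * Real.exp (H22.lin s h + H22.lin a (curH N h) +
        H22.lin j (wrapH N h)) := tsum_congr fun h => by rw [lin_src]
  have e2 : ∑' h : Fa N → ℤ, wtor N b t h * Real.exp (H22.lin (0 : Fa N → ℝ) h) =
      ∑' h, wtor N b t h := tsum_congr fun h => by rw [lin_zero, Real.exp_zero, mul_one]
  have g1 : Zs (H37.wt (N + 1) b t) J = ∑' h, wtor N b t h * Real.exp (H22.lin s h +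
      H22.lin a (curH N h) + H22.lin j (wrapH N h)) := by
    subst hJ
    exact (Zs_eq N b t _).trans e1
  have g0 : Zs (H37.wt (N + 1) b t) (0 : SpecC.Tor (N + 1) → ℝ) = ∑' h, wtor N b t h :=
    (Zs_eq N b t _).trans e2
  rw [g1, g0]
  exact h

end Vale.Agent.P159.H30
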