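import Vale.Agent.P159.H30.Apx

/-!
SANDWICH, part 8 (helper30): functions constant on cells.
-/

open MeasureTheory Filter Topology

namespace Vale.Agent.P159.H30

open Vale.Agent.P159 Vale.Agent.P159.H353 Vale.Agent.P159.R2.H254

/-- indicator of the `i`-th interval of length `l = (N + 1) / n0` -/
noncomputable def ind (n0 i N : ℕ) (a : ZMod (N + 1)) : ℝ :=
  if a.val / ((N + 1) / n0) = i then 1 else 0

lemma ind_nonneg (n0 i N : ℕ) (a : ZMod (N + 1)) : 0 ≤ ind n0 i N a := by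
  unfold ind
  split_ifs <;> norm_num

lemma ind_le (n0 i N : ℕ) (a : ZMod (N + 1)) : ind n0 i N a ≤ 1 := by
  unfold ind
  split_ifs <;> norm_num

/-- the cut off -/
noncomputable def cut (n0 i : ℕ) (τ : ℝ) (x : ℝ) : ℝ :=
  max 0 (min 1 (min (x - i / n0) ((i + 1) / n0 - x) * (n0 / τ)))

lemma cut_cont (n0 i : ℕ) (τ : ℝ) : Continuous (cut n0 i τ) := by
  unfold cut
  fun_prop

lemma cut_nonneg (n0 i : ℕ) (τ x : ℝ) : 0 ≤ cut n0 i τ x := le_max_left _ _

lemma cut_le (n0 i : ℕ) (τ x : ℝ) : cut n0 i τ x ≤ 1 :=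
  max_le zero_le_one (min_le_left _ _)

lemma cut_zero {n0 i : ℕ} {τ x : ℝ} (hτ : 0 < τ) (h : x ≤ i / n0 ∨ (i + 1) / n0 ≤ x) :
    cut n0 i τ x = 0 := by
  unfold cut
  refine max_eq_left ((min_le_right _ _).trans ?_)
  refine mul_nonpos_of_nonpos_of_nonneg ?_ (by positivity)
  rcases h with h | h
  · exact (min_le_left _ _).trans (by linarith)
  · exact (min_le_right _ _).trans (by linarith)

lemma cut_one {n0 i : ℕ} (hn : 0 < n0) {τ x : ℝ} (hτ : 0 < τ) (h1 : i / n0 + τ / n0 ≤ x)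
    (h2 : x + τ / n0 ≤ (i + 1) / n0) : cut n0 i τ x = 1 := by
  have hn0 : (0 : ℝ) < n0 := by exact_mod_cast hn
  have h3 : τ / n0 ≤ min (x - i / n0) ((i + 1) / n0 - x) := le_min (by linarith) (by linarith)
  have h4 : 1 ≤ min (x - i / n0) ((i + 1) / n0 - x) * (n0 / τ) := by
    have h5 : τ / n0 * (n0 / τ) = 1 := by field_simp
    exact h5.symm.le.trans (mul_le_mul_of_nonneg_right h3 (by positivity))
  unfold cut
  rw [min_eq_left h4]
  norm_num

lemma ind_cut {n0 i : ℕ} (hn : 0 < n0) {τ : ℝ} (hτ : 0 < τ) {N : ℕ} (hN : n0 ∣ N + 1) :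
    ∑ a : ZMod (N + 1), (ind n0 i N a - cut n0 i τ (ctr N a)) ^ 2 ≤
      2 * (τ * ((N : ℝ) + 1) + 1) := by
  obtain ⟨l, hl⟩ := hN
  have hn0 : (0 : ℝ) < n0 := by exact_mod_cast hn
  have hl0 : 0 < l := by
    rcases Nat.eq_zero_or_pos l with h | h
    · rw [h, mul_zero] at hl
      omega
    · exact h
  have hlr : (0 : ℝ) < l := by exact_mod_cast hl0
  have hdiv : (N + 1) / n0 = l := by
    rw [hl]
    exact Nat.mul_div_cancel_left l hn
  have hN1 : (N : ℝ) + 1 = n0 * l := by exact_mod_cast hl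
  set T := ⌈τ * l⌉₊ with hT
  have hT1 : τ * l ≤ T := Nat.le_ceil _
  have hT2 : (T : ℝ) < τ * l + 1 := Nat.ceil_lt_add_one (by positivity)
  set B : Finset (ZMod (N + 1)) := Finset.univ.filter fun a => a.val ∈
    Finset.Ico (i * l) (i * l + T) ∪ Finset.Ico ((i + 1) * l - T) ((i + 1) * l) with hB
  have hcard : (B.card : ℝ) ≤ 2 * T := by
    have h1 : B.card ≤ (Finset.Ico (i * l) (i * l + T) ∪
        Finset.Ico ((i + 1) * l - T) ((i + 1) * l)).card := by
      refine Finset.card_le_card_of_injOn ZMod.val ?_ ?_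
      · intro a ha
        exact (Finset.mem_filter.1 ha).2
      · intro a _ a' _ h
        exact ZMod.val_injective _ h
    have h2 := Finset.card_union_le (Finset.Ico (i * l) (i * l + T))
      (Finset.Ico ((i + 1) * l - T) ((i + 1) * l))
    rw [Nat.card_Ico, Nat.card_Ico] at h2
    have h3 : B.card ≤ 2 * T := by omega
    exact_mod_cast h3
  have hpt : ∀ a : ZMod (N + 1), (ind n0 i N a - cut n0 i τ (ctr N a)) ^ 2 ≤
      if a ∈ B then 1 else 0 := by
    intro a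
    have i0 := ind_nonneg n0 i N a
    have i1 := ind_le n0 i N a
    have c0 := cut_nonneg n0 i τ (ctr N a)
    have c1 := cut_le n0 i τ (ctr N a)
    split_ifs with ha
    · rw [← sq_abs]
      have : |ind n0 i N a - cut n0 i τ (ctr N a)| ≤ 1 := abs_le.2 ⟨by linarith, by linarith⟩
      exact pow_le_one₀ (abs_nonneg _) this
    · have ha' : ¬ (a.val ∈ Finset.Ico (i * l) (i * l + T) ∪
          Finset.Ico ((i + 1) * l - T) ((i + 1) * l)) := fun h =>
        ha (Finset.mem_filter.2 ⟨Finset.mem_univ _, h⟩)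
      rw [Finset.mem_union, Finset.mem_Ico, Finset.mem_Ico] at ha'
      push Not at ha'
      obtain ⟨b1, b2⟩ := ha'
      have hc : ctr N a = ((a.val : ℝ) + 1 / 2) / (n0 * l) := by
        unfold ctr
        rw [← hN1]
        rfl
      have key : ind n0 i N a = cut n0 i τ (ctr N a) := by
        rcases lt_or_ge a.val (i * l) with g | g
        · have e1 : ind n0 i N a = 0 := by
            unfold ind
            rw [hdiv, if_neg]
            intro h
            have := (Nat.div_eq_iff hl0).1 h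
            omega
          rw [e1, cut_zero hτ (Or.inl _)]
          rw [hc, div_le_div_iff₀ (by positivity) hn0]
          have g' : (a.val : ℝ) + 1 ≤ i * l := by exact_mod_cast g
          nlinarith
        · have b1' := b1 g
          rcases lt_or_ge a.val ((i + 1) * l) with g2 | g2
          · have b3 : a.val < (i + 1) * l - T := by
              by_contra hcon
              push Not at hcon
              exact absurd g2 (not_lt.2 (b2 hcon))
            have e1 : ind n0 i N a = 1 := by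
              unfold ind
              rw [hdiv, if_pos]
              rw [Nat.div_eq_iff hl0]
              constructor
              · exact g
              · have : (i + 1) * l = i * l + l := by ring
                omega
            rw [e1, cut_one hn hτ]
            · rw [hc, ← add_div, div_le_div_iff₀ hn0 (by positivity)]
              have g' : (i : ℝ) * l + T ≤ a.val := by exact_mod_cast b1'
              nlinarith
            · rw [hc]
              have b4 : a.val + T + 1 ≤ (i + 1) * l := by omega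
              have g' : (a.val : ℝ) + T + 1 ≤ (i + 1) * l := by exact_mod_cast b4
              have e2 : τ / n0 = τ * l / (n0 * l) := by field_simp
              have e3 : ((i : ℝ) + 1) / n0 = (i + 1) * l / (n0 * l) := by field_simp
              rw [e2, e3, ← add_div]
              refine div_le_div_of_nonneg_right ?_ (by positivity)
              linarith
          · have e1 : ind n0 i N a = 0 := by
              unfold ind
              rw [hdiv, if_neg]
              intro h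
              have := (Nat.div_eq_iff hl0).1 h
              have h3 : (i + 1) * l = i * l + l := by ring
              omega
            rw [e1, cut_zero hτ (Or.inr _)]
            rw [hc, div_le_div_iff₀ hn0 (by positivity)]
            have g' : ((i : ℝ) + 1) * l ≤ a.val := by exact_mod_cast g2
            nlinarith
      rw [key, sub_self]
      norm_num
  calc ∑ a : ZMod (N + 1), (ind n0 i N a - cut n0 i τ (ctr N a)) ^ 2
      ≤ ∑ a : ZMod (N + 1), (if a ∈ B then (1 : ℝ) else 0) := Finset.sum_le_sum fun a _ => hpt a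
    _ = B.card := by
        rw [Finset.sum_ite_mem, Finset.univ_inter, Finset.sum_const, nsmul_eq_mul, mul_one]
    _ ≤ 2 * T := hcard
    _ ≤ 2 * (τ * ((N : ℝ) + 1) + 1) := by
        have h1 : (l : ℝ) ≤ (N : ℝ) + 1 := by
          rw [hN1]
          have : (1 : ℝ) ≤ n0 := by exact_mod_cast hn
          nlinarith
        have h2 : τ * l ≤ τ * ((N : ℝ) + 1) := mul_le_mul_of_nonneg_left h1 hτ.le
        linarith

lemma ctr_lt (N : ℕ) (i : Fin (N + 1)) : ctr N i < 1 := by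
  unfold ctr
  have h1 : (i : ℝ) ≤ N := by exact_mod_cast Nat.lt_succ_iff.1 i.2
  rw [div_lt_one (by positivity)]
  linarith

/-- a trigonometric polynomial near the indicator -/
lemma ind_apx {n0 i : ℕ} (hn : 0 < n0) (hi : i < n0) {ρ : ℝ} (hρ : 0 < ρ) :
    ∃ P ∈ S1, (∀ x ∈ Set.Ico (0 : ℝ) 1, ‖P x‖ ≤ 2) ∧ ∀ᶠ N : ℕ in atTop, n0 ∣ N + 1 →
      ∑ a : ZMod (N + 1), ‖(ind n0 i N a : ℂ) - P (ctr N a)‖ ^ 2 ≤ ρ * ((N : ℝ) + 1) := by
  have hn0 : (0 : ℝ) < n0 := by exact_mod_cast hn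
  set τ := ρ / 16 with hτd
  have hτ : 0 < τ := by positivity
  set ε := min 1 (ρ / 4) with hεd
  have hε : 0 < ε := lt_min one_pos (by positivity)
  have e0 : cut n0 i τ 0 = 0 := cut_zero hτ (Or.inl (by positivity))
  have e1 : cut n0 i τ 1 = 0 := cut_zero hτ (Or.inr (by
    rw [div_le_one hn0]
    exact_mod_cast hi))
  obtain ⟨P, hP, hd⟩ := trig1 (cut_cont n0 i τ) (e0.trans e1.symm) hε
  refine ⟨P, hP, fun x hx => ?_, ?_⟩
  · have h1 := hd x hx
    have h2 : ‖(cut n0 i τ x : ℂ)‖ ≤ 1 := by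
      rw [Complex.norm_real, Real.norm_eq_abs, abs_of_nonneg (cut_nonneg _ _ _ _)]
      exact cut_le _ _ _ _
    have h3 : P x = (P x - cut n0 i τ x) + cut n0 i τ x := by ring
    rw [h3]
    refine (norm_add_le _ _).trans ?_
    have := min_le_left 1 (ρ / 4)
    linarith
  · have hN0 : ∀ᶠ N : ℕ in atTop, 16 / ρ ≤ N := (tendsto_natCast_atTop_atTop).eventually_ge_atTop _
    filter_upwards [hN0] with N hN hdv
    have h1 := ind_cut (i := i) hn hτ hdv
    have hN1 : (0 : ℝ) ≤ N := Nat.cast_nonneg N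
    have hin : ∀ a : ZMod (N + 1), ctr N a ∈ Set.Ico (0 : ℝ) 1 := by
      intro a
      exact ⟨(ctr_mem N a).1, ctr_lt N a⟩
    have hpt : ∀ a : ZMod (N + 1), ‖(ind n0 i N a : ℂ) - P (ctr N a)‖ ^ 2 ≤
        2 * (ind n0 i N a - cut n0 i τ (ctr N a)) ^ 2 + 2 * ε ^ 2 := by
      intro a
      have g1 := hd _ (hin a)
      have g2 : (ind n0 i N a : ℂ) - P (ctr N a) = ((ind n0 i N a - cut n0 i τ (ctr N a) : ℝ) : ℂ) -
          (P (ctr N a) - cut n0 i τ (ctr N a)) := by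
        push_cast
        ring
      have g3 : ‖(ind n0 i N a : ℂ) - P (ctr N a)‖ ≤
          |ind n0 i N a - cut n0 i τ (ctr N a)| + ε := by
        rw [g2]
        refine (norm_sub_le _ _).trans ?_
        rw [Complex.norm_real, Real.norm_eq_abs]
        linarith
      refine (pow_le_pow_left₀ (norm_nonneg _) g3 2).trans ?_
      have g4 := sq_abs (ind n0 i N a - cut n0 i τ (ctr N a))
      nlinarith [sq_nonneg (|ind n0 i N a - cut n0 i τ (ctr N a)| - ε)]
    refine (Finset.sum_le_sum fun a _ => hpt a).trans ?_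
    rw [Finset.sum_add_distrib, ← Finset.mul_sum, Finset.sum_const, Finset.card_univ, ZMod.card,
      nsmul_eq_mul]
    have h2 : ε ^ 2 ≤ ρ / 4 := by
      have h3 := min_le_left 1 (ρ / 4)
      have h4 := min_le_right 1 (ρ / 4)
      nlinarith
    have h5 : 16 ≤ ρ * N := by
      rw [div_le_iff₀ hρ] at hN
      linarith
    have h6 : ((N + 1 : ℕ) : ℝ) * (2 * ε ^ 2) ≤ ((N : ℝ) + 1) * (ρ / 2) := by
      push_cast
      nlinarith
    have h7 : τ * ((N : ℝ) + 1) = ρ / 16 * (N + 1) := rfl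
    nlinarith

/-! ### two dimensions -/

/-- approximable lattice functions -/
def Ap (n0 : ℕ) (κ Y : ℝ) (F : (N : ℕ) → ZMod (N + 1) × ZMod (N + 1) → ℂ) : Prop :=
  ∀ ρ > 0, ∃ P, Sol κ Y P ∧ ∀ᶠ N : ℕ in atTop, n0 ∣ N + 1 →
    ∑ x, ‖F N x - P (ctr N x.1) (ctr N x.2)‖ ^ 2 ≤ ρ * ((N : ℝ) + 1) ^ 2

lemma Ap.add {n0 : ℕ} {κ Y : ℝ} {F G : (N : ℕ) → ZMod (N + 1) × ZMod (N + 1) → ℂ}
    (hF : Ap n0 κ Y F) (hG : Ap n0 κ Y G) : Ap n0 κ Y fun N x => F N x + G N x := by
  intro ρ hρ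
  obtain ⟨P, sP, lP⟩ := hF (ρ / 4) (by linarith)
  obtain ⟨Q, sQ, lQ⟩ := hG (ρ / 4) (by linarith)
  refine ⟨_, sP.add sQ, ?_⟩
  filter_upwards [lP, lQ] with N h1 h2 hd
  have hpt : ∀ x : ZMod (N + 1) × ZMod (N + 1), ‖F N x + G N x -
      (P (ctr N x.1) (ctr N x.2) + Q (ctr N x.1) (ctr N x.2))‖ ^ 2 ≤
      2 * ‖F N x - P (ctr N x.1) (ctr N x.2)‖ ^ 2 + 2 * ‖G N x - Q (ctr N x.1) (ctr N x.2)‖ ^ 2 := by
    intro x
    have e : F N x + G N x - (P (ctr N x.1) (ctr N x.2) + Q (ctr N x.1) (ctr N x.2)) =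
      (F N x - P (ctr N x.1) (ctr N x.2)) + (G N x - Q (ctr N x.1) (ctr N x.2)) := by ring
    rw [e]
    refine (pow_le_pow_left₀ (norm_nonneg _) (norm_add_le _ _) 2).trans ?_
    nlinarith [sq_nonneg (‖F N x - P (ctr N x.1) (ctr N x.2)‖ -
      ‖G N x - Q (ctr N x.1) (ctr N x.2)‖)]
  refine (Finset.sum_le_sum fun x _ => hpt x).trans ?_
  rw [Finset.sum_add_distrib, ← Finset.mul_sum, ← Finset.mul_sum]
  have := h1 hd
  have := h2 hd
  linarith

lemma Ap.smul {n0 : ℕ} {κ Y : ℝ} {F : (N : ℕ) → ZMod (N + 1) × ZMod (N + 1) → ℂ}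
    (hF : Ap n0 κ Y F) (a : ℂ) : Ap n0 κ Y fun N x => a * F N x := by
  intro ρ hρ
  have ha : 0 < ‖a‖ ^ 2 + 1 := by positivity
  obtain ⟨P, sP, lP⟩ := hF (ρ / (‖a‖ ^ 2 + 1)) (div_pos hρ ha)
  refine ⟨_, sP.smul a, ?_⟩
  filter_upwards [lP] with N h1 hd
  have hpt : ∀ x : ZMod (N + 1) × ZMod (N + 1), ‖a * F N x - a * P (ctr N x.1) (ctr N x.2)‖ ^ 2 =
      ‖a‖ ^ 2 * ‖F N x - P (ctr N x.1) (ctr N x.2)‖ ^ 2 := by
    intro x
    rw [← mul_sub, norm_mul, mul_pow]
  simp only [hpt]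
  rw [← Finset.mul_sum]
  have h2 := h1 hd
  have h3 : 0 ≤ ρ / (‖a‖ ^ 2 + 1) * ((N : ℝ) + 1) ^ 2 := by positivity
  calc ‖a‖ ^ 2 * ∑ x, ‖F N x - P (ctr N x.1) (ctr N x.2)‖ ^ 2
      ≤ ‖a‖ ^ 2 * (ρ / (‖a‖ ^ 2 + 1) * ((N : ℝ) + 1) ^ 2) :=
        mul_le_mul_of_nonneg_left h2 (by positivity)
    _ ≤ (‖a‖ ^ 2 + 1) * (ρ / (‖a‖ ^ 2 + 1) * ((N : ℝ) + 1) ^ 2) := by
        refine mul_le_mul_of_nonneg_right ?_ h3
        linarith
    _ = _ := by field_simp

lemma ap_ind {n0 i j : ℕ} (hn : 0 < n0) (hi : i < n0) (hj : j < n0) {κ Y : ℝ} (hκ : 0 < κ)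
    (hY : 0 < Y) : Ap n0 κ Y fun N x => (ind n0 i N x.1 : ℂ) * (ind n0 j N x.2 : ℂ) := by
  intro ρ hρ
  obtain ⟨P, sP, bP, lP⟩ := ind_apx hn hi (ρ := ρ / 10) (by linarith)
  obtain ⟨Q, sQ, bQ, lQ⟩ := ind_apx hn hj (ρ := ρ / 10) (by linarith)
  refine ⟨_, sol_mul hκ hY sP sQ, ?_⟩
  filter_upwards [lP, lQ] with N h1 h2 hd
  have hin : ∀ a : ZMod (N + 1), ctr N a ∈ Set.Ico (0 : ℝ) 1 := by
    intro a
    exact ⟨(ctr_mem N a).1, ctr_lt N a⟩
  have hpt : ∀ x : ZMod (N + 1) × ZMod (N + 1), ‖(ind n0 i N x.1 : ℂ) * (ind n0 j N x.2 : ℂ) -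
      P (ctr N x.1) * Q (ctr N x.2)‖ ^ 2 ≤
      2 * ‖(ind n0 i N x.1 : ℂ) - P (ctr N x.1)‖ ^ 2 +
        8 * ‖(ind n0 j N x.2 : ℂ) - Q (ctr N x.2)‖ ^ 2 := by
    intro x
    have e : (ind n0 i N x.1 : ℂ) * (ind n0 j N x.2 : ℂ) - P (ctr N x.1) * Q (ctr N x.2) =
      ((ind n0 i N x.1 : ℂ) - P (ctr N x.1)) * (ind n0 j N x.2 : ℂ) +
      P (ctr N x.1) * ((ind n0 j N x.2 : ℂ) - Q (ctr N x.2)) := by ring
    have b1 : ‖(ind n0 j N x.2 : ℂ)‖ ≤ 1 := by
      rw [Complex.norm_real, Real.norm_eq_abs, abs_of_nonneg (ind_nonneg _ _ _ _)]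
      exact ind_le _ _ _ _
    have b2 := bP _ (hin x.1)
    set A := ‖(ind n0 i N x.1 : ℂ) - P (ctr N x.1)‖ with hA
    set B := ‖(ind n0 j N x.2 : ℂ) - Q (ctr N x.2)‖ with hB
    have g : ‖(ind n0 i N x.1 : ℂ) * (ind n0 j N x.2 : ℂ) - P (ctr N x.1) * Q (ctr N x.2)‖ ≤
        A + 2 * B := by
      rw [e]
      refine (norm_add_le _ _).trans ?_
      rw [norm_mul, norm_mul, ← hA, ← hB]
      have k1 : A * ‖(ind n0 j N x.2 : ℂ)‖ ≤ A * 1 :=
        mul_le_mul_of_nonneg_left b1 (norm_nonneg _)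
      have k2 : ‖P (ctr N x.1)‖ * B ≤ 2 * B := mul_le_mul_of_nonneg_right b2 (norm_nonneg _)
      linarith
    refine (pow_le_pow_left₀ (norm_nonneg _) g 2).trans ?_
    nlinarith [sq_nonneg (A - 2 * B)]
  refine (Finset.sum_le_sum fun x _ => hpt x).trans ?_
  rw [Finset.sum_add_distrib, ← Finset.mul_sum, ← Finset.mul_sum, Fintype.sum_prod_type,
    Fintype.sum_prod_type_right]
  simp only [Finset.sum_const, Finset.card_univ, ZMod.card, nsmul_eq_mul]
  rw [← Finset.mul_sum, ← Finset.mul_sum]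
  have g1 := h1 hd
  have g2 := h2 hd
  have hN1 : (0 : ℝ) ≤ ((N + 1 : ℕ) : ℝ) := Nat.cast_nonneg _
  have g3 := mul_le_mul_of_nonneg_left g1 hN1
  have g4 := mul_le_mul_of_nonneg_left g2 hN1
  push_cast at g3 g4 ⊢
  nlinarith

lemma Ap.sum {n0 : ℕ} {κ Y : ℝ} (hκ : 0 < κ) (hY : 0 < Y) {ι : Type*} (s : Finset ι)
    {F : ι → (N : ℕ) → ZMod (N + 1) × ZMod (N + 1) → ℂ} (hF : ∀ i ∈ s, Ap n0 κ Y (F i)) :
    Ap n0 κ Y fun N x => ∑ i ∈ s, F i N x := by
  classical
  induction s using Finset.induction_on with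
  | empty =>
    intro ρ hρ
    refine ⟨_, (sol_ex hκ hY 0 0).smul 0, Filter.Eventually.of_forall fun N _ => ?_⟩
    simp
    positivity
  | insert a s ha ih =>
    have h1 := (hF a (Finset.mem_insert_self _ _)).add
      (ih fun i hi => hF i (Finset.mem_insert_of_mem hi))
    simp only [Finset.sum_insert ha]
    exact h1

/-- **functions constant on the cells are approximable** -/
theorem ap_cell {n0 : ℕ} (hn : 0 < n0) {κ Y : ℝ} (hκ : 0 < κ) (hY : 0 < Y) (f : ℕ → ℕ → ℝ) :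
    Ap n0 κ Y fun N x => (f (x.1.val / ((N + 1) / n0)) (x.2.val / ((N + 1) / n0)) : ℂ) := by
  have h1 : Ap n0 κ Y fun N x => ∑ i ∈ Finset.range n0, ∑ j ∈ Finset.range n0,
      (f i j : ℂ) * ((ind n0 i N x.1 : ℂ) * (ind n0 j N x.2 : ℂ)) := by
    refine Ap.sum hκ hY _ fun i hi => ?_
    refine Ap.sum hκ hY _ fun j hj => ?_
    exact (ap_ind hn (Finset.mem_range.1 hi) (Finset.mem_range.1 hj) hκ hY).smul _
  intro ρ hρ
  obtain ⟨P, sP, lP⟩ := h1 ρ hρ
  refine ⟨P, sP, ?_⟩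
  filter_upwards [lP] with N h hd
  have h2 := h hd
  have hval : ∀ a : ZMod (N + 1), a.val / ((N + 1) / n0) < n0 := by
    intro a
    obtain ⟨l, hl⟩ := hd
    have hdiv : (N + 1) / n0 = l := by
      rw [hl]
      exact Nat.mul_div_cancel_left l hn
    have hl0 : 0 < l := by
      rcases Nat.eq_zero_or_pos l with h | h
      · rw [h, mul_zero] at hl
        omega
      · exact h
    rw [hdiv, Nat.div_lt_iff_lt_mul hl0, ← hl]
    exact ZMod.val_lt a
  refine le_trans (le_of_eq ?_) h2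
  refine Finset.sum_congr rfl fun x _ => ?_
  congr 3
  rw [Finset.sum_eq_single_of_mem (x.1.val / ((N + 1) / n0)) (Finset.mem_range.2 (hval _)),
    Finset.sum_eq_single_of_mem (x.2.val / ((N + 1) / n0)) (Finset.mem_range.2 (hval _))]
  · unfold ind
    simp
  · intro j _ hj
    have : ind n0 j N x.2 = 0 := if_neg fun h => hj h.symm
    rw [this]
    simp
  · intro i _ hi
    have : ind n0 i N x.1 = 0 := if_neg fun h => hi h.symm
    rw [this]
    simp

end Vale.Agent.P159.H30
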