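import Vale.Agent.P159.H640.Dt16

/-!
P159 / V (helper30): CRK, part 0: the sizes of a window (`x = m - n`, `k = r1 - n`,
`8 k ≤ x ≤ 10 k + 9`, `w / 20 ≤ x ≤ 4 w`) and the pure numbers.
-/

namespace Vale.Agent.P159.H30.Crk

open Vale.Agent.P159.H972 (lg)
open Vale.Agent.P159.H640 (lg_lo lg_hi sm_rpow)

noncomputable section

section sizes

variable {x k w : ℕ} {e thp : ℝ}

lemma X_one (x : ℕ) : (1 : ℝ) ≤ 2 ^ x := one_le_pow₀ one_le_two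

lemma X_lo (he : 0 < e) (h : lg thp e ≤ 20 * x) : e ^ (-(thp / 20)) ≤ (2 : ℝ) ^ x := by
  have h1 := lg_lo (c := thp) he
  have h2 : (2 : ℝ) ^ lg thp e ≤ ((2 : ℝ) ^ x) ^ 20 := by
    rw [← pow_mul, mul_comm x 20]
    exact pow_le_pow_right₀ one_le_two h
  have h3 : (e ^ (-(thp / 20))) ^ 20 ≤ ((2 : ℝ) ^ x) ^ 20 := by
    have e1 : (e ^ (-(thp / 20))) ^ 20 = e ^ (-thp) := by
      rw [← Real.rpow_natCast, ← Real.rpow_mul he.le]
      congr 1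
      push_cast
      ring
    rw [e1]
    exact h1.trans h2
  exact le_of_pow_le_pow_left₀ (by norm_num) (by positivity) h3

lemma X_hi (hthp : 0 ≤ thp) (he : 0 < e) (he1 : e ≤ 1) (h : x ≤ 4 * lg thp e) :
    (2 : ℝ) ^ x ≤ 16 * e ^ (-(4 * thp)) := by
  have h1 := lg_hi hthp he he1
  calc (2 : ℝ) ^ x ≤ 2 ^ (4 * lg thp e) := pow_le_pow_right₀ one_le_two h
    _ = (2 ^ lg thp e) ^ 4 := by rw [mul_comm, pow_mul]
    _ ≤ (2 * e ^ (-thp)) ^ 4 := pow_le_pow_left₀ (by positivity) h1 4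
    _ = 16 * e ^ (-(4 * thp)) := by
      have e1 : (e ^ (-thp)) ^ 4 = e ^ (-(4 * thp)) := by
        rw [← Real.rpow_natCast, ← Real.rpow_mul he.le]
        congr 1
        push_cast
        ring
      rw [mul_pow, e1]
      norm_num

lemma k_four (h : 8 * k ≤ x) : (4 : ℝ) ^ k ≤ ((2 : ℝ) ^ x) ^ (1 / 4 : ℝ) := by
  have h1 : (4 : ℝ) ^ k = ((2 : ℝ) ^ (8 * k)) ^ (1 / 4 : ℝ) := by
    have e1 : (2 : ℝ) ^ (8 * k) = ((4 : ℝ) ^ k) ^ 4 := by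
      rw [← pow_mul, show (4 : ℝ) = 2 ^ 2 by norm_num, ← pow_mul]
      congr 1
      ring
    rw [e1, ← Real.rpow_natCast ((4 : ℝ) ^ k) 4, ← Real.rpow_mul (by positivity)]
    norm_num
  rw [h1]
  exact Real.rpow_le_rpow (by positivity) (pow_le_pow_right₀ one_le_two h) (by norm_num)

lemma k_two (h : 8 * k ≤ x) : (2 : ℝ) ^ k ≤ ((2 : ℝ) ^ x) ^ (1 / 8 : ℝ) := by
  have h1 : (2 : ℝ) ^ k = ((2 : ℝ) ^ (8 * k)) ^ (1 / 8 : ℝ) := by
    have e1 : (2 : ℝ) ^ (8 * k) = ((2 : ℝ) ^ k) ^ 8 := by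
      rw [← pow_mul]
      congr 1
      ring
    rw [e1, ← Real.rpow_natCast ((2 : ℝ) ^ k) 8, ← Real.rpow_mul (by positivity)]
    norm_num
  rw [h1]
  exact Real.rpow_le_rpow (by positivity) (pow_le_pow_right₀ one_le_two h) (by norm_num)

lemma sq2 (x : ℕ) : (√2 : ℝ) ^ x = ((2 : ℝ) ^ x) ^ (1 / 2 : ℝ) := by
  rw [Real.sqrt_eq_rpow, ← Real.rpow_natCast, ← Real.rpow_mul (by norm_num), mul_comm,
    Real.rpow_mul (by norm_num), Real.rpow_natCast]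

/-- `2 ^ (-(x / q))` -/
lemma two_rpow (x : ℕ) (q : ℝ) : (2 : ℝ) ^ (-((x : ℝ) / q)) = ((2 : ℝ) ^ x) ^ (-(1 / q)) := by
  rw [← Real.rpow_natCast, ← Real.rpow_mul (by norm_num)]
  congr 1
  ring

/-- the torus of the zero background relation is admissible from below -/
lemma kE_le {th : ℝ} (hth : 0 ≤ th) (he : 0 < e) (he1 : e ≤ 1) (h1 : lg thp e ≤ 20 * x)
    (h2 : x ≤ 10 * k + 9) (hn : 2 ^ 19 * e ^ (thp / 20 - 10 * th) ≤ 1) : lg th e ≤ k := by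
  have a1 := X_lo he h1
  have a2 := lg_hi hth he he1
  have a3 : (2 : ℝ) ^ x ≤ 2 ^ 9 * ((2 : ℝ) ^ k) ^ 10 := by
    rw [← pow_mul, ← pow_add]
    exact pow_le_pow_right₀ one_le_two (by omega)
  have a4 : ((2 : ℝ) ^ lg th e) ^ 10 ≤ 2 ^ 10 * e ^ (-(10 * th)) := by
    calc ((2 : ℝ) ^ lg th e) ^ 10 ≤ (2 * e ^ (-th)) ^ 10 := pow_le_pow_left₀ (by positivity) a2 10
      _ = _ := by
        have e1 : (e ^ (-th)) ^ 10 = e ^ (-(10 * th)) := by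
          rw [← Real.rpow_natCast, ← Real.rpow_mul he.le]
          congr 1
          push_cast
          ring
        rw [mul_pow, e1]
  have a5 : 2 ^ 10 * e ^ (-(10 * th)) ≤ (2 ^ 9)⁻¹ * e ^ (-(thp / 20)) := by
    have e1 : e ^ (thp / 20 - 10 * th) * e ^ (-(thp / 20)) = e ^ (-(10 * th)) := by
      rw [← Real.rpow_add he]
      congr 1
      ring
    have h3 := mul_le_mul_of_nonneg_right hn (Real.rpow_nonneg he.le (-(thp / 20)))
    rw [mul_assoc, e1, one_mul] at h3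
    have : (2 : ℝ) ^ 19 = 2 ^ 9 * 2 ^ 10 := by norm_num
    rw [this, mul_assoc] at h3
    rw [inv_mul_eq_div, le_div_iff₀ (by norm_num)]
    linarith
  have a6 : ((2 : ℝ) ^ lg th e) ^ 10 ≤ ((2 : ℝ) ^ k) ^ 10 := by
    refine a4.trans (a5.trans ?_)
    rw [inv_mul_eq_div, div_le_iff₀ (by norm_num)]
    linarith
  have a7 := le_of_pow_le_pow_left₀ (by norm_num) (by positivity) a6
  exact (pow_le_pow_iff_right₀ one_lt_two).1 a7

end sizes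

/-! ### the numbers of the zero background relation -/

/-- the conditions on `e` -/
structure Nz (C thp th c1 e : ℝ) : Prop where
  a1 : 12 * C * e ^ (thp / 400) ≤ 1
  a2 : 144 * e ^ (2 / 3 * thp) ≤ 1
  a3 : 2 * C * e ^ (1 - thp / 2) ≤ 1
  a4 : 2 ^ 29 * e ^ (thp / 20) ≤ 1
  a5 : 2 ^ 19 * e ^ (thp / 20 - 10 * th) ≤ 1
  a6 : 8 * e ^ (20 / 39 - 21 / 20 * thp) ≤ 1
  a7 : (5 + 6 / c1) * e ^ c1 ≤ 2
  a8 : e ≤ 1 / 4

theorem nz_ex {C thp th c1 : ℝ} (hthp : 0 < thp) (hthp1 : thp ≤ 1 / 10) (hth : 400 * th ≤ thp)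
    (hc1 : 0 < c1) : ∃ E0 : ℝ, 0 < E0 ∧ ∀ e, 0 < e → e ≤ E0 → Nz C thp th c1 e := by
  obtain ⟨e1, p1, n1⟩ := sm_rpow (s := thp / 400) (A := 12 * C) (by positivity) one_pos
  obtain ⟨e2, p2, n2⟩ := sm_rpow (s := 2 / 3 * thp) (A := 144) (by positivity) one_pos
  obtain ⟨e3, p3, n3⟩ := sm_rpow (s := 1 - thp / 2) (A := 2 * C) (by linarith) one_pos
  obtain ⟨e4, p4, n4⟩ := sm_rpow (s := thp / 20) (A := 2 ^ 29) (by positivity) one_pos
  obtain ⟨e5, p5, n5⟩ := sm_rpow (s := thp / 20 - 10 * th) (A := 2 ^ 19) (by linarith) one_pos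
  obtain ⟨e6, p6, n6⟩ := sm_rpow (s := 20 / 39 - 21 / 20 * thp) (A := 8) (by linarith) one_pos
  obtain ⟨e7, p7, n7⟩ := sm_rpow (s := c1) (A := 5 + 6 / c1) hc1 two_pos
  refine ⟨min (1 / 4) (min e1 (min e2 (min e3 (min e4 (min e5 (min e6 e7)))))), by positivity,
    fun e he hle => ?_⟩
  simp only [le_min_iff] at hle
  obtain ⟨g0, g1, g2, g3, g4, g5, g6, g7⟩ := hle
  exact ⟨n1 e he g1, n2 e he g2, n3 e he g3, n4 e he g4, n5 e he g5, n6 e he g6, n7 e he g7, g0⟩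

section num

variable {C thp th c1 e y : ℝ} {x k L : ℕ}

/-- the window against the number of levels of the cells -/
lemma nz_lg (h : Nz C thp th c1 e) (hthp : 0 < thp) (hthp1 : thp ≤ 1) (he : 0 < e)
    (hc1 : 0 < c1) : (4 * lg thp e : ℝ) + 1 ≤ 2 * e ^ (-(2 * c1)) := by
  have he1 : e ≤ 1 := h.a8.trans (by norm_num)
  have hl0 : 0 ≤ Real.log (1 / e) := Real.log_nonneg (by rw [le_div_iff₀ he]; linarith)
  have h1 : (lg thp e : ℝ) ≤ thp * Real.logb 2 (1 / e) + 1 :=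
    (Nat.ceil_lt_add_one (mul_nonneg hthp.le
      (Real.logb_nonneg one_lt_two (by rw [le_div_iff₀ he]; linarith)))).le
  have h2 : Real.log (1 / e) ≤ 1 / c1 * e ^ (-c1) := by
    have h10 := Real.log_le_rpow_div (x := 1 / e) (by positivity) hc1
    refine h10.trans (le_of_eq ?_)
    rw [one_div e, Real.inv_rpow he.le, ← Real.rpow_neg he.le]
    ring
  have h3 : Real.logb 2 (1 / e) ≤ 3 / 2 * Real.log (1 / e) := by
    unfold Real.logb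
    have hl2 := Real.log_two_gt_d9
    rw [div_le_iff₀ (by linarith)]
    nlinarith
  have h4 : thp * Real.logb 2 (1 / e) ≤ 1 * (3 / 2 * (1 / c1 * e ^ (-c1))) := by
    refine mul_le_mul hthp1 (h3.trans (by linarith)) ?_ zero_le_one
    exact Real.logb_nonneg one_lt_two (by rw [le_div_iff₀ he]; linarith)
  have h5 : 1 ≤ e ^ (-c1) := Real.one_le_rpow_of_pos_of_le_one_of_nonpos he he1 (by linarith)
  have e1 : e ^ c1 * e ^ (-(2 * c1)) = e ^ (-c1) := by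
    rw [← Real.rpow_add he]
    congr 1
    ring
  have h6 := mul_le_mul_of_nonneg_right h.a7 (Real.rpow_nonneg he.le (-(2 * c1)))
  rw [mul_assoc, e1] at h6
  have e2 : (5 + 6 / c1) * e ^ (-c1) = 5 * e ^ (-c1) + 6 * (1 / c1 * e ^ (-c1)) := by ring
  rw [e2] at h6
  linarith

/-- `C (L + x + 1)` against `X ^ (1 / 10)` -/
lemma nz_L (h : Nz C thp th c1 e) (hC : 0 ≤ C) (hthp : 0 < thp) (hthp1 : thp ≤ 1)
    (he : 0 < e) (hc1 : 0 < c1) (hc : 800 * c1 ≤ thp)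
    (hw1 : lg thp e ≤ 20 * x) (hw2 : x ≤ 4 * lg thp e) (hL : (L : ℝ) ≤ e ^ (-(2 * c1))) :
    4 * (C * ((L : ℝ) + x + 1)) ≤ ((2 : ℝ) ^ x) ^ (1 / 10 : ℝ) := by
  have hlg := nz_lg h hthp hthp1 he hc1
  have he1 : e ≤ 1 := h.a8.trans (by norm_num)
  have a1 := X_lo he hw1
  have h1 : (x : ℝ) ≤ 4 * lg thp e := by exact_mod_cast hw2
  have h2 : (L : ℝ) + x + 1 ≤ 3 * e ^ (-(2 * c1)) := by linarith
  have h3 : (e ^ (-(thp / 20))) ^ (1 / 10 : ℝ) ≤ ((2 : ℝ) ^ x) ^ (1 / 10 : ℝ) :=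
    Real.rpow_le_rpow (by positivity) a1 (by norm_num)
  rw [← Real.rpow_mul he.le] at h3
  refine le_trans ?_ h3
  have h4 : e ^ (-(2 * c1)) ≤ e ^ (-(thp / 400)) :=
    Real.rpow_le_rpow_of_exponent_ge he he1 (by linarith)
  have e1 : e ^ (-(thp / 20) * (1 / 10)) = e ^ (-(thp / 400)) * e ^ (-(thp / 400)) := by
    rw [← Real.rpow_add he]
    congr 1
    ring
  have e2 : e ^ (thp / 400) * e ^ (-(thp / 400)) = 1 := by
    rw [← Real.rpow_add he, add_neg_cancel, Real.rpow_zero]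
  have hp : 0 < e ^ (-(thp / 400)) := Real.rpow_pos_of_pos he _
  have h5 : 12 * C ≤ e ^ (-(thp / 400)) := by
    have := mul_le_mul_of_nonneg_right h.a1 hp.le
    rwa [mul_assoc, e2, mul_one, one_mul] at this
  rw [e1]
  calc 4 * (C * ((L : ℝ) + x + 1)) ≤ 4 * (C * (3 * e ^ (-(2 * c1)))) := by gcongr
    _ = 12 * C * e ^ (-(2 * c1)) := by ring
    _ ≤ e ^ (-(thp / 400)) * e ^ (-(thp / 400)) := by
        gcongr

/-- the error of the zero background relation -/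
lemma nz_err (h : Nz C thp th c1 e) (hC : 0 ≤ C) (hthp : 0 < thp) (hthp1 : thp ≤ 1)
    (he : 0 < e) (hw2 : x ≤ 4 * lg thp e) (hk : 8 * k ≤ x)
    (hX : 4 * (C * ((L : ℝ) + x + 1)) ≤ ((2 : ℝ) ^ x) ^ (1 / 10 : ℝ)) :
    2 * 4 ^ k * (C * (((L : ℝ) + x + 1) / (√2) ^ x) + 4 * e ^ (2 * thp) + 8 * e ^ (2 * thp)) ≤
      (2 : ℝ) ^ (-((x : ℝ) / 19)) := by
  have he1 : e ≤ 1 := h.a8.trans (by norm_num)
  set X : ℝ := (2 : ℝ) ^ x with hXd
  have hX1 : 1 ≤ X := X_one x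
  have hX0 : 0 < X := by linarith
  have h1 := k_four hk
  rw [← hXd] at h1
  rw [sq2, two_rpow, ← hXd]
  have h2 := X_hi hthp.le he he1 hw2
  rw [← hXd] at h2
  have hr : ∀ a b : ℝ, X ^ a * X ^ b = X ^ (a + b) := fun a b => (Real.rpow_add hX0 a b).symm
  -- first part
  have p1 : 2 * 4 ^ k * (C * (((L : ℝ) + x + 1) / X ^ (1 / 2 : ℝ))) ≤ 1 / 2 * X ^ (-(1 / 19 : ℝ)) := by
    have e1 : 2 * 4 ^ k * (C * (((L : ℝ) + x + 1) / X ^ (1 / 2 : ℝ))) =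
        1 / 2 * (4 ^ k * (4 * (C * ((L : ℝ) + x + 1))) * X ^ (-(1 / 2) : ℝ)) := by
      rw [Real.rpow_neg hX0.le]
      ring
    rw [e1]
    have h3 : (4 : ℝ) ^ k * (4 * (C * ((L : ℝ) + x + 1))) * X ^ (-(1 / 2) : ℝ) ≤
        X ^ (1 / 4 : ℝ) * X ^ (1 / 10 : ℝ) * X ^ (-(1 / 2) : ℝ) := by
      gcongr
    rw [hr, hr] at h3
    have h4 : X ^ (1 / 4 + 1 / 10 + -(1 / 2) : ℝ) ≤ X ^ (-(1 / 19 : ℝ)) :=
      Real.rpow_le_rpow_of_exponent_le hX1 (by norm_num)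
    linarith
  -- second part
  have p2 : 2 * 4 ^ k * (4 * e ^ (2 * thp) + 8 * e ^ (2 * thp)) ≤ 1 / 2 * X ^ (-(1 / 19 : ℝ)) := by
    have h3 : X ^ (1 / 3 : ℝ) ≤ 3 * e ^ (-(4 / 3 * thp)) := by
      have h4 : X ^ (1 / 3 : ℝ) ≤ (16 * e ^ (-(4 * thp))) ^ (1 / 3 : ℝ) :=
        Real.rpow_le_rpow hX0.le h2 (by norm_num)
      rw [Real.mul_rpow (by norm_num) (by positivity), ← Real.rpow_mul he.le] at h4
      have h5 : (16 : ℝ) ^ (1 / 3 : ℝ) ≤ 3 := by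
        have : (16 : ℝ) ^ (1 / 3 : ℝ) ≤ (27 : ℝ) ^ (1 / 3 : ℝ) :=
          Real.rpow_le_rpow (by norm_num) (by norm_num) (by norm_num)
        refine this.trans (le_of_eq ?_)
        rw [show (27 : ℝ) = 3 ^ (3 : ℝ) by norm_num, ← Real.rpow_mul (by norm_num)]
        norm_num
      have e1 : -(4 * thp) * (1 / 3) = -(4 / 3 * thp) := by ring
      rw [e1] at h4
      exact h4.trans (mul_le_mul_of_nonneg_right h5 (by positivity))
    have h4 : (4 : ℝ) ^ k * X ^ (1 / 19 : ℝ) ≤ X ^ (1 / 3 : ℝ) := by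
      calc (4 : ℝ) ^ k * X ^ (1 / 19 : ℝ) ≤ X ^ (1 / 4 : ℝ) * X ^ (1 / 19 : ℝ) := by gcongr
        _ = X ^ (1 / 4 + 1 / 19 : ℝ) := hr _ _
        _ ≤ X ^ (1 / 3 : ℝ) := Real.rpow_le_rpow_of_exponent_le hX1 (by norm_num)
    have h5 : 48 * e ^ (2 * thp) * (4 ^ k * X ^ (1 / 19 : ℝ)) ≤ 1 := by
      calc 48 * e ^ (2 * thp) * (4 ^ k * X ^ (1 / 19 : ℝ))
          ≤ 48 * e ^ (2 * thp) * (3 * e ^ (-(4 / 3 * thp))) := by
            have := h4.trans h3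
            gcongr
        _ = 144 * (e ^ (2 * thp) * e ^ (-(4 / 3 * thp))) := by ring
        _ = 144 * e ^ (2 / 3 * thp) := by
            rw [← Real.rpow_add he]
            congr 2
            ring
        _ ≤ 1 := h.a2
    have e2 : X ^ (1 / 19 : ℝ) * X ^ (-(1 / 19 : ℝ)) = 1 := by
      rw [hr, add_neg_cancel, Real.rpow_zero]
    have hp : 0 < X ^ (-(1 / 19 : ℝ)) := Real.rpow_pos_of_pos hX0 _
    have h6 := mul_le_mul_of_nonneg_right h5 hp.le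
    have e3 : 48 * e ^ (2 * thp) * (4 ^ k * X ^ (1 / 19 : ℝ)) * X ^ (-(1 / 19 : ℝ)) =
        48 * e ^ (2 * thp) * 4 ^ k := by
      calc 48 * e ^ (2 * thp) * (4 ^ k * X ^ (1 / 19 : ℝ)) * X ^ (-(1 / 19 : ℝ))
          = 48 * e ^ (2 * thp) * 4 ^ k * (X ^ (1 / 19 : ℝ) * X ^ (-(1 / 19 : ℝ))) := by ring
        _ = _ := by rw [e2, mul_one]
    rw [e3] at h6
    linarith
  calc 2 * 4 ^ k * (C * (((L : ℝ) + x + 1) / X ^ (1 / 2 : ℝ)) + 4 * e ^ (2 * thp) +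
        8 * e ^ (2 * thp))
      = 2 * 4 ^ k * (C * (((L : ℝ) + x + 1) / X ^ (1 / 2 : ℝ))) +
        2 * 4 ^ k * (4 * e ^ (2 * thp) + 8 * e ^ (2 * thp)) := by ring
    _ ≤ _ := by linarith

/-- the condition of the zero background relation -/
lemma nz_half (hX : 4 * (C * ((L : ℝ) + x + 1)) ≤ ((2 : ℝ) ^ x) ^ (1 / 10 : ℝ)) :
    C * (((L : ℝ) + x + 1) / (√2) ^ x) ≤ 1 / 2 := by
  rw [sq2]
  set X : ℝ := (2 : ℝ) ^ x with hXd
  have hX1 : 1 ≤ X := X_one x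
  have hX0 : 0 < X := by linarith
  have h1 : X ^ (1 / 10 : ℝ) ≤ X ^ (1 / 2 : ℝ) :=
    Real.rpow_le_rpow_of_exponent_le hX1 (by norm_num)
  have hp : 0 < X ^ (1 / 2 : ℝ) := Real.rpow_pos_of_pos hX0 _
  rw [← mul_div_assoc, div_le_iff₀ hp]
  linarith

/-- the finite size term -/
lemma nz_fs (h : Nz C thp th c1 e) (hC : 0 ≤ C) (hthp : 0 < thp) (hthp1 : thp ≤ 1)
    (he : 0 < e) (hy : 0 < y) (hy1 : y ≤ 1) (hw2 : x ≤ 4 * lg thp e) (hk : 8 * k ≤ x)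
    {lam c C1 : ℝ} (hlam : 0 < lam) (hs : lam ≤ (e * y) ^ C1) (hc : 0 < c) (hcC : 2 ≤ c * C1) :
    C * 2 ^ k * (lam ^ 2) ^ c ≤ (e * y) ^ 2 * e := by
  have he1 : e ≤ 1 := h.a8.trans (by norm_num)
  have hx0 : 0 < e * y := by positivity
  have hx1 : e * y ≤ 1 := mul_le_one₀ he1 hy.le hy1
  have h1 : (lam ^ 2) ^ c ≤ (e * y) ^ (4 : ℝ) := by
    have h2 : lam ^ 2 ≤ ((e * y) ^ C1) ^ 2 := pow_le_pow_left₀ hlam.le hs 2
    have h3 : (lam ^ 2) ^ c ≤ (((e * y) ^ C1) ^ 2) ^ c :=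
      Real.rpow_le_rpow (by positivity) h2 hc.le
    refine h3.trans ?_
    rw [← Real.rpow_natCast ((e * y) ^ C1) 2, ← Real.rpow_mul hx0.le, ← Real.rpow_mul hx0.le]
    exact Real.rpow_le_rpow_of_exponent_ge hx0 hx1 (by push_cast; linarith)
  have h2 : (2 : ℝ) ^ k ≤ 2 * e ^ (-(thp / 2)) := by
    refine (k_two hk).trans ?_
    have h3 := X_hi hthp.le he he1 hw2
    have h4 : ((2 : ℝ) ^ x) ^ (1 / 8 : ℝ) ≤ (16 * e ^ (-(4 * thp))) ^ (1 / 8 : ℝ) :=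
      Real.rpow_le_rpow (by positivity) h3 (by norm_num)
    rw [Real.mul_rpow (by norm_num) (by positivity), ← Real.rpow_mul he.le] at h4
    have h5 : (16 : ℝ) ^ (1 / 8 : ℝ) ≤ 2 := by
      have : (16 : ℝ) ^ (1 / 8 : ℝ) ≤ (256 : ℝ) ^ (1 / 8 : ℝ) :=
        Real.rpow_le_rpow (by norm_num) (by norm_num) (by norm_num)
      refine this.trans (le_of_eq ?_)
      rw [show (256 : ℝ) = 2 ^ (8 : ℝ) by norm_num, ← Real.rpow_mul (by norm_num)]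
      norm_num
    have e1 : -(4 * thp) * (1 / 8) = -(thp / 2) := by ring
    rw [e1] at h4
    exact h4.trans (mul_le_mul_of_nonneg_right h5 (by positivity))
  have h3 : (e * y) ^ (4 : ℝ) = (e * y) ^ 2 * (e * y) ^ 2 := by
    rw [show (4 : ℝ) = ((4 : ℕ) : ℝ) by norm_num, Real.rpow_natCast]
    ring
  have h4 : (e * y) ^ 2 ≤ e ^ 2 := by
    rw [mul_pow]
    exact mul_le_of_le_one_right (by positivity) (pow_le_one₀ hy.le hy1)
  have e2 : e ^ (1 - thp / 2) * e = e ^ (-(thp / 2)) * e ^ 2 := by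
    have e3 : e ^ (1 - thp / 2) = e ^ (-(thp / 2)) * e := by
      have := Real.rpow_add he (-(thp / 2)) 1
      rw [Real.rpow_one] at this
      rw [← this]
      congr 1
      ring
    rw [e3]
    ring
  calc C * 2 ^ k * (lam ^ 2) ^ c ≤ C * (2 * e ^ (-(thp / 2))) * ((e * y) ^ 2 * (e * y) ^ 2) := by
        rw [h3] at h1
        gcongr
    _ ≤ C * (2 * e ^ (-(thp / 2))) * ((e * y) ^ 2 * e ^ 2) := by gcongr
    _ = (e * y) ^ 2 * (2 * C * e ^ (1 - thp / 2)) * e := by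
        linear_combination (-(2 * C * (e * y) ^ 2)) * e2
    _ ≤ (e * y) ^ 2 * 1 * e := by
        have := h.a3
        gcongr
    _ = _ := by ring

end num

end

end Vale.Agent.P159.H30.Crk
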