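import Vale.Agent.P159.H30.St8r
import Vale.Agent.P159.H447.MassH
import Vale.Agent.P159.H447.MassF
import Vale.Agent.P159.H963.NeuG
import Vale.Agent.P159.H963.NeuI

/-!
START, part D0 (helper30): the fourth cumulant is controlled by the non-quadratic part `R`
of the free energy at one finite source; the neutral model is controlled by the integer model.
-/

namespace Vale.Agent.P159.H30

open Finset Matrix MeasureTheory
open Vale.Agent.P159.TM.H104 (EM Ex Cv K3 Lg li nh Gr)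
open Vale.Agent.P159.H37

lemma cosh_ge4 (x : ℝ) : 1 + x ^ 2 / 2 + x ^ 4 / 24 ≤ Real.cosh x := by
  have h := Real.hasSum_cosh x
  have h1 := sum_le_hasSum (Finset.range 3) (fun n _ => by
    rw [pow_mul]
    positivity) h
  simp only [Finset.sum_range_succ, Finset.sum_range_zero, Nat.factorial] at h1
  norm_num at h1
  linarith

section K4

variable {V : Type*} [Fintype V] {μ : (V → ℤ) → ℝ}

/-- the source term as a hyperbolic cosine -/
lemma Zs_ge (hμ : EM μ) (he : Ev μ) (J : V → ℝ) {F : (V → ℤ) → ℝ} (hF : Gr F)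
    (h : ∀ h : V → ℤ, F h ≤ Real.cosh (li J h)) : TM.H104.T μ 0 F ≤ Zs μ J := by
  have h1 : Zs μ (-J) = Zs μ J := H37.Zs_neg he J
  have hs1 : Summable fun h : V → ℤ => 1 * μ h * Real.exp (li J h) :=
    hμ.summ (Gr.const 1) J
  have hs2 : Summable fun h : V → ℤ => 1 * μ h * Real.exp (li (-J) h) :=
    hμ.summ (Gr.const 1) (-J)
  have hs3 : Summable fun h : V → ℤ => F h * μ h * Real.exp (li (0 : V → ℝ) h) :=
    hμ.summ hF 0
  have h2 : TM.H104.T μ 0 F ≤ (Zs μ J + Zs μ (-J)) / 2 := by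
    unfold Zs TM.H104.T
    rw [← hs1.tsum_add hs2, ← tsum_div_const]
    refine hs3.tsum_le_tsum (fun g => ?_) ((hs1.add hs2).div_const 2)
    rw [TM.H104.li_zero, TM.H104.li_neg, Real.exp_zero, mul_one]
    have h3 := h g
    rw [Real.cosh_eq] at h3
    have h4 := mul_le_mul_of_nonneg_right h3 (hμ.nn g)
    refine h4.trans (le_of_eq ?_)
    ring
  rw [h1] at h2
  linarith

/-- **the fourth cumulant is bounded by `R` at one source** -/
theorem K4_le_Rs (hμ : EM μ) (he : Ev μ) (J : V → ℝ) {s : ℝ} (hs : 0 < s) :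
    K4 μ J J J J ≤ 24 * Rs μ (s • J) / s ^ 4 +
      s ^ 2 * Ex μ 0 (fun h => li J h ^ 2) * Ex μ 0 (fun h => li J h ^ 4) / 2 +
      s ^ 4 * Ex μ 0 (fun h => li J h ^ 4) ^ 2 / 48 := by
  set m2 := Ex μ 0 (fun h => li J h ^ 2) with hm2
  set m4 := Ex μ 0 (fun h => li J h ^ 4) with hm4
  have g1 : Gr (li J) := Gr.li J
  have g2 : Gr fun h : V → ℤ => li J h ^ 2 := by
    simpa only [pow_two] using g1.mul g1
  have g4 : Gr fun h : V → ℤ => li J h ^ 4 := by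
    have e : (fun h : V → ℤ => li J h ^ 4) = fun h => li J h ^ 2 * li J h ^ 2 := by
      funext h; ring
    rw [e]; exact g2.mul g2
  have p2 : 0 ≤ m2 := TM.H104.Ex_nonneg hμ (fun h => by positivity) 0
  have p4 : 0 ≤ m4 := TM.H104.Ex_nonneg hμ (fun h => by positivity) 0
  have hG : qf (Gm μ) J = m2 := by
    rw [← bf_self, H447.bf_Gm hμ he]
    simp only [hm2, pow_two]
  have hK : K4 μ J J J J = m4 - 3 * m2 ^ 2 := by
    unfold K4
    have e1 : (fun h : V → ℤ => li J h * li J h * li J h * li J h) = fun h => li J h ^ 4 := by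
      funext h; ring
    have e2 : (fun h : V → ℤ => li J h * li J h) = fun h => li J h ^ 2 := by
      funext h; ring
    rw [e1, e2, ← hm2, ← hm4]
    ring
  have hZ0 := H37.Zs_pos hμ (0 : V → ℝ)
  have hZ : Zs μ 0 * (1 + s ^ 2 * m2 / 2 + s ^ 4 * m4 / 24) ≤ Zs μ (s • J) := by
    have gg : Gr fun h : V → ℤ => (1 + s ^ 2 / 2 * li J h ^ 2) + s ^ 4 / 24 * li J h ^ 4 :=
      ((Gr.const 1).add (g2.cmul _)).add (g4.cmul _)
    have h1 := Zs_ge hμ he (s • J) gg fun h => by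
      rw [TM.H104.li_smul]
      refine le_trans (le_of_eq ?_) (cosh_ge4 _)
      ring
    refine le_trans (le_of_eq ?_) h1
    rw [TM.H104.T_add hμ ((Gr.const 1).add (g2.cmul _)) (g4.cmul _),
      TM.H104.T_add hμ (Gr.const 1) (g2.cmul _), TM.H104.T_cmul, TM.H104.T_cmul]
    have e1 : TM.H104.T μ 0 (fun h => li J h ^ 2) = Zs μ 0 * m2 := by
      rw [hm2]
      unfold Ex
      have : TM.H104.T μ 0 (fun _ => (1 : ℝ)) = Zs μ 0 := rfl
      rw [this]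
      field_simp
    have e2 : TM.H104.T μ 0 (fun h => li J h ^ 4) = Zs μ 0 * m4 := by
      rw [hm4]
      unfold Ex
      have : TM.H104.T μ 0 (fun _ => (1 : ℝ)) = Zs μ 0 := rfl
      rw [this]
      field_simp
    rw [e1, e2]
    have e3 : TM.H104.T μ 0 (fun _ => (1 : ℝ)) = Zs μ 0 := rfl
    rw [e3]
    ring
  set x := s ^ 2 * m2 / 2 + s ^ 4 * m4 / 24 with hx
  have hx0 : 0 ≤ x := by positivity
  have hL : x - x ^ 2 / 2 ≤ Lg μ (s • J) - Lg μ 0 := by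
    have h1 : Real.log (Zs μ 0 * (1 + x)) ≤ Lg μ (s • J) := by
      have e : Zs μ 0 * (1 + x) ≤ Zs μ (s • J) := by
        rw [hx, ← add_assoc]
        exact hZ
      exact Real.log_le_log (by positivity) e
    rw [Real.log_mul hZ0.ne' (by positivity)] at h1
    have h2 : Real.log (Zs μ 0) = Lg μ 0 := rfl
    have h3 : x - x ^ 2 / 2 ≤ Real.log (1 + x) := by
      have h4 := Real.le_log_one_add_of_nonneg hx0
      refine le_trans ?_ h4
      rw [le_div_iff₀ (by positivity)]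
      nlinarith [pow_nonneg hx0 3]
    linarith
  have hR : Rs μ (s • J) = Lg μ (s • J) - Lg μ 0 - s ^ 2 * m2 / 2 := by
    unfold Rs
    rw [qf_smul, hG]
  have h5 : s ^ 4 * m4 / 24 - x ^ 2 / 2 ≤ Rs μ (s • J) := by
    rw [hR]
    have : x = s ^ 2 * m2 / 2 + s ^ 4 * m4 / 24 := hx
    linarith
  rw [hK]
  have h6 : m4 - 3 * m2 ^ 2 = 24 * (s ^ 4 * m4 / 24 - x ^ 2 / 2) / s ^ 4 +
      s ^ 2 * m2 * m4 / 2 + s ^ 4 * m4 ^ 2 / 48 := by
    rw [hx]
    field_simp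
    ring
  rw [h6]
  have h7 : 24 * (s ^ 4 * m4 / 24 - x ^ 2 / 2) / s ^ 4 ≤ 24 * Rs μ (s • J) / s ^ 4 := by
    gcongr
  linarith

/-- moments from a Gaussian domination at one source -/
theorem mom_le (hμ : EM μ) (he : Ev μ) (J : V → ℝ) {s c : ℝ}
    (h : Lg μ (s • J) - Lg μ 0 ≤ c) :
    1 + s ^ 2 * Ex μ 0 (fun h => li J h ^ 2) / 2 + s ^ 4 * Ex μ 0 (fun h => li J h ^ 4) / 24 ≤
      Real.exp c := by
  set m2 := Ex μ 0 (fun h => li J h ^ 2) with hm2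
  set m4 := Ex μ 0 (fun h => li J h ^ 4) with hm4
  have g1 : Gr (li J) := Gr.li J
  have g2 : Gr fun h : V → ℤ => li J h ^ 2 := by
    simpa only [pow_two] using g1.mul g1
  have g4 : Gr fun h : V → ℤ => li J h ^ 4 := by
    have e : (fun h : V → ℤ => li J h ^ 4) = fun h => li J h ^ 2 * li J h ^ 2 := by
      funext h; ring
    rw [e]; exact g2.mul g2
  have p2 : 0 ≤ m2 := TM.H104.Ex_nonneg hμ (fun h => by positivity) 0
  have p4 : 0 ≤ m4 := TM.H104.Ex_nonneg hμ (fun h => by positivity) 0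
  have hZ0 := H37.Zs_pos hμ (0 : V → ℝ)
  have hZ : Zs μ 0 * (1 + s ^ 2 * m2 / 2 + s ^ 4 * m4 / 24) ≤ Zs μ (s • J) := by
    have gg : Gr fun h : V → ℤ => (1 + s ^ 2 / 2 * li J h ^ 2) + s ^ 4 / 24 * li J h ^ 4 :=
      ((Gr.const 1).add (g2.cmul _)).add (g4.cmul _)
    have h1 := Zs_ge hμ he (s • J) gg fun h => by
      rw [TM.H104.li_smul]
      refine le_trans (le_of_eq ?_) (cosh_ge4 _)
      ring
    refine le_trans (le_of_eq ?_) h1
    rw [TM.H104.T_add hμ ((Gr.const 1).add (g2.cmul _)) (g4.cmul _),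
      TM.H104.T_add hμ (Gr.const 1) (g2.cmul _), TM.H104.T_cmul, TM.H104.T_cmul]
    have e1 : TM.H104.T μ 0 (fun h => li J h ^ 2) = Zs μ 0 * m2 := by
      rw [hm2]
      unfold Ex
      have : TM.H104.T μ 0 (fun _ => (1 : ℝ)) = Zs μ 0 := rfl
      rw [this]
      field_simp
    have e2 : TM.H104.T μ 0 (fun h => li J h ^ 4) = Zs μ 0 * m4 := by
      rw [hm4]
      unfold Ex
      have : TM.H104.T μ 0 (fun _ => (1 : ℝ)) = Zs μ 0 := rfl
      rw [this]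
      field_simp
    rw [e1, e2]
    have e3 : TM.H104.T μ 0 (fun _ => (1 : ℝ)) = Zs μ 0 := rfl
    rw [e3]
    ring
  have hZJ := H37.Zs_pos hμ (s • J)
  have h1 : Zs μ (s • J) = Real.exp (Lg μ (s • J)) := (Real.exp_log hZJ).symm
  have h2 : Zs μ 0 = Real.exp (Lg μ 0) := (Real.exp_log hZ0).symm
  have h3 : Zs μ (s • J) ≤ Zs μ 0 * Real.exp c := by
    rw [h1, h2, ← Real.exp_add]
    exact Real.exp_le_exp.2 (by linarith)
  exact le_of_mul_le_mul_left (hZ.trans h3) hZ0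

/-- the fourth cumulant under Gaussian domination: `Lg (J) - Lg 0 ≤ v s² / 2` for the source `s J`,
`v = 1/τ` -/
theorem K4_le_Rs' (hμ : EM μ) (he : Ev μ) (J : V → ℝ) {τ σ : ℝ} (hτ : 0 < τ) (hσ : 0 < σ)
    (h : Lg μ (√τ • J) - Lg μ 0 ≤ 1 / 2) :
    τ ^ 2 * K4 μ J J J J ≤ 24 * Rs μ ((σ * √τ) • J) / σ ^ 4 + 16 * σ ^ 2 + 6 * σ ^ 4 := by
  have hs : 0 < √τ := Real.sqrt_pos.2 hτ
  have hs2 : √τ ^ 2 = τ := Real.sq_sqrt hτ.le
  have hs4 : √τ ^ 4 = τ ^ 2 := by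
    have : √τ ^ 4 = (√τ ^ 2) ^ 2 := by ring
    rw [this, hs2]
  have hm := mom_le hμ he J h
  set m2 := Ex μ 0 (fun h => li J h ^ 2) with hm2
  set m4 := Ex μ 0 (fun h => li J h ^ 4) with hm4
  have p2 : 0 ≤ m2 := TM.H104.Ex_nonneg hμ (fun h => by positivity) 0
  have p4 : 0 ≤ m4 := TM.H104.Ex_nonneg hμ (fun h => by positivity) 0
  have he2 : Real.exp (1 / 2) ≤ 5 / 3 := by
    have h1 : Real.exp (1 / 2) ^ 2 = Real.exp 1 := by
      rw [← Real.exp_nat_mul]; norm_num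
    have h2 := Real.exp_one_lt_d9
    have h3 : 0 < Real.exp (1 / 2 : ℝ) := Real.exp_pos _
    nlinarith
  rw [hs2, hs4] at hm
  have q2 : 0 ≤ τ * m2 := by positivity
  have q4 : 0 ≤ τ ^ 2 * m4 := by positivity
  have b2 : τ * m2 ≤ 4 / 3 := by linarith
  have b4 : τ ^ 2 * m4 ≤ 16 := by linarith
  have h1 := K4_le_Rs hμ he J (s := σ * √τ) (by positivity)
  rw [← hm2, ← hm4] at h1
  have h2 := mul_le_mul_of_nonneg_left h1 (sq_nonneg τ)
  refine h2.trans ?_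
  have e1 : (σ * √τ) ^ 4 = σ ^ 4 * τ ^ 2 := by rw [mul_pow, hs4]
  have e2 : (σ * √τ) ^ 2 = σ ^ 2 * τ := by rw [mul_pow, hs2]
  rw [e1, e2]
  have e3 : τ ^ 2 * (24 * Rs μ ((σ * √τ) • J) / (σ ^ 4 * τ ^ 2) + σ ^ 2 * τ * m2 * m4 / 2 +
      σ ^ 4 * τ ^ 2 * m4 ^ 2 / 48) = 24 * Rs μ ((σ * √τ) • J) / σ ^ 4 +
      σ ^ 2 * ((τ * m2) * (τ ^ 2 * m4)) / 2 + σ ^ 4 * (τ ^ 2 * m4) ^ 2 / 48 := by
    field_simp
  rw [e3]
  have h3 : (τ * m2) * (τ ^ 2 * m4) ≤ 4 / 3 * 16 := by gcongr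
  have h4 : (τ ^ 2 * m4) ^ 2 ≤ 16 ^ 2 := by gcongr
  have h5 : σ ^ 2 * ((τ * m2) * (τ ^ 2 * m4)) ≤ σ ^ 2 * (4 / 3 * 16) := by gcongr
  have h6 : σ ^ 4 * (τ ^ 2 * m4) ^ 2 ≤ σ ^ 4 * 16 ^ 2 := by gcongr
  have h7 : 0 ≤ σ ^ 2 := sq_nonneg σ
  have h8 : 0 ≤ σ ^ 4 := by positivity
  nlinarith

/-- off-diagonal fourth cumulants -/
theorem K4_cs (hμ : EM μ) (he : Ev μ) (hK : PK μ) {u v : V → ℝ} {D : ℝ}
    (hu : K4 μ u u u u ≤ D) (hv : K4 μ v v v v ≤ D) : K4 μ u u v v ≤ D := by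
  have h1 := H447.K4S_cs hμ he hK (vecMulVec u u) (vecMulVec v v)
  rw [H447.K4S_rank hμ he, H447.K4S_rank hμ he, H447.K4S_rank hμ he] at h1
  have h2 : 0 ≤ K4 μ u u u u := H447.K4_diag_nonneg hμ he hK u
  have h3 : 0 ≤ K4 μ v v v v := H447.K4_diag_nonneg hμ he hK v
  have h4 : K4 μ u u v v ^ 2 ≤ D ^ 2 := h1.trans (by nlinarith)
  exact (le_abs_self _).trans (abs_le_of_sq_le_sq h4 (h2.trans hu))

/-- the trace form: number of rows squared times the largest fourth cumulant -/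
theorem K4S_le_card {I : Type*} [Fintype I] (hμ : EM μ) (he : Ev μ) (hK : PK μ)
    (P : Matrix I V ℝ) {D : ℝ} (h : ∀ i, K4 μ (P i) (P i) (P i) (P i) ≤ D) :
    H447.K4S μ (Pᵀ * P) (Pᵀ * P) ≤ (Fintype.card I : ℝ) ^ 2 * D := by
  rw [H447.K4S_gram hμ he]
  calc ∑ i, ∑ j, K4 μ (P i) (P i) (P j) (P j) ≤ ∑ _i : I, ∑ _j : I, D :=
        Finset.sum_le_sum fun i _ => Finset.sum_le_sum fun j _ => K4_cs hμ he hK (h i) (h j)
    _ = (Fintype.card I : ℝ) ^ 2 * D := by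
        simp only [Finset.sum_const, Finset.card_univ, nsmul_eq_mul]
        ring

end K4

end Vale.Agent.P159.H30
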