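import Vale.Agent.P159.H30.D2

/-!
START, part D3 (helper30): **the START of the induction in the letters of `Good`**: for every power
`A`, on the tori of side `N = 2^i₁ ξ`, `ξ = 2^m`, cells of side `ξ 2^(-s)`, `s ≤ A i₁`, at every
real mass `ξ⁻²/q ≤ τ ≤ ξ⁻²`, `R` at all the cell sources of size `2^(A i₁)` and the trace form
`D = τ² (ξ/N)² K4S / 2` are at most `2^(-A i₁)`, for the integer and for the neutral model.
-/

namespace Vale.Agent.P159.H30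

open Finset Matrix MeasureTheory Filter Topology
open Vale.Agent.P159 Vale.Agent.P159.TM
open Vale.Agent.P159.TM.H104 (EM Ex Cv K3 Lg li nh Gr)
open Vale.Agent.P159.H37
open Vale.Agent.P159.H963 (GW MF nM Neu ntr pin nwt)
open Vale.Agent.P159.TM.Spec (V)
open Vale.Agent.P159.TM.SpecC (Tor wT)
open Vale.Agent.P159.H864 (cobV cl)
open Vale.Agent.P159.H447 (K4S SN CN)

/-- functions which are constant on the cells of side `l` -/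
def CellC (N l : ℕ) (F : V N → ℝ) : Prop :=
  ∀ x y : V N, x.1.val / l = y.1.val / l → x.2.val / l = y.2.val / l → F x = F y

/-- the conclusions at the start: torus `N = 2^(i₁+m)`, cells `l = 2^(m-s)`, `ξ = 2^m` -/
structure StD (b : ℝ) (A i₁ s m : ℕ) (τ : ℝ) : Prop where
  R : ∀ F : V (2 ^ (i₁ + m)) → ℝ, (∀ x, |F x| ≤ 2 ^ (A * i₁)) →
    CellC (2 ^ (i₁ + m)) (2 ^ (m - s)) F →
    Rs (wt (2 ^ (i₁ + m)) b τ) (τ • F) ≤ 1 / 2 ^ (A * i₁)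
  Rn : ∀ (x₀ : V (2 ^ (i₁ + m))) (F : V (2 ^ (i₁ + m)) → ℝ), Neu F →
    (∀ x, |F x| ≤ 2 ^ (A * i₁)) → CellC (2 ^ (i₁ + m)) (2 ^ (m - s)) F →
    Rs (nwt (2 ^ (i₁ + m)) b τ x₀) (τ • F) ≤ 1 / 2 ^ (A * i₁)
  D : 1 / 2 * (1 / 2 ^ i₁) ^ 2 * (τ ^ 2 * K4S (wt (2 ^ (i₁ + m)) b τ)
    (cellP (2 ^ (i₁ + m)) (2 ^ (m - s))) (cellP (2 ^ (i₁ + m)) (2 ^ (m - s)))) ≤ 1 / 2 ^ (A * i₁)
  Dn : ∀ x₀ : V (2 ^ (i₁ + m)), 1 / 2 * (1 / 2 ^ i₁) ^ 2 * (τ ^ 2 *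
    K4S (nwt (2 ^ (i₁ + m)) b τ x₀) (SN (2 ^ (i₁ + m)) (2 ^ (m - s)))
      (SN (2 ^ (i₁ + m)) (2 ^ (m - s)))) ≤ 1 / 2 ^ (A * i₁)

lemma thr {q C c : ℝ} (hc : 0 < c) (A : ℕ) :
    ∃ i₀ : ℕ, ∀ i : ℕ, i₀ ≤ i → 3 ≤ i ∧ q ≤ 2 ^ i ∧
      q * C * Real.exp (-(c * 2 ^ i)) * (4 ^ i * (2 ^ (A * i)) ^ 2) ≤ 1 / 2 * (1 / 2 ^ (A * i)) := by
  set p := 2 + 3 * A with hp
  have t1 : Tendsto (fun x : ℝ => x ^ p * Real.exp (-x)) atTop (𝓝 0) :=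
    Real.tendsto_pow_mul_exp_neg_atTop_nhds_zero p
  have t0 : Tendsto (fun i : ℕ => (2 : ℝ) ^ i) atTop atTop :=
    tendsto_pow_atTop_atTop_of_one_lt (by norm_num)
  have t2 : Tendsto (fun i : ℕ => c * (2 : ℝ) ^ i) atTop atTop := t0.const_mul_atTop hc
  have t3 := ((t1.comp t2).const_mul (q * C / c ^ p))
  rw [mul_zero] at t3
  obtain ⟨i₀, hi₀⟩ := ((t3.eventually (ge_mem_nhds (by norm_num : (0 : ℝ) < 1 / 2))).and
    ((t0.eventually_ge_atTop q).and (eventually_ge_atTop 3))).exists_forall_of_atTop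
  refine ⟨i₀, fun i hi => ?_⟩
  obtain ⟨h1, h2, h3⟩ := hi₀ i hi
  refine ⟨h3, h2, ?_⟩
  have e1 : ((2 : ℝ) ^ i) ^ p = 4 ^ i * (2 ^ (A * i)) ^ 2 * 2 ^ (A * i) := by
    have e4 : (4 : ℝ) ^ i = 2 ^ (i * 2) := by
      rw [mul_comm i 2, pow_mul]
      norm_num
    rw [e4, ← pow_mul, ← pow_mul, ← pow_add, ← pow_add]
    congr 1
    rw [hp]
    ring
  simp only [Function.comp] at h1
  have e2 : q * C / c ^ p * ((c * 2 ^ i) ^ p * Real.exp (-(c * 2 ^ i))) =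
      q * C * Real.exp (-(c * 2 ^ i)) * (4 ^ i * (2 ^ (A * i)) ^ 2) * 2 ^ (A * i) := by
    rw [mul_pow, e1]
    field_simp
  rw [e2] at h1
  have h4 : (0 : ℝ) < 2 ^ (A * i) := by positivity
  rw [mul_one_div, le_div_iff₀ h4]
  exact h1

/-- size of the rows: `σ / √τ ≤ q ξ` -/
lemma ar3 {τ σ ξ q : ℝ} (hτ : 0 < τ) (hξ : 0 < ξ) (hq : 1 ≤ q) (hσ : σ ≤ 1)
    (h : 1 / ξ ^ 2 / q ≤ τ) : σ / √τ ≤ q * ξ := by
  have hsq : 0 < √τ := Real.sqrt_pos.2 hτ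
  have hq0 : 0 < q := by linarith
  rw [div_le_iff₀ hsq]
  rw [div_div, div_le_iff₀ (by positivity)] at h
  have h5 : 1 ≤ (q * ξ * √τ) ^ 2 := by
    rw [mul_pow, Real.sq_sqrt hτ.le]
    have h1 : τ * (ξ ^ 2 * q) * 1 ≤ τ * (ξ ^ 2 * q) * q :=
      mul_le_mul_of_nonneg_left hq (by positivity)
    calc (1 : ℝ) ≤ τ * (ξ ^ 2 * q) := h
      _ ≤ τ * (ξ ^ 2 * q) * q := by linarith
      _ = (q * ξ) ^ 2 * τ := by ring
  have h7 : 0 < q * ξ * √τ := by positivity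
  have h8 : 1 ≤ q * ξ * √τ := by
    by_contra hc
    have hc' := not_le.1 hc
    have : (q * ξ * √τ) ^ 2 < 1 := by
      calc (q * ξ * √τ) ^ 2 = (q * ξ * √τ) * (q * ξ * √τ) := by ring
        _ < 1 * 1 := mul_lt_mul'' hc' hc' h7.le h7.le
        _ = 1 := by ring
    linarith
  linarith

lemma ar4 {y z S q : ℝ} (hy : 8 ≤ y) (hz : 1 ≤ z) (hS0 : 0 ≤ S) (hS : S ≤ z) (hq : q ≤ y) :
    q * S ≤ (z ^ 5 * y ^ 2) ^ 5 * y ^ 6 - 1 := by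
  have hy0 : 0 < y := by linarith
  have hz0 : 0 < z := by linarith
  have h1 : z ≤ z ^ 5 := le_self_pow₀ hz (by norm_num)
  have h2 : y ≤ y ^ 2 := le_self_pow₀ (by linarith) (by norm_num)
  have hw1 : z * y ≤ z ^ 5 * y ^ 2 := mul_le_mul h1 h2 hy0.le (by positivity)
  have hw : 1 ≤ z ^ 5 * y ^ 2 := by
    have h1 : 1 ≤ z ^ 5 := one_le_pow₀ hz
    have h2 : 1 ≤ y ^ 2 := one_le_pow₀ (by linarith)
    nlinarith
  set w := z ^ 5 * y ^ 2 with hw'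
  have h3 : w ≤ w ^ 5 := le_self_pow₀ hw (by norm_num)
  have h4 : (2 : ℝ) ≤ y ^ 6 := by
    calc (2 : ℝ) ≤ 8 ^ 6 := by norm_num
      _ ≤ y ^ 6 := by gcongr
  have h5 : (1 : ℝ) ≤ w ^ 5 := one_le_pow₀ hw
  have h6 : w ^ 5 * 2 ≤ w ^ 5 * y ^ 6 := mul_le_mul_of_nonneg_left h4 (by linarith)
  have h7 : q * S ≤ y * z := mul_le_mul hq hS hS0 hy0.le
  nlinarith

lemma ar5 {y z : ℝ} (hy : 8 ≤ y) (hz : 1 ≤ z) : z ≤ (z ^ 5 * y ^ 2) ^ 5 * y ^ 6 - 1 := by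
  have h := ar4 (S := z) (q := 1) hy hz (by linarith) le_rfl (by linarith)
  linarith

section core

variable {N l : ℕ} [NeZero N] [NeZero (N / l)] {b τ : ℝ}

/-- the trace form from `R`, integer model -/
theorem D_core (hb : 0 < b) (hτ : 0 < τ) (hl : l ∣ N) {q ξ σ Λ R : ℝ} (hq : 1 ≤ q) (hξ : 0 < ξ)
    (hσ0 : 0 < σ) (hσ : σ ≤ 1) (h : 1 / ξ ^ 2 / q ≤ τ) (hΛ : q * (ξ / l) ≤ Λ)
    (HR : ∀ F : V N → ℝ, (∀ x, |F x| ≤ Λ) → CellC N l F → Rs (wt N b τ) (τ • F) ≤ R) :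
    τ ^ 2 * K4S (wt N b τ) (cellP N l) (cellP N l) ≤
      (((N / l : ℕ) : ℝ) ^ 2) ^ 2 * (24 * R / σ ^ 4 + 16 * σ ^ 2 + 6 * σ ^ 4) := by
  have hμ : EM (wt N b τ) := H789.em_wt hb.le hτ
  have hev : Ev (wt N b τ) := ev_wM (H963.gw_wT hb.le).ev _
  have hpk : PK (wt N b τ) := (H963.gw_wT hb.le).pk_wM (H963.mf_smul hτ)
  have hsq : 0 < √τ := Real.sqrt_pos.2 hτ
  have hsq2 : √τ * √τ = τ := Real.mul_self_sqrt hτ.le
  have hl0 : (0 : ℝ) < l := l_pos' hl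
  have h4 := K4S_le_Rs hμ hev hpk (cobV N l) (R := R) hτ hσ0
    (fun i => by
      refine (Lg_wt_le hb.le hτ _).trans (le_of_eq ?_)
      have e : ∑ x, (√τ • cobV N l i) x ^ 2 = τ := by
        simp only [Pi.smul_apply, smul_eq_mul, mul_pow, Real.sq_sqrt hτ.le, ← Finset.mul_sum,
          sum_cobV_sq hl, mul_one]
      rw [e]
      field_simp)
    (fun i => by
      have e : (σ * √τ) • cobV N l i = τ • ((σ / √τ) • cobV N l i) := by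
        rw [smul_smul]
        congr 1
        calc σ * √τ = (√τ * √τ) * (σ / √τ) := by field_simp
          _ = τ * (σ / √τ) := by rw [hsq2]
      rw [e]
      refine HR _ (fun x => ?_) fun x y h1 h2 => ?_
      · rw [Pi.smul_apply, smul_eq_mul, abs_mul, abs_of_pos (by positivity : 0 < σ / √τ)]
        calc σ / √τ * |cobV N l i x| ≤ q * ξ * (l : ℝ)⁻¹ :=
              mul_le_mul (ar3 hτ hξ hq hσ h) (abs_cobV_le i x) (abs_nonneg _) (by positivity)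
          _ = q * (ξ / l) := by ring
          _ ≤ Λ := hΛ
      · simp only [Pi.smul_apply, cobV_cell h1 h2])
  rw [← H864.cellP_eq hl, H963.cardV] at h4
  exact h4

/-- the trace form from `R`, neutral model -/
theorem Dn_core (hb : 0 < b) (hτ : 0 < τ) (hl : l ∣ N) (x₀ : V N) {q ξ σ Λ R : ℝ} (hq : 1 ≤ q)
    (hξ : 0 < ξ) (hσ0 : 0 < σ) (hσ : σ ≤ 1) (h : 1 / ξ ^ 2 / q ≤ τ) (hΛ : q * (ξ / l) ≤ Λ)
    (HR : ∀ F : V N → ℝ, Neu F → (∀ x, |F x| ≤ Λ) → CellC N l F →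
      Rs (nwt N b τ x₀) (τ • F) ≤ R) :
    τ ^ 2 * K4S (nwt N b τ x₀) (SN N l) (SN N l) ≤
      (((N / l : ℕ) : ℝ) ^ 2) ^ 2 * (24 * R / σ ^ 4 + 16 * σ ^ 2 + 6 * σ ^ 4) := by
  have hμ : EM (nwt N b τ x₀) := H963.em_nwt hb.le hτ x₀
  have hev : Ev (nwt N b τ x₀) := H963.ev_nwt hb.le τ x₀
  have hpk : PK (nwt N b τ x₀) := H963.pk_nwt hb.le hτ x₀
  have hsq : 0 < √τ := Real.sqrt_pos.2 hτ
  have hsq2 : √τ * √τ = τ := Real.mul_self_sqrt hτ.le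
  have hl0 : (0 : ℝ) < l := l_pos' hl
  have h4 := K4S_le_Rs hμ hev hpk (CN N l) (R := R) hτ hσ0
    (fun i => by
      refine (Lg_nwt_le hb.le hτ x₀ ((sum_CN hl i).smul _)).trans ?_
      have e : ∑ x, (√τ • CN N l i) x ^ 2 ≤ τ := by
        simp only [Pi.smul_apply, smul_eq_mul, mul_pow, Real.sq_sqrt hτ.le, ← Finset.mul_sum]
        have h1 := mul_le_mul_of_nonneg_left (sum_CN_sq hl i) hτ.le
        linarith
      rw [div_le_iff₀ (by positivity)]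
      linarith)
    (fun i => by
      have e : (σ * √τ) • CN N l i = τ • ((σ / √τ) • CN N l i) := by
        rw [smul_smul]
        congr 1
        calc σ * √τ = (√τ * √τ) * (σ / √τ) := by field_simp
          _ = τ * (σ / √τ) := by rw [hsq2]
      rw [e]
      refine HR _ ((sum_CN hl i).smul _) (fun x => ?_) fun x y h1 h2 => ?_
      · rw [Pi.smul_apply, smul_eq_mul, abs_mul, abs_of_pos (by positivity : 0 < σ / √τ)]
        calc σ / √τ * |CN N l i x| ≤ q * ξ * (l : ℝ)⁻¹ :=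
              mul_le_mul (ar3 hτ hξ hq hσ h) (abs_CN_le hl i x) (abs_nonneg _) (by positivity)
          _ = q * (ξ / l) := by ring
          _ ≤ Λ := hΛ
      · simp only [Pi.smul_apply, CN_cell hl h1 h2])
  rw [H447.CN_gram hl, H963.cardV] at h4
  exact h4

end core

/-- **START at all real masses** -/
theorem start_D {b : ℝ} (hb : 0 < b) (hY : 2 / Real.pi ≤ helicity b) {q : ℝ} (hq : 1 ≤ q)
    (A : ℕ) :
    ∃ i₀ : ℕ, ∀ i₁ : ℕ, i₀ ≤ i₁ → ∀ s : ℕ, s ≤ A * i₁ →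
      ∃ m₀ : ℕ, s ≤ m₀ ∧ ∀ m : ℕ, m₀ ≤ m → ∀ τ : ℝ, 1 / ((2 ^ m : ℕ) : ℝ) ^ 2 / q ≤ τ →
        τ ≤ 1 / ((2 ^ m : ℕ) : ℝ) ^ 2 → StD b A i₁ s m τ := by
  obtain ⟨c, C, hc, hC, h⟩ := st8r hb hY hq
  obtain ⟨i₀, hi₀⟩ := thr (q := q) (C := C) hc (25 * A + 16)
  have hq0 : 0 < q := by linarith
  refine ⟨i₀, fun i₁ hi₁ s hs => ?_⟩
  obtain ⟨h3, hq2, hexp⟩ := hi₀ i₁ hi₁
  obtain ⟨y, hy⟩ : ∃ y : ℝ, y = 2 ^ i₁ := ⟨_, rfl⟩
  obtain ⟨z, hz⟩ : ∃ z : ℝ, z = 2 ^ (A * i₁) := ⟨_, rfl⟩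
  have hy8 : 8 ≤ y := by
    rw [hy]
    calc (8 : ℝ) = 2 ^ 3 := by norm_num
      _ ≤ 2 ^ i₁ := pow_le_pow_right₀ (by norm_num) h3
  have hz1 : 1 ≤ z := by
    rw [hz]
    exact one_le_pow₀ (by norm_num)
  have hL : (2 : ℝ) ^ ((25 * A + 16) * i₁) = (z ^ 5 * y ^ 2) ^ 5 * y ^ 6 := by
    rw [hz, hy, ← pow_mul, ← pow_mul, ← pow_add, ← pow_mul, ← pow_mul, ← pow_add]
    congr 1
    ring
  rw [hL, ← hy] at hexp
  obtain ⟨L, hLd⟩ : ∃ L : ℝ, L = (z ^ 5 * y ^ 2) ^ 5 * y ^ 6 := ⟨_, rfl⟩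
  rw [← hLd] at hexp
  rw [← hy] at hq2
  have hy0 : 0 < y := by linarith
  have hz0 : 0 < z := by linarith
  have hL0 : 0 < L := by rw [hLd]; positivity
  have hzL : z ≤ L - 1 := by rw [hLd]; exact ar5 hy8 hz1
  obtain ⟨m₀, hsm, hm₀⟩ := h i₁ h3 s L (1 / 2 * (1 / L)) (by positivity)
  refine ⟨m₀, hsm, fun m hm τ hτ1 hτ2 => ?_⟩
  have hs' : s ≤ m := hsm.trans hm
  have hξ : (0 : ℝ) < ((2 ^ m : ℕ) : ℝ) := by positivity
  have hτ0 : 0 < τ := lt_of_lt_of_le (by positivity) hτ1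
  -- `R`, integer model
  have HR : ∀ F : V (2 ^ (i₁ + m)) → ℝ, (∀ x, |F x| ≤ L) →
      CellC (2 ^ (i₁ + m)) (2 ^ (m - s)) F → Rs (wt (2 ^ (i₁ + m)) b τ) (τ • F) ≤ 1 / L := by
    intro F hF hc'
    have h4 := hm₀ m hm τ hτ1 hτ2 F hF hc'
    rw [← hy] at h4
    linarith
  -- `R`, neutral model
  have HRn : ∀ (x₀ : V (2 ^ (i₁ + m))) (F : V (2 ^ (i₁ + m)) → ℝ), Neu F → (∀ x, |F x| ≤ L - 1) →
      CellC (2 ^ (i₁ + m)) (2 ^ (m - s)) F → Rs (nwt (2 ^ (i₁ + m)) b τ x₀) (τ • F) ≤ 1 / L := by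
    intro x₀ F hn hF hc'
    refine Rs_nwt_le hb.le hτ0 x₀ hn fun a ha0 ha1 => HR _ (fun x => ?_) fun x y h1 h2 => ?_
    · have h4 := hF x
      have h5 := abs_add_le (F x) a
      rw [abs_of_nonneg ha0] at h5
      linarith
    · simp only [hc' x y h1 h2]
  have hLz : 1 / L ≤ 1 / z := one_div_le_one_div_of_le hz0 (by linarith)
  -- the cells
  have hl : 2 ^ (m - s) ∣ 2 ^ (i₁ + m) := pow_dvd_pow 2 (by omega)
  have hNl : 2 ^ (i₁ + m) / 2 ^ (m - s) = 2 ^ (i₁ + s) := by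
    rw [Nat.pow_div (by omega) (by norm_num)]
    congr 1
    omega
  have : NeZero (2 ^ (i₁ + m) / 2 ^ (m - s)) := ⟨by rw [hNl]; positivity⟩
  obtain ⟨S, hS⟩ : ∃ S : ℝ, S = 2 ^ s := ⟨_, rfl⟩
  have hS0 : 0 < S := by rw [hS]; positivity
  have hSz : S ≤ z := by rw [hS, hz]; exact pow_le_pow_right₀ (by norm_num) hs
  have hcard : ((2 ^ (i₁ + m) / 2 ^ (m - s) : ℕ) : ℝ) = y * S := by
    rw [hNl, hS, hy]
    push_cast
    rw [pow_add]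
  have hlr : ((2 ^ m : ℕ) : ℝ) / ((2 ^ (m - s) : ℕ) : ℝ) = S := by
    push_cast
    rw [hS, div_eq_iff (by positivity), ← pow_add]
    congr 1
    omega
  have hw : 1 ≤ z ^ 5 * y ^ 2 := by
    have h1 : 1 ≤ z ^ 5 := one_le_pow₀ hz1
    have h2 : 1 ≤ y ^ 2 := one_le_pow₀ (by linarith)
    nlinarith
  have hσ0 : 0 < 1 / (8 * (z ^ 5 * y ^ 2)) := by positivity
  have hσ1 : 1 / (8 * (z ^ 5 * y ^ 2)) ≤ 1 := by
    rw [div_le_one (by positivity)]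
    linarith
  have hqS : q * S ≤ L - 1 := by rw [hLd]; exact ar4 hy8 hz1 hS0.le hSz hq2
  have hzz : (1 : ℝ) / 2 ^ (A * i₁) = 1 / z := by rw [hz]
  have hyy : (1 : ℝ) / 2 ^ i₁ = 1 / y := by rw [hy]
  refine ⟨fun F hF hc' => ?_, fun x₀ F hn hF hc' => ?_, ?_, fun x₀ => ?_⟩
  · rw [hzz]
    rw [← hz] at hF
    exact (HR F (fun x => (hF x).trans (by linarith)) hc').trans hLz
  · rw [hzz]
    rw [← hz] at hF
    exact (HRn x₀ F hn (fun x => (hF x).trans hzL) hc').trans hLz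
  · have h4 := D_core hb hτ0 hl (Λ := L) hq hξ hσ0 hσ1 hτ1 (by rw [hlr]; linarith) HR
    rw [hcard, hLd] at h4
    rw [hzz, hyy]
    exact ar2 hy8 hz1 hS0.le hSz h4
  · have h4 := Dn_core hb hτ0 hl x₀ (Λ := L - 1) hq hξ hσ0 hσ1 hτ1 (by rw [hlr]; linarith)
      (HRn x₀)
    rw [hcard, hLd] at h4
    rw [hzz, hyy]
    exact ar2 hy8 hz1 hS0.le hSz h4

end Vale.Agent.P159.H30
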