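import Vale.Agent.P159.H30.D3

/-!
START, part D4 (helper30): the START in the letters of `Good`: `ξ = 2^n`, real masses
`ξ⁻² ≤ τ ≤ 4 ξ⁻²`, all the tori `N = 2^(i+n)`, `i₀ ≤ i ≤ I`, and all the cells `l = 2^(n-s)`,
`1 ≤ s ≤ A i`, at the same time.
-/

namespace Vale.Agent.P159.H30

open Finset Matrix MeasureTheory Filter Topology
open Vale.Agent.P159 Vale.Agent.P159.TM
open Vale.Agent.P159.TM.H104 (EM Ex Cv K3 Lg li nh Gr)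
open Vale.Agent.P159.H37
open Vale.Agent.P159.H963 (GW MF nM Neu ntr pin nwt)
open Vale.Agent.P159.TM.Spec (V)
open Vale.Agent.P159.TM.SpecC (Tor wT)
open Vale.Agent.P159.H864 (cobV cl)
open Vale.Agent.P159.H447 (K4S SN CN)

/-- `R` at the cell sources of size `Λ` and the trace form `D` are at most `ε` (integer and neutral
model, torus of side `N`, cells of side `l`, mass `τ`) -/
structure StN (b : ℝ) (N l : ℕ) [NeZero N] (ξ Λ ε τ : ℝ) : Prop where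
  R : ∀ F : V N → ℝ, (∀ x, |F x| ≤ Λ) → CellC N l F → Rs (wt N b τ) (τ • F) ≤ ε
  Rn : ∀ (x₀ : V N) (F : V N → ℝ), Neu F → (∀ x, |F x| ≤ Λ) → CellC N l F →
    Rs (nwt N b τ x₀) (τ • F) ≤ ε
  D : 1 / 2 * (ξ / N) ^ 2 * (τ ^ 2 * K4S (wt N b τ) (cellP N l) (cellP N l)) ≤ ε
  Dn : ∀ x₀ : V N, 1 / 2 * (ξ / N) ^ 2 * (τ ^ 2 * K4S (nwt N b τ x₀) (SN N l) (SN N l)) ≤ ε

lemma StN.mono {b : ℝ} {N l : ℕ} [NeZero N] {ξ Λ Λ' ε ε' τ : ℝ} (h : StN b N l ξ Λ ε τ)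
    (h1 : Λ' ≤ Λ) (h2 : ε ≤ ε') : StN b N l ξ Λ' ε' τ where
  R F hF hc := (h.R F (fun x => (hF x).trans h1) hc).trans h2
  Rn x₀ F hn hF hc := (h.Rn x₀ F hn (fun x => (hF x).trans h1) hc).trans h2
  D := h.D.trans h2
  Dn x₀ := (h.Dn x₀).trans h2

/-- `R` at the doubled source gives `T` -/
lemma Tq_le_Rs {V' : Type*} [Fintype V'] {μ : (V' → ℤ) → ℝ} (hμ : EM μ) (he : Ev μ) (hK : PK μ)
    (J : V' → ℝ) : Tq μ J ≤ Rs μ ((2 : ℝ) • J) := by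
  have h := H789.Rs_nonneg hμ he hK J
  have e : Tq μ J = Rs μ ((2 : ℝ) • J) - 4 * Rs μ J := by
    unfold Tq Rs
    rw [qf_smul]
    ring
  linarith

lemma StD.toN {b : ℝ} {A i₁ s m : ℕ} {τ : ℝ} (h : StD b A i₁ s m τ) :
    StN b (2 ^ (i₁ + m)) (2 ^ (m - s)) ((2 ^ m : ℕ) : ℝ) (2 ^ (A * i₁)) (1 / 2 ^ (A * i₁)) τ := by
  have e : ((2 ^ m : ℕ) : ℝ) / ((2 ^ (i₁ + m) : ℕ) : ℝ) = 1 / 2 ^ i₁ := by
    push_cast
    rw [pow_add]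
    field_simp
  exact ⟨h.R, h.Rn, by rw [e]; exact h.D, fun x₀ => by rw [e]; exact h.Dn x₀⟩

/-- the scale `ξ` in the trace form -/
lemma StN.scale {b : ℝ} {N l : ℕ} [NeZero N] {ξ ξ' c Λ ε τ : ℝ} (hc : 1 ≤ c)
    (hξ' : 0 ≤ ξ') (hb : ξ' ≤ c * ξ) (hε : 0 ≤ ε) (h : StN b N l ξ Λ ε τ)
    (h1 : 0 ≤ K4S (wt N b τ) (cellP N l) (cellP N l))
    (h2 : ∀ x₀, 0 ≤ K4S (nwt N b τ x₀) (SN N l) (SN N l)) : StN b N l ξ' Λ (c ^ 2 * ε) τ := by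
  have hc2 : 1 ≤ c ^ 2 := one_le_pow₀ hc
  have h0 : ε ≤ c ^ 2 * ε := le_mul_of_one_le_left hε hc2
  have h3 : (ξ' / N) ^ 2 ≤ c ^ 2 * (ξ / N) ^ 2 := by
    have : c ^ 2 * (ξ / N) ^ 2 = (c * ξ / N) ^ 2 := by ring
    rw [this]
    gcongr
  refine ⟨fun F hF hcc => (h.R F hF hcc).trans h0, fun x₀ F hn hF hcc =>
    (h.Rn x₀ F hn hF hcc).trans h0, ?_, fun x₀ => ?_⟩
  · have h4 := h.D
    have h5 : 0 ≤ τ ^ 2 * K4S (wt N b τ) (cellP N l) (cellP N l) := mul_nonneg (sq_nonneg _) h1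
    calc 1 / 2 * (ξ' / N) ^ 2 * (τ ^ 2 * K4S (wt N b τ) (cellP N l) (cellP N l))
        ≤ 1 / 2 * (c ^ 2 * (ξ / N) ^ 2) * (τ ^ 2 * K4S (wt N b τ) (cellP N l) (cellP N l)) := by
          gcongr
      _ = c ^ 2 * (1 / 2 * (ξ / N) ^ 2 * (τ ^ 2 * K4S (wt N b τ) (cellP N l) (cellP N l))) := by
          ring
      _ ≤ c ^ 2 * ε := by gcongr
  · have h4 := h.Dn x₀
    have h5 : 0 ≤ τ ^ 2 * K4S (nwt N b τ x₀) (SN N l) (SN N l) := mul_nonneg (sq_nonneg _) (h2 x₀)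
    calc 1 / 2 * (ξ' / N) ^ 2 * (τ ^ 2 * K4S (nwt N b τ x₀) (SN N l) (SN N l))
        ≤ 1 / 2 * (c ^ 2 * (ξ / N) ^ 2) * (τ ^ 2 * K4S (nwt N b τ x₀) (SN N l) (SN N l)) := by
          gcongr
      _ = c ^ 2 * (1 / 2 * (ξ / N) ^ 2 * (τ ^ 2 * K4S (nwt N b τ x₀) (SN N l) (SN N l))) := by
          ring
      _ ≤ c ^ 2 * ε := by gcongr

lemma K4S_wt_nonneg {b : ℝ} (hb : 0 < b) {N l : ℕ} [NeZero N] {τ : ℝ} (hτ : 0 < τ) :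
    0 ≤ K4S (wt N b τ) (cellP N l) (cellP N l) :=
  H447.K4S_nonneg (H789.em_wt hb.le hτ) (ev_wM (H963.gw_wT hb.le).ev _)
    ((H963.gw_wT hb.le).pk_wM (H963.mf_smul hτ)) _

lemma K4S_nwt_nonneg {b : ℝ} (hb : 0 < b) {N l : ℕ} [NeZero N] {τ : ℝ} (hτ : 0 < τ)
    (x₀ : V N) : 0 ≤ K4S (nwt N b τ x₀) (SN N l) (SN N l) :=
  H447.K4S_nonneg (H963.em_nwt hb.le hτ x₀) (H963.ev_nwt hb.le τ x₀) (H963.pk_nwt hb.le hτ x₀) _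

/-- **START, letters of `Good`**, one torus and one cell size -/
theorem start_one {b : ℝ} (hb : 0 < b) (hY : 2 / Real.pi ≤ helicity b) {A : ℕ} (hA : 2 ≤ A) :
    ∃ i₀ : ℕ, ∀ i : ℕ, i₀ ≤ i → ∀ s : ℕ, 1 ≤ s → s ≤ A * i →
      ∃ n₀ : ℕ, s ≤ n₀ ∧ ∀ n : ℕ, n₀ ≤ n → ∀ τ : ℝ, 1 / (2 ^ n : ℝ) ^ 2 ≤ τ →
        τ ≤ 4 / (2 ^ n : ℝ) ^ 2 →
        StN b (2 ^ (i + n)) (2 ^ (n - s)) (2 ^ n) (2 ^ (A * i)) (1 / 2 ^ (A * i)) τ := by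
  obtain ⟨i₀, hi₀⟩ := start_D hb hY (q := 4) (by norm_num) A
  refine ⟨i₀, fun i hi s hs1 hs => ?_⟩
  obtain ⟨m₀, hsm, hm₀⟩ := hi₀ (i + 1) (by omega) (s - 1) (by
    have : A * i ≤ A * (i + 1) := Nat.mul_le_mul_left _ (by omega)
    omega)
  refine ⟨m₀ + 1, by omega, fun n hn τ hτ1 hτ2 => ?_⟩
  obtain ⟨m, rfl⟩ : ∃ m, n = m + 1 := ⟨n - 1, by omega⟩
  have hm : m₀ ≤ m := by omega
  have hτ0 : 0 < τ := lt_of_lt_of_le (by positivity) hτ1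
  have e0 : ((2 : ℝ) ^ (m + 1)) ^ 2 = ((2 ^ m : ℕ) : ℝ) ^ 2 * 4 := by
    push_cast
    rw [pow_succ]
    ring
  rw [e0] at hτ1 hτ2
  have h1 := (hm₀ m hm τ (by rw [div_div]; exact hτ1) (by
    refine hτ2.trans (le_of_eq ?_)
    field_simp)).toN
  have e1 : 2 ^ (i + 1 + m) = 2 ^ (i + (m + 1)) := by congr 1; omega
  have e2 : 2 ^ (m - (s - 1)) = 2 ^ (m + 1 - s) := by congr 1; omega
  have h2 : StN b (2 ^ (i + (m + 1))) (2 ^ (m + 1 - s)) ((2 ^ m : ℕ) : ℝ) (2 ^ (A * (i + 1)))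
      (1 / 2 ^ (A * (i + 1))) τ := by
    have key : ∀ N N' l l' : ℕ, ∀ (_ : NeZero N) (_ : NeZero N'), N = N' → l = l' →
        StN b N l ((2 ^ m : ℕ) : ℝ) (2 ^ (A * (i + 1))) (1 / 2 ^ (A * (i + 1))) τ →
        StN b N' l' ((2 ^ m : ℕ) : ℝ) (2 ^ (A * (i + 1))) (1 / 2 ^ (A * (i + 1))) τ := by
      intro N N' l l' _ _ hN hl' hh
      subst hN hl'
      exact hh
    exact key _ _ _ _ _ _ e1 e2 h1
  have h3 := h2.scale (c := 2) (ξ' := 2 ^ (m + 1)) (by norm_num) (by positivity)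
    (by push_cast; rw [pow_succ]; linarith) (by positivity)
    (K4S_wt_nonneg hb hτ0) (K4S_nwt_nonneg hb hτ0)
  refine h3.mono ?_ ?_
  · exact pow_le_pow_right₀ (by norm_num) (Nat.mul_le_mul_left _ (by omega))
  · have e3 : A * (i + 1) = A * i + A := by ring
    rw [e3, pow_add]
    have h4 : (4 : ℝ) ≤ 2 ^ A := by
      calc (4 : ℝ) = 2 ^ 2 := by norm_num
        _ ≤ 2 ^ A := pow_le_pow_right₀ (by norm_num) hA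
    have h5 : (0 : ℝ) < 2 ^ (A * i) := by positivity
    rw [mul_one_div, div_le_div_iff₀ (by positivity) h5]
    nlinarith

/-- **START, letters of `Good`**: all the tori and all the cell sizes at the same time -/
theorem start_all {b : ℝ} (hb : 0 < b) (hY : 2 / Real.pi ≤ helicity b) {A : ℕ} (hA : 2 ≤ A) :
    ∃ i₀ : ℕ, ∀ I : ℕ, ∃ n₀ : ℕ, ∀ n : ℕ, n₀ ≤ n → ∀ i : ℕ, i₀ ≤ i → i ≤ I →
      ∀ s : ℕ, 1 ≤ s → s ≤ A * i → s ≤ n ∧ ∀ τ : ℝ, 1 / (2 ^ n : ℝ) ^ 2 ≤ τ →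
        τ ≤ 4 / (2 ^ n : ℝ) ^ 2 →
        StN b (2 ^ (i + n)) (2 ^ (n - s)) (2 ^ n) (2 ^ (A * i)) (1 / 2 ^ (A * i)) τ := by
  obtain ⟨i₀, hi₀⟩ := start_one hb hY hA
  refine ⟨i₀, fun I => ?_⟩
  choose! f hf using hi₀
  refine ⟨(Finset.range (I + 1)).sup fun i => (Finset.range (A * I + 1)).sup fun s => f i s,
    fun n hn i hi hiI s hs1 hs => ?_⟩
  have h1 : f i s ≤ n := by
    refine le_trans ?_ hn
    have hsI : s ≤ A * I := hs.trans (Nat.mul_le_mul_left _ hiI)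
    refine le_trans ?_ (Finset.le_sup (f := fun i => (Finset.range (A * I + 1)).sup fun s => f i s)
      (Finset.mem_range.2 (Nat.lt_succ_of_le hiI)))
    exact Finset.le_sup (f := fun s => f i s) (Finset.mem_range.2 (Nat.lt_succ_of_le hsI))
  obtain ⟨h2, h3⟩ := hf i hi s hs1 hs
  exact ⟨h2.trans h1, fun τ hτ1 hτ2 => h3 n h1 τ hτ1 hτ2⟩

end Vale.Agent.P159.H30
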