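import Vale.Agent.P159.H896.CombT
import Vale.Agent.P159.H730.Thd2

/-!
P159, helper30: LEMMA HSN of row 5007 (helper889): the relative difference of the form of the cell
flow `Ah` and of the neutral form of the next mass, summed over ALL cell momenta, is second order in
the THETA functional (no number of modes).
-/

namespace Vale.Agent.P159.H30

open Finset
open Vale.Agent.P159.H37
open Vale.Agent.P159.TM.Spec (V)
open Vale.Agent.P159.H363 (Nf acl sn rel sym_acl_eq)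
open Vale.Agent.P159.H462 (ahat ti_ahat sym_ahat)
open Vale.Agent.P159.H864 (TI sym)
open Vale.Agent.P159.H963 (PinC Neu obsN)
open Vale.Agent.P159.H896 (Ah)
open Vale.Agent.P159.H730 (ThN wN thd_N ThN_le ThN_nonneg)

noncomputable section

variable {N l : ℕ} [NeZero N] [NeZero (N / l)] {b t τ τ' : ℝ}

/-- the symbol of the flow -/
lemma sym_Ah (hb : 0 < b) (hl : l ∣ N) (hτ' : 0 < τ') (h1 : τ' < τ) (h : τ ≤ t) {k : V (N / l)}
    (hk : k ≠ 0) : sym (Ah N l b t τ τ') k =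
      (l : ℝ) ^ 2 * (τ' * PinC N l b t τ k / (τ' + PinC N l b t τ k)) := by
  have hτ : 0 < τ := hτ'.trans h1
  have hlp : (0 : ℝ) < l := by exact_mod_cast H864.l_pos hl
  have hP := H963.PinC_nonneg hb hl hτ h hk
  unfold Ah
  rw [H864.sym_mul (H363.ti_acl hb.le hl hτ h) (ti_ahat _ _), sym_ahat,
    sym_acl_eq hb hl hτ h hk]
  unfold sn
  have h2 : 0 < τ + PinC N l b t τ k := by linarith
  have h3 : 0 < τ' + PinC N l b t τ k := by linarith
  have e : 1 + (τ'⁻¹ - τ⁻¹) / (l : ℝ) ^ 2 *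
      ((l : ℝ) ^ 2 * (τ * PinC N l b t τ k / (τ + PinC N l b t τ k))) =
      τ * (τ' + PinC N l b t τ k) / (τ' * (τ + PinC N l b t τ k)) := by
    field_simp
    ring
  rw [e, inv_div]
  field_simp

/-- one momentum -/
lemma rel_Ah (hb : 0 < b) (hl : l ∣ N) (hτ' : 0 < τ') (h1 : τ' < τ) (h : τ ≤ t) {k : V (N / l)}
    (hk : k ≠ 0) (hP' : 0 < PinC N l b t τ' k) :
    rel (Ah N l b t τ τ') (acl N l b t τ') k =
      τ' * ((PinC N l b t τ k - PinC N l b t τ' k) / (τ' + PinC N l b t τ k) ^ 2) *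
        ((τ' + PinC N l b t τ k) / PinC N l b t τ' k) := by
  have hτ : 0 < τ := hτ'.trans h1
  have hlp : (0 : ℝ) < l := by exact_mod_cast H864.l_pos hl
  have hP := H963.PinC_nonneg hb hl hτ h hk
  have h3 : 0 < τ' + PinC N l b t τ k := by linarith
  have h4 : 0 < τ' + PinC N l b t τ' k := by linarith
  unfold rel
  rw [if_neg hk, sym_Ah hb hl hτ' h1 h hk, sym_acl_eq hb hl hτ' (h1.le.trans h) hk]
  field_simp
  ring

lemma hsn_one {a P P' Q : ℝ} (ha : 0 < a) (hP' : 0 < P') (hPP : P' ≤ P) (hQ : a + P ≤ Q * P') :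
    0 ≤ a * ((P - P') / (a + P) ^ 2) * ((a + P) / P') ∧
    a * ((P - P') / (a + P) ^ 2) * ((a + P) / P') ≤ Q * a * ((P - P') / (a + P) ^ 2) := by
  have h1 : 0 ≤ (P - P') / (a + P) ^ 2 := div_nonneg (sub_nonneg.2 hPP) (sq_nonneg _)
  have h2 : (a + P) / P' ≤ Q := by
    rw [div_le_iff₀ hP']
    exact hQ
  have h3 : 0 ≤ (a + P) / P' := by
    have : 0 < P := hP'.trans_le hPP
    positivity
  refine ⟨mul_nonneg (mul_nonneg ha.le h1) h3, ?_⟩
  calc a * ((P - P') / (a + P) ^ 2) * ((a + P) / P') ≤ a * ((P - P') / (a + P) ^ 2) * Q :=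
        mul_le_mul_of_nonneg_left h2 (mul_nonneg ha.le h1)
    _ = _ := by ring

/-- **LEMMA HSN**: `∑ rel² ≤ (4 Q Θ)²`, all cell momenta, no number of modes -/
theorem hsn (hb : 0 < b) (hl : l ∣ N) (hτ' : 0 < τ') (h1 : τ' < τ) (h : τ ≤ t) {Q : ℝ}
    (hQ0 : 0 ≤ Q) (hQ : ∀ k : V (N / l), k ≠ 0 →
      τ' + PinC N l b t τ k ≤ Q * PinC N l b t τ' k) :
    ∑ k, rel (Ah N l b t τ τ') (acl N l b t τ') k ^ 2 ≤
      (4 * Q * ThN N l b t (τ' / 2) τ) ^ 2 := by
  have hτ : 0 < τ := hτ'.trans h1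
  have hpos : ∀ k : V (N / l), k ≠ 0 → 0 < PinC N l b t τ' k := by
    intro k hk
    have h2 := H963.PinC_nonneg hb hl hτ' (h1.le.trans h) hk
    have h3 := H963.PinC_nonneg hb hl hτ h hk
    have h4 := hQ k hk
    rcases h2.eq_or_lt with h5 | h5
    · rw [← h5, mul_zero] at h4
      linarith
    · exact h5
  have hmono : ∀ k : V (N / l), k ≠ 0 → PinC N l b t τ' k ≤ PinC N l b t τ k := fun k hk =>
    H447.PinC_mono hb hl hτ' h1.le h hk
  obtain ⟨d, hd⟩ : ∃ d : V (N / l) → ℝ, d = fun k =>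
      (PinC N l b t τ k - PinC N l b t τ' k) / (τ' + PinC N l b t τ k) ^ 2 := ⟨_, rfl⟩
  have hd0 : ∀ k : V (N / l), k ≠ 0 → 0 ≤ d k := fun k hk => by
    rw [hd]
    exact div_nonneg (sub_nonneg.2 (hmono k hk)) (sq_nonneg _)
  have hrel : ∀ k : V (N / l), k ≠ 0 →
      0 ≤ rel (Ah N l b t τ τ') (acl N l b t τ') k ∧
      rel (Ah N l b t τ τ') (acl N l b t τ') k ≤ Q * τ' * d k := by
    intro k hk
    have hdk : d k = (PinC N l b t τ k - PinC N l b t τ' k) / (τ' + PinC N l b t τ k) ^ 2 := by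
      rw [hd]
    rw [rel_Ah hb hl hτ' h1 h hk (hpos k hk), hdk]
    exact hsn_one hτ' (hpos k hk) (hmono k hk) (hQ k hk)
  have hsum : ∑ k ∈ univ.erase (0 : V (N / l)), d k ≤ 4 / τ' * ThN N l b t (τ' / 2) τ := by
    have h2 := thd_N (N := N) (l := l) (b := b) (t := t) (τ' := τ' / 2) (σ := τ') (τ := τ) hb hl
      (by linarith) (by linarith) h1.le h
    have e : τ' - τ' / 2 = τ' / 2 := by ring
    rw [e] at h2
    have h3 : ∑ k ∈ univ.erase (0 : V (N / l)), d k = 2 / τ' * (τ' / 2 *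
        ∑ k ∈ univ.erase (0 : V (N / l)),
          (PinC N l b t τ k - PinC N l b t τ' k) / (τ' + PinC N l b t τ k) ^ 2) := by
      rw [hd, ← mul_assoc]
      have : 2 / τ' * (τ' / 2) = 1 := by field_simp
      rw [this, one_mul]
    rw [h3]
    calc 2 / τ' * _ ≤ 2 / τ' * (2 * ThN N l b t (τ' / 2) τ) :=
          mul_le_mul_of_nonneg_left h2 (by positivity)
      _ = _ := by ring
  have hT := ThN_nonneg (N := N) (l := l) (b := b) (t := t) (τ' := τ' / 2) (τ := τ) hb hl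
    (by linarith) (by linarith) h
  have h0 : rel (Ah N l b t τ τ') (acl N l b t τ') 0 = 0 := by
    unfold rel
    rw [if_pos rfl]
  have e1 : ∑ k, rel (Ah N l b t τ τ') (acl N l b t τ') k ^ 2 =
      ∑ k ∈ univ.erase (0 : V (N / l)), rel (Ah N l b t τ τ') (acl N l b t τ') k ^ 2 := by
    rw [← Finset.add_sum_erase _ _ (Finset.mem_univ (0 : V (N / l))), h0]
    ring
  rw [e1]
  have hnn : ∀ k ∈ univ.erase (0 : V (N / l)),
      0 ≤ rel (Ah N l b t τ τ') (acl N l b t τ') k := fun k hk =>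
    (hrel k (Finset.ne_of_mem_erase hk)).1
  have hsq : ∑ k ∈ univ.erase (0 : V (N / l)), rel (Ah N l b t τ τ') (acl N l b t τ') k ^ 2 ≤
      (∑ k ∈ univ.erase (0 : V (N / l)), rel (Ah N l b t τ τ') (acl N l b t τ') k) ^ 2 := by
    rw [pow_two, Finset.sum_mul]
    refine Finset.sum_le_sum fun k hk => ?_
    rw [pow_two]
    exact mul_le_mul_of_nonneg_left (Finset.single_le_sum hnn hk) (hnn k hk)
  refine hsq.trans ?_
  refine pow_le_pow_left₀ (Finset.sum_nonneg hnn) ?_ 2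
  calc ∑ k ∈ univ.erase (0 : V (N / l)), rel (Ah N l b t τ τ') (acl N l b t τ') k
      ≤ ∑ k ∈ univ.erase (0 : V (N / l)), Q * τ' * d k :=
        Finset.sum_le_sum fun k hk => (hrel k (Finset.ne_of_mem_erase hk)).2
    _ = Q * τ' * ∑ k ∈ univ.erase (0 : V (N / l)), d k := by rw [Finset.mul_sum]
    _ ≤ Q * τ' * (4 / τ' * ThN N l b t (τ' / 2) τ) :=
        mul_le_mul_of_nonneg_left hsum (mul_nonneg hQ0 hτ'.le)
    _ = 4 * Q * ThN N l b t (τ' / 2) τ := by field_simp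

/-- **HSN with numbers**: a good set of the exact law of the prior `τ' / 2` -/
theorem hsn_num (hb : 0 < b) (hl : l ∣ N) (hτ' : 0 < τ') (h1 : τ' < τ) (h : τ ≤ t) {Q ρ pb : ℝ}
    (hQ0 : 0 ≤ Q) (hQ : ∀ k : V (N / l), k ≠ 0 →
      τ' + PinC N l b t τ k ≤ Q * PinC N l b t τ' k)
    {Gd : Set (V N → ℝ)} (hG : MeasurableSet Gd)
    (hR : ∀ J ∈ Gd, Neu J → Rs (wN N l b t τ) J ≤ ρ)
    (hp : 1 - pb ≤ Ech (wN N l b t (τ' / 2)) 0 (obsN N l (τ - τ' / 2))
      (Gd.indicator fun _ => (1 : ℝ)))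
    (hpb : pb ≤ 1 / 2) (hpb0 : 0 ≤ pb) :
    ∑ k, rel (Ah N l b t τ τ') (acl N l b t τ') k ^ 2 ≤ (4 * Q * (ρ + 2 * pb)) ^ 2 := by
  have h2 := ThN_le (N := N) (l := l) (b := b) (t := t) (τ' := τ' / 2) (τ := τ) hb hl
    (by linarith) (by linarith) h hG hR hp (by linarith)
  have h3 := hsn hb hl hτ' h1 h hQ0 hQ
  have hT := ThN_nonneg (N := N) (l := l) (b := b) (t := t) (τ' := τ' / 2) (τ := τ) hb hl
    (by linarith) (by linarith) h
  have h4 : -Real.log (1 - pb) ≤ 2 * pb := by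
    have h5 : 1 - (1 - pb)⁻¹ ≤ Real.log (1 - pb) := Real.one_sub_inv_le_log_of_pos (by linarith)
    have h6 : (1 - pb)⁻¹ ≤ 1 + 2 * pb := by
      rw [inv_le_iff_one_le_mul₀ (by linarith)]
      nlinarith
    linarith
  refine h3.trans (pow_le_pow_left₀ (by positivity) ?_ 2)
  exact mul_le_mul_of_nonneg_left (by linarith) (by positivity)

end

end Vale.Agent.P159.H30
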