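import Vale.Agent.P159.TM.H22.Base

/-!
SANDWICH, part 1 (helper30): Ginibre weights with masses `≥ 0`, conditioning on `L h = 0` lowers
exponential moments.
-/

open MeasureTheory Filter Topology

namespace Vale.Agent.P159.H30

open Vale.Agent.P159 Vale.Agent.P159.H353 Vale.Agent.P159.R2.H254 Vale.Agent.P159.T1.H934
open Vale.Agent.P159.TM Vale.Agent.P159.TM.H22

section gle0

variable {V : Type} [Fintype V] {E : Type} [Fintype E]

lemma gm_le_one {m : V → ℝ} (hm : ∀ v, 0 ≤ m v) (h : V → ℤ) : gm m h ≤ 1 := by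
  unfold gm
  rw [Real.exp_le_one_iff]
  have : 0 ≤ ∑ v, m v * (h v : ℝ) ^ 2 :=
    Finset.sum_nonneg fun v _ => mul_nonneg (hm v) (sq_nonneg _)
  linarith

lemma gm_mono {m m' : V → ℝ} (hm : ∀ v, m v ≤ m' v) (h : V → ℤ) : gm m' h ≤ gm m h := by
  unfold gm
  apply Real.exp_le_exp.2
  have : ∑ v, m v * (h v : ℝ) ^ 2 ≤ ∑ v, m' v * (h v : ℝ) ^ 2 :=
    Finset.sum_le_sum fun v _ => mul_le_mul_of_nonneg_right (hm v) (sq_nonneg _)
  linarith

/-- **Ginibre positivity with masses `≥ 0`.** -/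
theorem gle0 (D : (V → ℤ) →+ (E → ℤ)) {J : E → ℝ} (hJ : ∀ e, 0 ≤ J e) {m : V → ℝ}
    (hm : ∀ v, 0 ≤ m v) (hw : SG (wm D J m)) : Gle (wm D J m) (wm D J m) := by
  intro g hg
  have key : 0 ≤ BB (wm D J m) (wm D J m) g g := by
    set δ : ℕ → ℝ := fun n => 1 / ((n : ℝ) + 1) with hδ
    have hδ0 : ∀ n, 0 < δ n := fun n => by simp only [hδ]; positivity
    have hlim : Tendsto δ atTop (𝓝 0) := tendsto_one_div_add_atTop_nhds_zero_nat
    have h1 : ∀ n, 0 ≤ BB (wm D J fun v => m v + δ n) (wm D J fun v => m v + δ n) g g := fun n =>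
      (gle_self D hJ fun v => add_pos_of_nonneg_of_pos (hm v) (hδ0 n)).pos hg
    have hle : ∀ (n : ℕ) (h : V → ℤ), wm D J (fun v => m v + δ n) h ≤ wm D J m h := fun n h =>
      mul_le_mul_of_nonneg_left (gm_mono (fun v => by linarith [hδ0 n]) h) (W_nonneg hJ h)
    have hnn : ∀ (n : ℕ) (h : V → ℤ), 0 ≤ wm D J (fun v => m v + δ n) h := fun n h =>
      mul_nonneg (W_nonneg hJ h) (gm_pos _ h).le
    have hpt : ∀ h : V → ℤ, Tendsto (fun n => wm D J (fun v => m v + δ n) h) atTop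
        (𝓝 (wm D J m h)) := by
      intro h
      unfold wm gm
      refine tendsto_const_nhds.mul ?_
      refine (Real.continuous_exp.tendsto _).comp ?_
      refine Tendsto.div_const ?_ _
      refine Tendsto.neg ?_
      refine tendsto_finsetSum _ fun v _ => ?_
      refine Tendsto.mul_const _ ?_
      have := (tendsto_const_nhds (x := m v)).add hlim
      rwa [add_zero] at this
    have h2 : Tendsto (fun n => BB (wm D J fun v => m v + δ n) (wm D J fun v => m v + δ n) g g)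
        atTop (𝓝 (BB (wm D J m) (wm D J m) g g)) := by
      unfold BB
      refine tendsto_tsum_of_dominated_convergence (bound := fun x =>
        |wm D J m x.1 * wm D J m x.2 * (g (x.1 + x.2) * g (x.1 - x.2))|)
        (BB_sum hw hw hg hg).abs ?_ ?_
      · intro x
        exact ((hpt x.1).mul (hpt x.2)).mul_const _
      · refine Eventually.of_forall fun n x => ?_
        rw [Real.norm_eq_abs, abs_mul, abs_mul (wm D J m x.1 * wm D J m x.2)]
        refine mul_le_mul_of_nonneg_right ?_ (abs_nonneg _)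
        rw [abs_of_nonneg (mul_nonneg (hnn n _) (hnn n _)),
          abs_of_nonneg (mul_nonneg (hw.nonneg _) (hw.nonneg _))]
        exact mul_le_mul (hle n _) (hle n _) (hnn n _) (hw.nonneg _)
    exact ge_of_tendsto' h2 h1
  rw [abs_of_nonneg key]

end gle0

/-! ### conditioning -/

section cond

variable {V : Type} [Fintype V] {A : Type} [AddCommGroup A]

open Classical in
/-- `exp (ρ.h)` on `{L h = ζ}` -/
noncomputable def Ec (L : (V → ℤ) →+ A) (ρ : V → ℝ) (ζ : A) (h : V → ℤ) : ℝ :=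
  if L h = ζ then Real.exp (lin ρ h) else 0

lemma Gr_Ec (L : (V → ℤ) →+ A) (ρ : V → ℝ) (ζ : A) : Gr (Ec L ρ ζ) := by
  classical
  exact (Gr.exp_lin ρ).mono fun h => by
    unfold Ec
    split_ifs
    · exact le_rfl
    · rw [abs_zero]; exact abs_nonneg _

lemma Ec_mul (hA : ∀ a : A, a + a = 0 → a = 0) (L : (V → ℤ) →+ A) (u v : V → ℝ) (a b : A)
    (x y : V → ℤ) :
    Ec L u (a + b) (x + y) * Ec L v (a - b) (x - y) = Ec L (u + v) a x * Ec L (u - v) b y := by
  classical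
  unfold Ec
  by_cases h : L x = a ∧ L y = b
  · rw [if_pos (by rw [map_add, h.1, h.2]), if_pos (by rw [map_sub, h.1, h.2]), if_pos h.1,
      if_pos h.2, ← Real.exp_add, ← Real.exp_add]
    congr 1
    rw [lin_add, lin_sub, lin_add_left, lin_sub_left]
    ring
  · have h1 : ¬ (L (x + y) = a + b ∧ L (x - y) = a - b) := by
      rintro ⟨h2, h3⟩
      rw [map_add] at h2
      rw [map_sub] at h3
      have e1 : L x - a = 0 := by
        apply hA
        have : (L x + L y) + (L x - L y) = (a + b) + (a - b) := by rw [h2, h3]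
        have e : L x - a + (L x - a) = ((L x + L y) + (L x - L y)) - ((a + b) + (a - b)) := by
          abel
        rw [e, this, sub_self]
      have e2 : L x = a := sub_eq_zero.1 e1
      refine h ⟨e2, ?_⟩
      rw [e2] at h2
      exact add_left_cancel h2
    have z1 : (if L (x + y) = a + b then Real.exp (lin u (x + y)) else 0) *
        (if L (x - y) = a - b then Real.exp (lin v (x - y)) else 0) = 0 := by
      by_cases h6 : L (x + y) = a + b
      · rw [if_neg (fun h7 => h1 ⟨h6, h7⟩), mul_zero]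
      · rw [if_neg h6, zero_mul]
    have z2 : (if L x = a then Real.exp (lin (u + v) x) else 0) *
        (if L y = b then Real.exp (lin (u - v) y) else 0) = 0 := by
      by_cases h6 : L x = a
      · rw [if_neg (fun h7 => h ⟨h6, h7⟩), mul_zero]
      · rw [if_neg h6, zero_mul]
    rw [z1, z2]

/-- partition function restricted to `{L h = ζ}` -/
noncomputable def Zc (w : (V → ℤ) → ℝ) (L : (V → ℤ) →+ A) (ρ : V → ℝ) (ζ : A) : ℝ :=
  MM w (Ec L ρ ζ)

lemma Zc_nonneg {w : (V → ℤ) → ℝ} (hw : SG w) (L : (V → ℤ) →+ A) (ρ : V → ℝ) (ζ : A) :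
    0 ≤ Zc w L ρ ζ := by
  classical
  refine MM_nonneg hw fun h => ?_
  unfold Ec
  split_ifs
  · exact (Real.exp_pos _).le
  · exact le_rfl

lemma Ec_neg (L : (V → ℤ) →+ A) (ρ : V → ℝ) (ζ : A) (h : V → ℤ) :
    Ec L (-ρ) (-ζ) (-h) = Ec L ρ ζ h := by
  classical
  unfold Ec
  rw [lin_neg, lin_neg_left, neg_neg, map_neg]
  simp only [neg_inj]

lemma Zc_neg {w : (V → ℤ) → ℝ} (hw : SG w) (L : (V → ℤ) →+ A) (ρ : V → ℝ) (ζ : A) :
    Zc w L (-ρ) (-ζ) = Zc w L ρ ζ := by
  unfold Zc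
  rw [← MM_neg hw.even]
  unfold MM
  exact tsum_congr fun h => by simp only [Ec_neg]

theorem four_c {w : (V → ℤ) → ℝ} (hw : SG w) (hG : Gle w w) (hA : ∀ a : A, a + a = 0 → a = 0)
    (L : (V → ℤ) →+ A) (ρ σ : V → ℝ) (ζ ξ : A) :
    (Zc w L ρ ζ * Zc w L σ ξ) ^ 2 ≤
      Zc w L (ρ + σ) (ζ + ξ) * Zc w L (ρ - σ) (ζ - ξ) * Zc w L 0 0 ^ 2 := by
  set u : V → ℝ := (1 / 2 : ℝ) • (ρ + σ) with hu
  set v : V → ℝ := (1 / 2 : ℝ) • (ρ - σ) with hv
  have uu : u + u = ρ + σ := by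
    funext x; simp only [hu, Pi.add_apply, Pi.smul_apply, smul_eq_mul]; ring
  have u0 : u - u = 0 := sub_self u
  have vv : v + v = ρ - σ := by
    funext x; simp only [hv, Pi.add_apply, Pi.sub_apply, Pi.smul_apply, smul_eq_mul]; ring
  have uv : u + v = ρ := by
    funext x
    simp only [hu, hv, Pi.add_apply, Pi.sub_apply, Pi.smul_apply, smul_eq_mul]; ring
  have uv' : u - v = σ := by
    funext x
    simp only [hu, hv, Pi.add_apply, Pi.sub_apply, Pi.smul_apply, smul_eq_mul]; ring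
  have vu : v + u = ρ := by rw [add_comm, uv]
  have vu' : v - u = -σ := by rw [← neg_sub, uv']
  have A := Gr_Ec L u (ζ + ξ)
  have B := Gr_Ec L v (ζ - ξ)
  have key := fun (a b : _) (x y : V → ℝ) =>
    BB_eq1 hw hw (Gr_Ec L (x + y) a) (Gr_Ec L (x - y) b) (fun h k => Ec_mul hA L x y a b h k)
  have k1 : BB w w (Ec L u (ζ + ξ)) (Ec L u (ζ + ξ)) = Zc w L (ρ + σ) (ζ + ξ) * Zc w L 0 0 := by
    have := key (ζ + ξ) 0 u u
    rw [add_zero, sub_zero, uu, u0] at this
    exact this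
  have k2 : BB w w (Ec L v (ζ - ξ)) (Ec L v (ζ - ξ)) = Zc w L (ρ - σ) (ζ - ξ) * Zc w L 0 0 := by
    have := key (ζ - ξ) 0 v v
    rw [add_zero, sub_zero, vv, sub_self] at this
    exact this
  have k3 : BB w w (Ec L u (ζ + ξ)) (Ec L v (ζ - ξ)) = Zc w L ρ ζ * Zc w L σ ξ := by
    have := key ζ ξ u v
    rw [uv, uv'] at this
    exact this
  have k4 : BB w w (Ec L v (ζ - ξ)) (Ec L u (ζ + ξ)) = Zc w L ρ ζ * Zc w L σ ξ := by
    have := key ζ (-ξ) v u
    rw [vu, vu', ← sub_eq_add_neg, sub_neg_eq_add] at this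
    rw [this, ← Zc_neg hw L σ ξ]
    rfl
  have h := cs_form hw hG A B
  rw [k1, k2, k3, k4] at h
  nlinarith

/-- sum over the fibres of `L` -/
lemma sum_fib {w : (V → ℤ) → ℝ} (hw : SG w) (L : (V → ℤ) →+ A) (ρ : V → ℝ) :
    HasSum (fun ζ : A => Zc w L ρ ζ) (MM w fun h => Real.exp (lin ρ h)) := by
  classical
  have hs : Summable fun h => w h * Real.exp (lin ρ h) := hw.sum (Gr.exp_lin ρ)
  have h1 : HasSum (fun x : (Σ ζ : A, {h // L h = ζ}) =>
      w ((Equiv.sigmaFiberEquiv L) x) * Real.exp (lin ρ ((Equiv.sigmaFiberEquiv L) x)))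
      (MM w fun h => Real.exp (lin ρ h)) :=
    ((Equiv.sigmaFiberEquiv L).hasSum_iff
      (f := fun h => w h * Real.exp (lin ρ h))).2 hs.hasSum
  refine h1.sigma fun ζ => ?_
  have h2 : Zc w L ρ ζ = ∑' x : {h // L h = ζ}, w x.1 * Real.exp (lin ρ x.1) := by
    unfold Zc MM
    have e : ∀ h, w h * Ec L ρ ζ h = Set.indicator {h | L h = ζ}
        (fun h => w h * Real.exp (lin ρ h)) h := by
      intro h
      unfold Ec Set.indicator
      simp only [Set.mem_ofPred_eq, mul_ite, mul_zero]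
    rw [tsum_congr e]
    exact (tsum_subtype {h | L h = ζ} fun h => w h * Real.exp (lin ρ h)).symm
  rw [h2]
  exact (hs.comp_injective (Subtype.val_injective (p := fun h => L h = ζ))).hasSum

/-- **Conditioning on `L h = 0` lowers exponential moments.** -/
theorem cond_le {w : (V → ℤ) → ℝ} (hw : SG w) (hG : Gle w w) (hA : ∀ a : A, a + a = 0 → a = 0)
    (L : (V → ℤ) →+ A) (ρ : V → ℝ) :
    Zc w L ρ 0 * MM w (fun _ => 1) ≤ (MM w fun h => Real.exp (lin ρ h)) * Zc w L 0 0 := by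
  have s1 := sum_fib hw L ρ
  have s0 := sum_fib hw L (0 : V → ℝ)
  have e0 : (MM w fun h => Real.exp (lin (0 : V → ℝ) h)) = MM w fun _ => 1 := by
    unfold MM
    exact tsum_congr fun h => by simp only [lin_zero, Real.exp_zero]
  rw [e0] at s0
  have s1' : HasSum (fun ζ : A => Zc w L ρ (-ζ)) (MM w fun h => Real.exp (lin ρ h)) :=
    ((Equiv.neg A).hasSum_iff (f := fun ζ : A => Zc w L ρ ζ)).2 s1
  have h1 : ∀ ζ : A, Zc w L ρ 0 * Zc w L 0 ζ ≤
      (1 / 2) * (Zc w L ρ ζ + Zc w L ρ (-ζ)) * Zc w L 0 0 := by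
    intro ζ
    have h := four_c hw hG hA L ρ 0 0 ζ
    rw [add_zero, sub_zero, zero_add, zero_sub] at h
    have a0 := Zc_nonneg hw L ρ ζ
    have a1 := Zc_nonneg hw L ρ (-ζ)
    have a2 := Zc_nonneg hw L (0 : V → ℝ) (0 : A)
    refine le_of_sq_le_sq (a := _) ?_ (by positivity)
    refine h.trans ?_
    have : Zc w L ρ ζ * Zc w L ρ (-ζ) ≤ ((1 / 2) * (Zc w L ρ ζ + Zc w L ρ (-ζ))) ^ 2 := by
      nlinarith [sq_nonneg (Zc w L ρ ζ - Zc w L ρ (-ζ))]
    rw [mul_pow]
    exact mul_le_mul_of_nonneg_right this (sq_nonneg _)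
  have h2 := s0.mul_left (Zc w L ρ 0)
  have h3 := ((s1.add s1').mul_left (1 / 2)).mul_right (Zc w L 0 0)
  have h4 := hasSum_le h1 h2 h3
  refine h4.trans (le_of_eq ?_)
  ring

end cond

end Vale.Agent.P159.H30
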