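import Vale.Agent.P159.H30.Tor

/-!
SANDWICH, part 5 (helper30): lattice restrictions of a periodic `C²` function, limits.
-/

open MeasureTheory Filter Topology

namespace Vale.Agent.P159.H30

open Vale.Agent.P159 Vale.Agent.P159.H353 Vale.Agent.P159.R2.H254 Vale.Agent.P159.T1.H934
open Vale.Agent.P159.TM Vale.Agent.P159.TM.H22
open Vale.Agent.P159.TM.H859 (dirE)

/-- values at the centres -/
noncomputable def lat (N : ℕ) (w : ℝ → ℝ → ℝ) (x : ZMod (N + 1) × ZMod (N + 1)) : ℝ :=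
  w (ctr N x.1) (ctr N x.2)

/-- macroscopic energy -/
noncomputable def EN (w : ℝ → ℝ → ℝ) : ℝ := ∫ x in (0 : ℝ)..1, ∫ y in (0 : ℝ)..1,
  (deriv (fun s => w s y) x ^ 2 + deriv (fun s => w x s) y ^ 2)

/-- periodic in both variables -/
structure Per (w : ℝ → ℝ → ℝ) : Prop where
  one : ∀ x y, w (x + 1) y = w x y
  two : ∀ x y, w x (y + 1) = w x y

lemma lin_gB (N : ℕ) (w : ℝ → ℝ → ℝ) (h : Fa N → ℤ) :
    H968.lin (gB (lat N w)) h = dform N w h := by
  unfold H968.lin dform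
  rw [Fintype.sum_sum_type, Fintype.sum_prod_type, Fintype.sum_prod_type]
  congr 1
  · refine Finset.sum_congr rfl fun i _ => Finset.sum_congr rfl fun j _ => ?_
    show (w (ctr N i.castSucc) (ctr N j) - w (ctr N i.succ) (ctr N j)) *
      ((h (i.castSucc, j) - h (i.succ, j) : ℤ) : ℝ) = _
    push_cast
    ring
  · refine Finset.sum_congr rfl fun i _ => Finset.sum_congr rfl fun j _ => ?_
    show (w (ctr N i) (ctr N j.succ) - w (ctr N i) (ctr N j.castSucc)) *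
      ((h (i, j.succ) - h (i, j.castSucc) : ℤ) : ℝ) = _
    push_cast
    ring

lemma lin_cgB (N : ℕ) (w : ℝ → ℝ → ℝ) (c : ℝ) (h : Fa N → ℤ) :
    H968.lin (fun e => c * gB (lat N w) e) h = c * dform N w h := by
  rw [← lin_gB]
  unfold H968.lin
  rw [Finset.mul_sum]
  exact Finset.sum_congr rfl fun e _ => by ring

/-- the limit on the free box -/
theorem hE_lim {w : ℝ → ℝ → ℝ} (hw : ContDiff ℝ 2 fun p : ℝ × ℝ => w p.1 p.2) {b : ℝ}
    (hb : 0 < b) (c : ℝ) :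
    Tendsto (fun N => H968.hE N b fun h => Real.exp (H968.lin (fun e => c * gB (lat N w) e) h))
      atTop (𝓝 (Real.exp (c ^ 2 * (helicity b / 2 * EN w)))) := by
  have h1 := heights_lim hw hb (c : ℂ)
  have h2 := (Complex.continuous_re.tendsto _).comp h1
  have e1 : (Complex.exp ((c : ℂ) ^ 2 * ((helicity b / 2 * ∫ x in (0 : ℝ)..1, ∫ y in (0 : ℝ)..1,
      (deriv (fun s => w s y) x ^ 2 + deriv (fun s => w x s) y ^ 2) : ℝ) : ℂ))).re =
      Real.exp (c ^ 2 * (helicity b / 2 * EN w)) := by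
    rw [← Complex.ofReal_pow, ← Complex.ofReal_mul, ← Complex.ofReal_exp, Complex.ofReal_re]
    rfl
  rw [e1] at h2
  refine h2.congr fun N => ?_
  simp only [Function.comp]
  unfold hMean H968.hE
  have e2 : (∑' h : Hgt N, (hWt N b h.1 : ℂ) * Complex.exp ((c : ℂ) * (dform N w h.1 : ℝ))) =
      ((∑' h : Hgt N, hWt N b h.1 * Real.exp (c * dform N w h.1) : ℝ) : ℂ) := by
    rw [Complex.ofReal_tsum]
    refine tsum_congr fun h => ?_
    push_cast
    rfl
  rw [e2, ← Complex.ofReal_div, Complex.ofReal_re]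
  congr 1
  exact tsum_congr fun h =>
    congrArg (fun z => hWt N b h.1 * Real.exp z) (lin_cgB N w c h.1).symm

/-! ### shifts -/

lemma ctr_succ (N : ℕ) (i : Fin N) : ctr N i.succ = ctr N i.castSucc + ((N : ℝ) + 1)⁻¹ := by
  unfold ctr
  rw [Fin.val_succ, Fin.val_castSucc]
  push_cast
  have : ((N : ℝ) + 1) ≠ 0 := by positivity
  field_simp
  ring

lemma ctr_last (N : ℕ) : ctr N (Fin.last N) + ((N : ℝ) + 1)⁻¹ = ctr N 0 + 1 := by
  unfold ctr
  rw [Fin.val_last, Fin.val_zero]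
  have : ((N : ℝ) + 1) ≠ 0 := by positivity
  field_simp
  push_cast
  ring

/-- shift of a periodic function -/
lemma per_ctr {N : ℕ} {g : ℝ → ℝ} (hg : ∀ x, g (x + 1) = g x) (i : ZMod (N + 1)) :
    g (ctr N (i + 1 : ZMod (N + 1))) = g (ctr N i + ((N : ℝ) + 1)⁻¹) := by
  have key : ∀ i : Fin (N + 1), g (ctr N (@HAdd.hAdd (ZMod (N + 1)) (ZMod (N + 1))
      (ZMod (N + 1)) _ i (1 : ZMod (N + 1)))) = g (ctr N i + ((N : ℝ) + 1)⁻¹) := by
    intro i
    induction i using Fin.lastCases with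
    | last =>
      rw [last_zmod, ctr_last, hg]
      rfl
    | cast i =>
      rw [succ_zmod]
      show g (ctr N i.succ) = _
      rw [ctr_succ]
  exact key i

lemma lat_x {w : ℝ → ℝ → ℝ} (hp : Per w) (N : ℕ) (x : ZMod (N + 1) × ZMod (N + 1)) :
    lat N w (x + (1, 0)) = w (ctr N x.1 + ((N : ℝ) + 1)⁻¹) (ctr N x.2) := by
  unfold lat
  have e : x + (1, 0) = (x.1 + 1, x.2) := by
    rw [Prod.ext_iff]
    constructor
    · rfl
    · show x.2 + 0 = x.2
      rw [add_zero]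
  rw [e]
  exact per_ctr (g := fun s => w s (ctr N x.2)) (fun s => hp.one s _) x.1

lemma lat_y {w : ℝ → ℝ → ℝ} (hp : Per w) (N : ℕ) (x : ZMod (N + 1) × ZMod (N + 1)) :
    lat N w (x + (0, 1)) = w (ctr N x.1) (ctr N x.2 + ((N : ℝ) + 1)⁻¹) := by
  unfold lat
  have e : x + (0, 1) = (x.1, x.2 + 1) := by
    rw [Prod.ext_iff]
    constructor
    · show x.1 + 0 = x.1
      rw [add_zero]
    · rfl
  rw [e]
  exact per_ctr (g := fun s => w (ctr N x.1) s) (fun s => hp.two _ s) x.2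

lemma mvt1 {g p : ℝ → ℝ} (hg : ∀ x, HasDerivAt g (p x) x) (c : ℝ) {h : ℝ} (hh : 0 < h) :
    ∃ ξ, c < ξ ∧ ξ < c + h ∧ g (c + h) - g c = h * p ξ := by
  obtain ⟨ξ, ⟨h1, h2⟩, h3⟩ := exists_hasDerivAt_eq_slope g p (by linarith : c < c + h)
    (fun x _ => (hg x).continuousAt.continuousWithinAt) (fun x _ => hg x)
  refine ⟨ξ, h1, h2, ?_⟩
  rw [h3]
  have : c + h - c = h := by ring
  rw [this]
  field_simp

lemma ctr_mem (N : ℕ) (i : Fin (N + 1)) : 0 ≤ ctr N i ∧ ctr N i ≤ 1 := by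
  unfold ctr
  have h1 : (i : ℝ) ≤ N := by exact_mod_cast Nat.lt_succ_iff.1 i.2
  have h0 : (0 : ℝ) ≤ (i : ℕ) := Nat.cast_nonneg _
  constructor
  · positivity
  · rw [div_le_one (by positivity)]
    linarith

/-- Riemann sums -/
lemma riem_lat {G : ℝ → ℝ → ℝ} (hG : Continuous fun p : ℝ × ℝ => G p.1 p.2) :
    Tendsto (fun N : ℕ => (∑ x : ZMod (N + 1) × ZMod (N + 1), lat N G x) / ((N : ℝ) + 1) ^ 2)
      atTop (𝓝 (∫ x in (0 : ℝ)..1, ∫ y in (0 : ℝ)..1, G x y)) := by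
  have h := (H950.r2 hG).comp (tendsto_add_atTop_nat 1)
  refine h.congr fun N => ?_
  simp only [Function.comp]
  have e1 : ∑ x : ZMod (N + 1) × ZMod (N + 1), lat N G x =
      ∑ i : Fin (N + 1), ∑ j : Fin (N + 1), G (ctr N i) (ctr N j) := by
    rw [Fintype.sum_prod_type]
    rfl
  rw [e1, ← Fin.sum_univ_eq_sum_range (fun i : ℕ => ∑ j ∈ Finset.range (N + 1),
    G (((i : ℝ) + 1 / 2) / ((N + 1 : ℕ) : ℝ)) (((j : ℝ) + 1 / 2) / ((N + 1 : ℕ) : ℝ)))]
  have e2 : ∀ i : Fin (N + 1), ∑ j ∈ Finset.range (N + 1),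
      G (((i : ℝ) + 1 / 2) / ((N + 1 : ℕ) : ℝ)) (((j : ℝ) + 1 / 2) / ((N + 1 : ℕ) : ℝ)) =
      ∑ j : Fin (N + 1), G (ctr N i) (ctr N j) := by
    intro i
    rw [← Fin.sum_univ_eq_sum_range (fun j : ℕ =>
      G (((i : ℝ) + 1 / 2) / ((N + 1 : ℕ) : ℝ)) (((j : ℝ) + 1 / 2) / ((N + 1 : ℕ) : ℝ)))]
    refine Finset.sum_congr rfl fun j _ => ?_
    unfold ctr
    push_cast
    rfl
  simp only [e2]
  push_cast
  rfl

section

variable {w : ℝ → ℝ → ℝ} (hw : ContDiff ℝ 2 fun p : ℝ × ℝ => w p.1 p.2) (hp : Per w)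

include hw hp

lemma dirE_apx {ε : ℝ} (hε : 0 < ε) : ∀ᶠ N : ℕ in atTop, ∀ x : ZMod (N + 1) × ZMod (N + 1),
    |((N : ℝ) + 1) ^ 2 * ((lat N w (x + (1, 0)) - lat N w x) ^ 2 +
      (lat N w (x + (0, 1)) - lat N w x) ^ 2) -
      lat N (fun x y => px w x y ^ 2 + py w x y ^ 2) x| ≤ ε := by
  have c1 : Continuous fun p : ℝ × ℝ => (fun x y => px w x y ^ 2) p.1 p.2 := (cont_px hw).pow 2
  have c2 : Continuous fun p : ℝ × ℝ => (fun x y => py w x y ^ 2) p.1 p.2 := (cont_py hw).pow 2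
  obtain ⟨δ1, hδ1, h1⟩ := H950.uc (G := fun x y => px w x y ^ 2) c1 3 (half_pos hε)
  obtain ⟨δ2, hδ2, h2⟩ := H950.uc (G := fun x y => py w x y ^ 2) c2 3 (half_pos hε)
  have hlim : Tendsto (fun N : ℕ => ((N : ℝ) + 1)⁻¹) atTop (𝓝 0) := by
    have := tendsto_one_div_add_atTop_nhds_zero_nat (𝕜 := ℝ)
    refine this.congr fun N => ?_
    rw [one_div]
  filter_upwards [hlim.eventually (ge_mem_nhds (lt_min hδ1 hδ2))] with N e1 x
  have hN0 : (0 : ℝ) < (N : ℝ) + 1 := by positivity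
  set h := ((N : ℝ) + 1)⁻¹ with hh
  have hh0 : 0 < h := inv_pos.2 hN0
  have hh1 : h ≤ 1 := inv_le_one_of_one_le₀ (by
    have : (0 : ℝ) ≤ N := Nat.cast_nonneg N
    linarith)
  have hNh : ((N : ℝ) + 1) * h = 1 := by rw [hh]; field_simp
  have m1 := min_le_left δ1 δ2
  have m2 := min_le_right δ1 δ2
  obtain ⟨a0, a1⟩ := ctr_mem N x.1
  obtain ⟨b0, b1⟩ := ctr_mem N x.2
  rw [lat_x hp, lat_y hp]
  set cx := ctr N x.1
  set cy := ctr N x.2
  obtain ⟨ξ, x1, x2, x3⟩ := mvt1 (fun s => has_px hw s cy) cx hh0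
  obtain ⟨ζ, y1, y2, y3⟩ := mvt1 (fun s => has_py hw cx s) cy hh0
  have f1 := h1 ξ cy cx cy (by rw [abs_le]; constructor <;> linarith)
    (by rw [abs_le]; constructor <;> linarith) (by rw [abs_le]; constructor <;> linarith)
    (by rw [abs_le]; constructor <;> linarith) (by rw [abs_le]; constructor <;> linarith)
    (by rw [sub_self, abs_zero]; exact hδ1.le)
  have f2 := h2 cx ζ cx cy (by rw [abs_le]; constructor <;> linarith)
    (by rw [abs_le]; constructor <;> linarith) (by rw [abs_le]; constructor <;> linarith)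
    (by rw [abs_le]; constructor <;> linarith) (by rw [sub_self, abs_zero]; exact hδ2.le)
    (by rw [abs_le]; constructor <;> linarith)
  have e2 : lat N w x = w cx cy := rfl
  have e3 : lat N (fun x y => px w x y ^ 2 + py w x y ^ 2) x = px w cx cy ^ 2 + py w cx cy ^ 2 :=
    rfl
  rw [e2, e3]
  have x3' : w (cx + h) cy - w cx cy = h * px w ξ cy := x3
  have y3' : w cx (cy + h) - w cx cy = h * py w cx ζ := y3
  rw [x3', y3']
  have e4 : ((N : ℝ) + 1) ^ 2 * ((h * px w ξ cy) ^ 2 + (h * py w cx ζ) ^ 2) -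
      (px w cx cy ^ 2 + py w cx cy ^ 2) = (px w ξ cy ^ 2 - px w cx cy ^ 2) +
      (py w cx ζ ^ 2 - py w cx cy ^ 2) := by
    have : ((N : ℝ) + 1) ^ 2 * ((h * px w ξ cy) ^ 2 + (h * py w cx ζ) ^ 2) =
        (((N : ℝ) + 1) * h) ^ 2 * (px w ξ cy ^ 2 + py w cx ζ ^ 2) := by ring
    rw [this, hNh]
    ring
  rw [e4]
  refine (abs_add_le _ _).trans ?_
  have f1' : |px w ξ cy ^ 2 - px w cx cy ^ 2| ≤ ε / 2 := f1
  have f2' : |py w cx ζ ^ 2 - py w cx cy ^ 2| ≤ ε / 2 := f2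
  linarith

theorem dirE_lim : Tendsto (fun N : ℕ => dirE (lat N w)) atTop (𝓝 (EN w)) := by
  have hG : Continuous fun p : ℝ × ℝ => (fun x y => px w x y ^ 2 + py w x y ^ 2) p.1 p.2 :=
    ((cont_px hw).pow 2).add ((cont_py hw).pow 2)
  have h1 := riem_lat (G := fun x y => px w x y ^ 2 + py w x y ^ 2) hG
  have e1 : EN w = ∫ x in (0 : ℝ)..1, ∫ y in (0 : ℝ)..1, (px w x y ^ 2 + py w x y ^ 2) := by
    unfold EN
    simp only [deriv_px hw, deriv_py hw]
  rw [e1]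
  rw [Metric.tendsto_atTop] at h1 ⊢
  intro ε hε
  obtain ⟨N1, hN1⟩ := h1 (ε / 2) (half_pos hε)
  obtain ⟨N2, hN2⟩ := eventually_atTop.1 (dirE_apx hw hp (ε := ε / 4) (by linarith))
  refine ⟨max N1 N2, fun N hN => ?_⟩
  have g1 := hN1 N ((le_max_left _ _).trans hN)
  have g2 := hN2 N ((le_max_right _ _).trans hN)
  rw [Real.dist_eq] at g1 ⊢
  have hN0 : (0 : ℝ) < (N : ℝ) + 1 := by positivity
  have g3 : |dirE (lat N w) - (∑ x : ZMod (N + 1) × ZMod (N + 1),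
      lat N (fun x y => px w x y ^ 2 + py w x y ^ 2) x) / ((N : ℝ) + 1) ^ 2| ≤ ε / 4 := by
    have e2 : dirE (lat N w) - (∑ x : ZMod (N + 1) × ZMod (N + 1),
      lat N (fun x y => px w x y ^ 2 + py w x y ^ 2) x) / ((N : ℝ) + 1) ^ 2 =
      (∑ x : ZMod (N + 1) × ZMod (N + 1), (((N : ℝ) + 1) ^ 2 *
        ((lat N w (x + (1, 0)) - lat N w x) ^ 2 + (lat N w (x + (0, 1)) - lat N w x) ^ 2) -
        lat N (fun x y => px w x y ^ 2 + py w x y ^ 2) x)) / ((N : ℝ) + 1) ^ 2 := by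
      rw [Finset.sum_sub_distrib, ← Finset.mul_sum, sub_div,
        mul_div_cancel_left₀ _ (by positivity : ((N : ℝ) + 1) ^ 2 ≠ 0)]
      rfl
    rw [e2, abs_div, abs_of_pos (by positivity : (0 : ℝ) < ((N : ℝ) + 1) ^ 2),
      div_le_iff₀ (by positivity)]
    refine (Finset.abs_sum_le_sum_abs _ _).trans ((Finset.sum_le_sum fun x _ => g2 x).trans ?_)
    rw [Finset.sum_const, Finset.card_univ, nsmul_eq_mul, Fintype.card_prod, ZMod.card]
    push_cast
    apply le_of_eq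
    ring
  have g4 := abs_sub_le (dirE (lat N w)) ((∑ x : ZMod (N + 1) × ZMod (N + 1),
      lat N (fun x y => px w x y ^ 2 + py w x y ^ 2) x) / ((N : ℝ) + 1) ^ 2)
      (∫ x in (0 : ℝ)..1, ∫ y in (0 : ℝ)..1, (px w x y ^ 2 + py w x y ^ 2))
  linarith

/-- the differences along the edges which wrap around are small -/
lemma gW_bd : ∃ C : ℝ, 0 ≤ C ∧ ∀ (N : ℕ) (f : Ew N), |gW (lat N w) f| ≤ C * ((N : ℝ) + 1)⁻¹ := by
  obtain ⟨C1, h1⟩ := (H950.sqr_compact 3).exists_bound_of_continuousOn (cont_px hw).continuousOn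
  obtain ⟨C2, h2⟩ := (H950.sqr_compact 3).exists_bound_of_continuousOn (cont_py hw).continuousOn
  refine ⟨max |C1| |C2|, (abs_nonneg _).trans (le_max_left _ _), fun N f => ?_⟩
  have hN0 : (0 : ℝ) < (N : ℝ) + 1 := by positivity
  set h := ((N : ℝ) + 1)⁻¹ with hh
  have hh0 : 0 < h := inv_pos.2 hN0
  have hh1 : h ≤ 1 := inv_le_one_of_one_le₀ (by
    have : (0 : ℝ) ≤ N := Nat.cast_nonneg N
    linarith)
  rcases f with j | i
  · have e : gW (lat N w) (Sum.inl j) = w (ctr N (Fin.last N) + h) (ctr N j) -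
        w (ctr N (Fin.last N)) (ctr N j) := by
      show w (ctr N 0) (ctr N j) - w (ctr N (Fin.last N)) (ctr N j) = _
      rw [hh, ctr_last, hp.one]
    obtain ⟨a0, a1⟩ := ctr_mem N (Fin.last N)
    obtain ⟨b0, b1⟩ := ctr_mem N j
    obtain ⟨ξ, x1, x2, x3⟩ := mvt1 (fun s => has_px hw s (ctr N j)) (ctr N (Fin.last N)) hh0
    have x3' : w (ctr N (Fin.last N) + h) (ctr N j) -
        w (ctr N (Fin.last N)) (ctr N j) = h * px w ξ (ctr N j) := x3
    rw [e, x3', abs_mul, abs_of_pos hh0, mul_comm]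
    refine mul_le_mul_of_nonneg_right ?_ hh0.le
    have g := h1 (ξ, ctr N j) (H950.mem_sqr.2 ⟨by rw [abs_le]; constructor <;> linarith,
      by rw [abs_le]; constructor <;> linarith⟩)
    rw [Real.norm_eq_abs] at g
    exact g.trans ((le_abs_self _).trans (le_max_left _ _))
  · have e : gW (lat N w) (Sum.inr i) = w (ctr N i) (ctr N (Fin.last N) + h) -
        w (ctr N i) (ctr N (Fin.last N)) := by
      show w (ctr N i) (ctr N 0) - w (ctr N i) (ctr N (Fin.last N)) = _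
      rw [hh, ctr_last, hp.two]
    obtain ⟨a0, a1⟩ := ctr_mem N (Fin.last N)
    obtain ⟨b0, b1⟩ := ctr_mem N i
    obtain ⟨ξ, x1, x2, x3⟩ := mvt1 (fun s => has_py hw (ctr N i) s) (ctr N (Fin.last N)) hh0
    have x3' : w (ctr N i) (ctr N (Fin.last N) + h) -
        w (ctr N i) (ctr N (Fin.last N)) = h * py w (ctr N i) ξ := x3
    rw [e, x3', abs_mul, abs_of_pos hh0, mul_comm]
    refine mul_le_mul_of_nonneg_right ?_ hh0.le
    have g := h2 (ctr N i, ξ) (H950.mem_sqr.2 ⟨by rw [abs_le]; constructor <;> linarith,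
      by rw [abs_le]; constructor <;> linarith⟩)
    rw [Real.norm_eq_abs] at g
    exact g.trans ((le_abs_self _).trans (le_max_right _ _))

theorem wrap_lim (b c : ℝ) :
    Tendsto (fun N : ℕ => ∑ f : Ew N, b * (Real.cosh (c * gW (lat N w) f) - 1)) atTop (𝓝 0) := by
  obtain ⟨C, hC, hb⟩ := gW_bd hw hp
  have hlim : Tendsto (fun N : ℕ => ((N : ℝ) + 1)⁻¹) atTop (𝓝 0) := by
    have := tendsto_one_div_add_atTop_nhds_zero_nat (𝕜 := ℝ)
    refine this.congr fun N => ?_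
    rw [one_div]
  have hl2 : Tendsto (fun N : ℕ => (|b| * 4 * (|c| * C) ^ 2) * ((N : ℝ) + 1)⁻¹) atTop (𝓝 0) := by
    have := hlim.const_mul (|b| * 4 * (|c| * C) ^ 2)
    rwa [mul_zero] at this
  have hsm : ∀ᶠ N : ℕ in atTop, |c| * C * ((N : ℝ) + 1)⁻¹ ≤ 1 := by
    have := hlim.const_mul (|c| * C)
    rw [mul_zero] at this
    exact this.eventually (ge_mem_nhds one_pos)
  refine squeeze_zero_norm' ?_ hl2
  filter_upwards [hsm] with N hN
  have hN0 : (0 : ℝ) < (N : ℝ) + 1 := by positivity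
  have hone : ∀ f : Ew N, |b * (Real.cosh (c * gW (lat N w) f) - 1)| ≤
      |b| * (2 * ((|c| * C) * ((N : ℝ) + 1)⁻¹) ^ 2) := by
    intro f
    have h1 : |c * gW (lat N w) f| ≤ |c| * C * ((N : ℝ) + 1)⁻¹ := by
      rw [abs_mul, mul_assoc]
      exact mul_le_mul_of_nonneg_left (hb N f) (abs_nonneg c)
    have h2 := H950.cosh_le2 (h1.trans hN)
    have h3 := Real.one_le_cosh (c * gW (lat N w) f)
    rw [abs_mul, abs_of_nonneg (by linarith : 0 ≤ Real.cosh (c * gW (lat N w) f) - 1)]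
    refine mul_le_mul_of_nonneg_left (h2.trans ?_) (abs_nonneg b)
    have h4 : (c * gW (lat N w) f) ^ 2 ≤ (|c| * C * ((N : ℝ) + 1)⁻¹) ^ 2 := by
      rw [← sq_abs (c * gW (lat N w) f)]
      exact pow_le_pow_left₀ (abs_nonneg _) h1 2
    linarith
  rw [Real.norm_eq_abs]
  refine (Finset.abs_sum_le_sum_abs _ _).trans ((Finset.sum_le_sum fun f _ => hone f).trans ?_)
  rw [Finset.sum_const, Finset.card_univ, nsmul_eq_mul, Fintype.card_sum, Fintype.card_fin]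
  push_cast
  apply le_of_eq
  field_simp
  ring

end

end Vale.Agent.P159.H30
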