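import Vale.Agent.P159.H30.Lim
import Vale.Agent.P159.H789.Tor

/-!
SANDWICH, part 6 (helper30): the inequality on the torus for a source near `(t - Δ/Y) W`,
`W` the restriction of a periodic `C²` function.
-/

open MeasureTheory Filter Topology

namespace Vale.Agent.P159.H30

open Vale.Agent.P159 Vale.Agent.P159.H353 Vale.Agent.P159.R2.H254 Vale.Agent.P159.T1.H934
open Vale.Agent.P159.TM Vale.Agent.P159.TM.H22
open Vale.Agent.P159.TM.H859 (dirE)
open Vale.Agent.P159.H37 (Zs)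
open Vale.Agent.P159.TM.H104 (EM Lg li)

/-! ### Hölder -/

theorem Lg_hold {V : Type*} [Fintype V] {μ : (V → ℤ) → ℝ} (hμ : EM μ) {a c : ℝ} (ha : 0 ≤ a)
    (hc : 0 ≤ c) (hac : a + c = 1) (u v : V → ℝ) :
    Lg μ (a • u + c • v) ≤ a * Lg μ u + c * Lg μ v := by
  have hA := H37.Zs_pos hμ u
  have hB := H37.Zs_pos hμ v
  have hC := H37.Zs_pos hμ (a • u + c • v)
  have key : Zs μ (a • u + c • v) * Real.exp (-(a * Lg μ u + c * Lg μ v)) ≤ 1 := by
    have hs1 : Summable fun h : V → ℤ => 1 * μ h * Real.exp (li u h) :=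
      hμ.summ (H104.Gr.const 1) u
    have hs2 : Summable fun h : V → ℤ => 1 * μ h * Real.exp (li v h) :=
      hμ.summ (H104.Gr.const 1) v
    have hs3 : Summable fun h : V → ℤ => 1 * μ h * Real.exp (li (a • u + c • v) h) :=
      hμ.summ (H104.Gr.const 1) _
    have hpt : ∀ h : V → ℤ, 1 * μ h * Real.exp (li (a • u + c • v) h) *
        Real.exp (-(a * Lg μ u + c * Lg μ v)) ≤
        a * (1 * μ h * Real.exp (li u h) / Zs μ u) + c * (1 * μ h * Real.exp (li v h) / Zs μ v) := by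
      intro h
      have h1 := convexOn_exp.2 (Set.mem_univ (li u h - Lg μ u)) (Set.mem_univ (li v h - Lg μ v))
        ha hc hac
      simp only [smul_eq_mul] at h1
      have e1 : Real.exp (li (a • u + c • v) h) * Real.exp (-(a * Lg μ u + c * Lg μ v)) =
          Real.exp (a * (li u h - Lg μ u) + c * (li v h - Lg μ v)) := by
        rw [← Real.exp_add, H104.li_add, H104.li_smul, H104.li_smul]
        congr 1
        ring
      have e2 : ∀ w : V → ℝ, 0 < Zs μ w → Real.exp (li w h - Lg μ w) =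
          Real.exp (li w h) / Zs μ w := by
        intro w hw
        rw [Real.exp_sub]
        congr 1
        exact Real.exp_log hw
      rw [e2 u hA, e2 v hB] at h1
      calc 1 * μ h * Real.exp (li (a • u + c • v) h) * Real.exp (-(a * Lg μ u + c * Lg μ v))
          = μ h * (Real.exp (li (a • u + c • v) h) * Real.exp (-(a * Lg μ u + c * Lg μ v))) := by
            ring
        _ ≤ μ h * (a * (Real.exp (li u h) / Zs μ u) + c * (Real.exp (li v h) / Zs μ v)) := by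
            rw [e1]
            exact mul_le_mul_of_nonneg_left h1 (hμ.nn h)
        _ = _ := by ring
    have h2 := (hs3.mul_right (Real.exp (-(a * Lg μ u + c * Lg μ v)))).tsum_le_tsum hpt
      (((hs1.div_const (Zs μ u)).mul_left a).add ((hs2.div_const (Zs μ v)).mul_left c))
    rw [tsum_mul_right, ((hs1.div_const (Zs μ u)).mul_left a).tsum_add
      ((hs2.div_const (Zs μ v)).mul_left c), tsum_mul_left, tsum_mul_left, tsum_div_const,
      tsum_div_const] at h2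
    have e3 : (∑' h : V → ℤ, 1 * μ h * Real.exp (li u h)) = Zs μ u := rfl
    have e4 : (∑' h : V → ℤ, 1 * μ h * Real.exp (li v h)) = Zs μ v := rfl
    have e5 : (∑' h : V → ℤ, 1 * μ h * Real.exp (li (a • u + c • v) h)) =
      Zs μ (a • u + c • v) := rfl
    rw [e3, e4, e5, div_self hA.ne', div_self hB.ne'] at h2
    linarith
  have h3 : Zs μ (a • u + c • v) ≤ Real.exp (a * Lg μ u + c * Lg μ v) := by
    rw [Real.exp_neg, ← div_eq_mul_inv, div_le_one (Real.exp_pos _)] at key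
    exact key
  have h4 := Real.log_le_log hC h3
  rw [Real.log_exp] at h4
  exact h4

/-! ### the torus -/

/-- upper bound by the masses -/
theorem Lg_mass (N : ℕ) {b t : ℝ} (hb : 0 < b) (ht : 0 < t)
    (J : ZMod (N + 1) × ZMod (N + 1) → ℝ) :
    Lg (H37.wt (N + 1) b t) J - Lg (H37.wt (N + 1) b t) 0 ≤ (∑ x, J x ^ 2) / (2 * t) := by
  have hμ := H789.em_wt (N := N + 1) hb.le ht
  have h := torus_le N hb ht J 0 0
  have z1 : ∀ h : Fa N → ℤ, H22.lin (0 : Eb N → ℝ) (curH N h) = 0 := fun h => lin_zero _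
  have z2 : ∀ h : Fa N → ℤ, H22.lin (0 : Ew N → ℝ) (wrapH N h) = 0 := fun h => lin_zero _
  have z3 : H968.hE N b (fun h => Real.exp (H968.lin (0 : Eb N → ℝ) h)) = 1 := by
    have : (fun h : Fa N → ℤ => Real.exp (H968.lin (0 : Eb N → ℝ) h)) = fun _ => 1 := by
      funext h
      unfold H968.lin
      simp
    rw [this, H968.hE_one hb]
  have z4 : ∑ e : Ew N, b * (Real.cosh ((0 : Ew N → ℝ) e) - 1) = 0 := by simp
  simp only [z1, z2, add_zero, z3, z4, Real.exp_zero, mul_one] at h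
  have g1 : Zs (H37.wt (N + 1) b t) J = ∑' h : Fa N → ℤ, wtor N b t h * Real.exp (H22.lin J h) :=
    Zs_eq N b t J
  have g0 : Zs (H37.wt (N + 1) b t) (0 : SpecC.Tor (N + 1) → ℝ) = ∑' h, wtor N b t h :=
    (Zs_eq N b t _).trans (tsum_congr fun h => by
      have : H22.lin (0 : Fa N → ℝ) h = 0 := lin_zero h
      exact (congrArg (fun z => wtor N b t h * Real.exp z) this).trans (by rw [Real.exp_zero, mul_one]))
  have h2 : Zs (H37.wt (N + 1) b t) J ≤ Real.exp ((∑ x, J x ^ 2) / (2 * t)) *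
      Zs (H37.wt (N + 1) b t) (0 : SpecC.Tor (N + 1) → ℝ) := by
    rw [g1, g0]
    exact h
  have p1 := H37.Zs_pos hμ J
  have p0 := H37.Zs_pos hμ (0 : SpecC.Tor (N + 1) → ℝ)
  have h3 := Real.log_le_log p1 h2
  rw [Real.log_mul (Real.exp_pos _).ne' p0.ne', Real.log_exp] at h3
  have e1 : Real.log (Zs (H37.wt (N + 1) b t) J) = Lg (H37.wt (N + 1) b t) J := rfl
  have e2 : Real.log (Zs (H37.wt (N + 1) b t) (0 : SpecC.Tor (N + 1) → ℝ)) =
    Lg (H37.wt (N + 1) b t) 0 := rfl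
  rw [e1, e2] at h3
  linarith

/-- mass `κ²/(N+1)²` -/
noncomputable def tk (κ : ℝ) (N : ℕ) : ℝ := κ ^ 2 / ((N : ℝ) + 1) ^ 2

lemma tk_pos {κ : ℝ} (hκ : 0 < κ) (N : ℕ) : 0 < tk κ N := by
  unfold tk
  positivity

lemma JW_smul {N : ℕ} [NeZero N] (t Y p : ℝ) (W : ZMod N × ZMod N → ℝ) :
    JW t Y (p • W) = p • JW t Y W := by
  funext x
  unfold JW nL
  simp only [Pi.smul_apply, smul_eq_mul]
  ring

/-- **the torus with the source `p (t - Δ/Y) W`** -/
theorem M1 {w : ℝ → ℝ → ℝ} (hw : ContDiff ℝ 2 fun p : ℝ × ℝ => w p.1 p.2) (hp : Per w) {b κ : ℝ}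
    (hb : 0 < b) (hY : 0 < helicity b) (hκ : 0 < κ) (p : ℝ) {η : ℝ} (hη : 0 < η) :
    ∀ᶠ N : ℕ in atTop, Lg (H37.wt (N + 1) b (tk κ N)) (p • JW (tk κ N) (helicity b) (lat N w)) -
      Lg (H37.wt (N + 1) b (tk κ N)) 0 ≤ p ^ 2 / 2 * QW (tk κ N) (helicity b) (lat N w) + η := by
  set Y := helicity b with hYd
  have l1 := hE_lim hw hb (Y⁻¹ * p)
  have l2 := dirE_lim hw hp
  have l3 := wrap_lim hw hp b (Y⁻¹ * p)
  have l1' := (Real.continuousAt_log (Real.exp_pos _).ne').tendsto.comp l1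
  rw [Real.log_exp] at l1'
  have l4 := (l1'.add l3).sub (l2.const_mul (p ^ 2 / 2 * Y⁻¹))
  have e0 : (Y⁻¹ * p) ^ 2 * (helicity b / 2 * EN w) + 0 - p ^ 2 / 2 * Y⁻¹ * EN w = 0 := by
    rw [← hYd]
    field_simp
    ring
  rw [e0] at l4
  filter_upwards [l4.eventually (ge_mem_nhds hη)] with N hN
  simp only [Function.comp] at hN
  have ht := tk_pos hκ N
  set t := tk κ N with htd
  have hμ := H789.em_wt (N := N + 1) hb.le ht
  have h := Zs_JW N hb ht Y (p • lat N w)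
  have p1 := H37.Zs_pos hμ (JW t Y (p • lat N w))
  have p0 := H37.Zs_pos hμ (0 : SpecC.Tor (N + 1) → ℝ)
  have c1 : (fun e : Eb N => Y⁻¹ * gB (p • lat N w) e) = fun e => (Y⁻¹ * p) * gB (lat N w) e := by
    funext e
    show Y⁻¹ * (p * (lat N w) (blf e) - p * (lat N w) (brt e)) = _
    have : gB (lat N w) e = (lat N w) (blf e) - (lat N w) (brt e) := rfl
    rw [this]
    ring
  have c2 : ∀ f : Ew N, Y⁻¹ * gW (p • lat N w) f = (Y⁻¹ * p) * gW (lat N w) f := by
    intro f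
    rcases f with j | i
    · show Y⁻¹ * (p * (lat N w) (0, j) - p * (lat N w) (Fin.last N, j)) =
        (Y⁻¹ * p) * ((lat N w) (0, j) - (lat N w) (Fin.last N, j))
      ring
    · show Y⁻¹ * (p * (lat N w) (i, 0) - p * (lat N w) (i, Fin.last N)) =
        (Y⁻¹ * p) * ((lat N w) (i, 0) - (lat N w) (i, Fin.last N))
      ring
  have c2' : ∑ f : Ew N, b * (Real.cosh (Y⁻¹ * gW (p • lat N w) f) - 1) =
      ∑ f : Ew N, b * (Real.cosh ((Y⁻¹ * p) * gW (lat N w) f) - 1) :=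
    Finset.sum_congr rfl fun f _ => by rw [c2 f]
  rw [c2'] at h
  have c1' : H968.hE N b (fun h => Real.exp (H968.lin (fun e => Y⁻¹ * gB (p • lat N w) e) h)) =
      H968.hE N b (fun h => Real.exp (H968.lin (fun e => (Y⁻¹ * p) * gB (lat N w) e) h)) :=
    congrArg (fun a : Eb N → ℝ => H968.hE N b fun h => Real.exp (H968.lin a h)) c1
  rw [c1'] at h
  set A := H968.hE N b (fun h => Real.exp (H968.lin (fun e => (Y⁻¹ * p) * gB (lat N w) e) h))
    with hA
  have hA0 : 0 < A := by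
    by_contra hc
    push Not at hc
    have : Real.exp (t * (∑ x, (p • lat N w) x ^ 2) / 2) * A *
        Real.exp (∑ f : Ew N, b * (Real.cosh ((Y⁻¹ * p) * gW (lat N w) f) - 1)) *
        Zs (H37.wt (N + 1) b t) (0 : SpecC.Tor (N + 1) → ℝ) ≤ 0 := by
      have q1 := Real.exp_pos (t * (∑ x, (p • lat N w) x ^ 2) / 2)
      have q2 := Real.exp_pos (∑ f : Ew N, b * (Real.cosh ((Y⁻¹ * p) * gW (lat N w) f) - 1))
      have q3 : Real.exp (t * (∑ x, (p • lat N w) x ^ 2) / 2) * A ≤ 0 :=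
        mul_nonpos_of_nonneg_of_nonpos q1.le hc
      exact mul_nonpos_of_nonpos_of_nonneg (mul_nonpos_of_nonpos_of_nonneg q3 q2.le) p0.le
    linarith
  have h3 := Real.log_le_log p1 h
  rw [Real.log_mul (by positivity) p0.ne', Real.log_mul (by positivity) (Real.exp_pos _).ne',
    Real.log_mul (Real.exp_pos _).ne' hA0.ne', Real.log_exp, Real.log_exp] at h3
  have e1 : Real.log (Zs (H37.wt (N + 1) b t) (JW t Y (p • lat N w))) =
    Lg (H37.wt (N + 1) b t) (p • JW t Y (lat N w)) := by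
    rw [JW_smul]
    rfl
  have e2 : Real.log (Zs (H37.wt (N + 1) b t) (0 : SpecC.Tor (N + 1) → ℝ)) =
    Lg (H37.wt (N + 1) b t) 0 := rfl
  rw [e1, e2] at h3
  have e3 : t * (∑ x, (p • lat N w) x ^ 2) / 2 = p ^ 2 / 2 * (t * ∑ x, (lat N w) x ^ 2) := by
    have : ∀ x, (p • lat N w) x ^ 2 = p ^ 2 * (lat N w) x ^ 2 := fun x => by
      rw [Pi.smul_apply, smul_eq_mul]
      ring
    simp only [this]
    rw [← Finset.mul_sum]
    ring
  rw [e3] at h3
  unfold QW
  have e4 : p ^ 2 / 2 * (t * ∑ x, lat N w x ^ 2 + Y⁻¹ * dirE (lat N w)) =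
      p ^ 2 / 2 * (t * ∑ x, lat N w x ^ 2) + p ^ 2 / 2 * Y⁻¹ * dirE (lat N w) := by ring
  rw [e4]
  linarith

/-- distance of the source `t F` from `(t - Δ/Y) W` -/
noncomputable def dl {N : ℕ} [NeZero N] (t Y : ℝ) (F W : ZMod N × ZMod N → ℝ) : ℝ :=
  (∑ x, (t * F x - JW t Y W x) ^ 2) / t

/-- **the torus with a source near `(t - Δ/Y) W`** -/
theorem M2 {w : ℝ → ℝ → ℝ} (hw : ContDiff ℝ 2 fun p : ℝ × ℝ => w p.1 p.2) (hp : Per w) {b κ : ℝ}
    (hb : 0 < b) (hY : 0 < helicity b) (hκ : 0 < κ) {p : ℝ} (hp1 : 1 < p) {η : ℝ} (hη : 0 < η) :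
    ∀ᶠ N : ℕ in atTop, ∀ F : ZMod (N + 1) × ZMod (N + 1) → ℝ,
      Lg (H37.wt (N + 1) b (tk κ N)) (tk κ N • F) - Lg (H37.wt (N + 1) b (tk κ N)) 0 ≤
      tk κ N * ∑ x, F x * lat N w x - QW (tk κ N) (helicity b) (lat N w) / 2 +
        Real.sqrt (dl (tk κ N) (helicity b) F (lat N w) * QW (tk κ N) (helicity b) (lat N w)) +
        (p - 1) / 2 * QW (tk κ N) (helicity b) (lat N w) + η +
        p / (p - 1) / 2 * dl (tk κ N) (helicity b) F (lat N w) := by
  set Y := helicity b with hYd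
  have hp0 : 0 < p := by linarith
  filter_upwards [M1 hw hp hb hY hκ p (mul_pos hp0 hη)] with N hN F
  have ht := tk_pos hκ N
  set t := tk κ N with htd
  have hμ := H789.em_wt (N := N + 1) hb.le ht
  set W := lat N w with hW
  set q := p / (p - 1) with hq
  have hq0 : 0 < q := div_pos hp0 (by linarith)
  have hpq : p⁻¹ + q⁻¹ = 1 := by
    rw [hq, inv_div]
    have : p - 1 ≠ 0 := by linarith
    field_simp
    ring
  have h1 := Lg_hold hμ (a := p⁻¹) (c := q⁻¹) (inv_pos.2 hp0).le (inv_pos.2 hq0).le hpq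
    (p • JW t Y W) (q • (t • F - JW t Y W))
  have e1 : p⁻¹ • p • JW t Y W + q⁻¹ • q • (t • F - JW t Y W) = t • F := by
    rw [smul_smul, smul_smul, inv_mul_cancel₀ hp0.ne', inv_mul_cancel₀ hq0.ne', one_smul, one_smul]
    abel
  rw [e1] at h1
  have h2 := Lg_mass N hb ht (q • (t • F - JW t Y W))
  have e2 : (∑ x, (q • (t • F - JW t Y W)) x ^ 2) / (2 * t) = q ^ 2 / 2 * dl t Y F W := by
    unfold dl
    have : ∀ x, (q • (t • F - JW t Y W)) x ^ 2 = q ^ 2 * (t * F x - JW t Y W x) ^ 2 := by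
      intro x
      simp only [Pi.smul_apply, Pi.sub_apply, smul_eq_mul]
      ring
    simp only [this]
    rw [← Finset.mul_sum]
    field_simp
  rw [e2] at h2
  set L0 := Lg (H37.wt (N + 1) b t) 0 with hL0
  set Q := QW t Y W with hQ
  set D := dl t Y F W with hD
  have h3 : Lg (H37.wt (N + 1) b t) (t • F) - L0 ≤ p / 2 * Q + η + q / 2 * D := by
    have k1 := mul_le_mul_of_nonneg_left hN (inv_pos.2 hp0).le
    have k2 := mul_le_mul_of_nonneg_left h2 (inv_pos.2 hq0).le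
    have k3 : p⁻¹ * (p ^ 2 / 2 * Q + p * η) = p / 2 * Q + η := by
      field_simp
    have k4 : q⁻¹ * (q ^ 2 / 2 * D) = q / 2 * D := by
      field_simp
    rw [k3] at k1
    rw [k4] at k2
    have k5 : L0 = p⁻¹ * L0 + q⁻¹ * L0 := by
      rw [← add_mul, hpq, one_mul]
    linarith
  -- `Q = <JW, W>`
  have hself := JW_self t Y W
  rw [← hQ] at hself
  have hD0 : 0 ≤ D := div_nonneg (Finset.sum_nonneg fun _ _ => sq_nonneg _) ht.le
  have hQt : t * ∑ x, W x ^ 2 ≤ Q := by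
    rw [hQ]
    unfold QW
    have := mul_nonneg (inv_pos.2 hY).le (dirE_nonneg W)
    linarith
  have hQ0 : 0 ≤ Q := (mul_nonneg ht.le (Finset.sum_nonneg fun _ _ => sq_nonneg _)).trans hQt
  have h4 : Q - Real.sqrt (D * Q) ≤ t * ∑ x, F x * W x := by
    have e3 : t * ∑ x, F x * W x = Q + ∑ x, (t * F x - JW t Y W x) * W x := by
      rw [← hself, ← Finset.sum_add_distrib, Finset.mul_sum]
      exact Finset.sum_congr rfl fun x _ => by ring
    have e4 : |∑ x, (t * F x - JW t Y W x) * W x| ≤ Real.sqrt (D * Q) := by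
      rw [← Real.sqrt_sq_eq_abs]
      apply Real.sqrt_le_sqrt
      have cs := Finset.sum_mul_sq_le_sq_mul_sq Finset.univ (fun x => t * F x - JW t Y W x) W
      have e5 : ∑ x, (t * F x - JW t Y W x) ^ 2 = t * D := by
        rw [hD]
        unfold dl
        field_simp
      rw [e5] at cs
      calc _ ≤ t * D * ∑ x, W x ^ 2 := cs
        _ = D * (t * ∑ x, W x ^ 2) := by ring
        _ ≤ D * Q := mul_le_mul_of_nonneg_left hQt hD0
    have e6 := (abs_le.1 e4).1
    rw [e3]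
    linarith
  have h5 : p / 2 * Q = Q - Q / 2 + (p - 1) / 2 * Q := by ring
  have h6 : q / 2 * D = p / (p - 1) / 2 * D := by rw [hq]
  linarith

/-- bound for `Q` -/
lemma QW_le {N : ℕ} [NeZero N] {t Y : ℝ} (ht : 0 < t) (hY : 0 < Y) (F W : ZMod N × ZMod N → ℝ) :
    QW t Y W ≤ 2 * (t * ∑ x, F x ^ 2) + 2 * dl t Y F W := by
  have hself := JW_self t Y W
  set Q := QW t Y W with hQ
  have hQt : t * ∑ x, W x ^ 2 ≤ Q := by
    rw [hQ]
    unfold QW
    have := mul_nonneg (inv_pos.2 hY).le (dirE_nonneg W)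
    linarith
  have hQ0 : 0 ≤ Q := (mul_nonneg ht.le (Finset.sum_nonneg fun _ _ => sq_nonneg _)).trans hQt
  have h1 : ∑ x, JW t Y W x ^ 2 ≤ 2 * t ^ 2 * ∑ x, F x ^ 2 + 2 * t * dl t Y F W := by
    have e : 2 * t * dl t Y F W = 2 * ∑ x, (t * F x - JW t Y W x) ^ 2 := by
      unfold dl
      field_simp
    rw [e, Finset.mul_sum, Finset.mul_sum, ← Finset.sum_add_distrib]
    refine Finset.sum_le_sum fun x _ => ?_
    nlinarith [sq_nonneg (2 * (t * F x) - JW t Y W x)]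
  have cs := Finset.sum_mul_sq_le_sq_mul_sq Finset.univ (JW t Y W) W
  rw [hself] at cs
  -- `Q² ≤ |JW|² |W|² ≤ |JW|² Q / t`
  have h2 : t * Q ^ 2 ≤ (∑ x, JW t Y W x ^ 2) * Q := by
    calc t * Q ^ 2 ≤ t * ((∑ x, JW t Y W x ^ 2) * ∑ x, W x ^ 2) :=
          mul_le_mul_of_nonneg_left cs ht.le
      _ = (∑ x, JW t Y W x ^ 2) * (t * ∑ x, W x ^ 2) := by ring
      _ ≤ _ := mul_le_mul_of_nonneg_left hQt (Finset.sum_nonneg fun _ _ => sq_nonneg _)
  rcases hQ0.eq_or_lt with h0 | h0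
  · rw [← h0]
    have := Finset.sum_nonneg fun (x : ZMod N × ZMod N) (_ : x ∈ Finset.univ) => sq_nonneg (F x)
    have h3 : 0 ≤ dl t Y F W := div_nonneg (Finset.sum_nonneg fun _ _ => sq_nonneg _) ht.le
    positivity
  · have h3 : t * Q ≤ ∑ x, JW t Y W x ^ 2 := by
      have : (t * Q) * Q ≤ (∑ x, JW t Y W x ^ 2) * Q := by
        calc (t * Q) * Q = t * Q ^ 2 := by ring
          _ ≤ _ := h2
      exact le_of_mul_le_mul_right this h0
    have h4 : t * Q ≤ t * (2 * (t * ∑ x, F x ^ 2) + 2 * dl t Y F W) := by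
      refine h3.trans (h1.trans (le_of_eq ?_))
      ring
    exact le_of_mul_le_mul_left h4 ht

end Vale.Agent.P159.H30
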