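import Vale.Agent.P159.H692.Fn8
import Vale.Agent.P159.H586.Fern1

/-!
P159, helper30, module RF (row 4479 of helper889), part 0: the fine part of a Gaussian source. For
every Gaussian field `A g` with `A Aᵀ ≤ τ` the part `(1 - P_l) A g` (zero mean on the cells of side
`l = 2 ^ n`) has `E Rs (2 ..) ≤ C (t N²) (τ / t)³ (l √t) ^ c`; integer model (any mass form with the
mass `t` off the cells) and neutral model.
-/

namespace Vale.Agent.P159.H30

open Finset Matrix MeasureTheory Filter Topology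
open Vale.Agent.P159.TM.H104 (EM Ex Cv Lg li nh Gr)
open Vale.Agent.P159.H37
open Vale.Agent.P159.TM.Spec (V)
open Vale.Agent.P159.TM.SpecC (wT)
open Vale.Agent.P159.H864 (Dr sum_Dr levok_gen)
open Vale.Agent.P159.H692 (M6 fn_core CFN CFN_nonneg)

noncomputable section

section six

variable {I X : Type*} [Fintype I] [Fintype X]

/-- sixth moment of a Gaussian linear form -/
lemma gau_six (u : I → ℝ) :
    Integrable (fun g : I → ℝ => (∑ i, u i * g i) ^ 6) (gau I) ∧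
    ∫ g, (∑ i, u i * g i) ^ 6 ∂(gau I) ≤ 1200 * (∑ i, u i ^ 2) ^ 3 := by
  obtain ⟨s, hs⟩ : ∃ s, s = ∑ i, u i ^ 2 := ⟨_, rfl⟩
  have hs0 : 0 ≤ s := by rw [hs]; positivity
  rw [← hs]
  rcases hs0.eq_or_lt with h0 | h0
  · have hu : ∀ i, u i = 0 := by
      intro i
      have h1 : u i ^ 2 ≤ s := by
        rw [hs]
        exact Finset.single_le_sum (f := fun i => u i ^ 2) (fun i _ => sq_nonneg _)
          (Finset.mem_univ i)
      rw [← h0] at h1
      nlinarith [sq_nonneg (u i)]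
    simp [hu, ← h0]
  · obtain ⟨a, ha⟩ : ∃ a, a = 1 / √s := ⟨_, rfl⟩
    have hsq : 0 < √s := Real.sqrt_pos.2 h0
    have ha0 : 0 < a := by rw [ha]; positivity
    have has : a ^ 2 * s = 1 := by
      rw [ha, div_pow, Real.sq_sqrt hs0]
      field_simp
    have ha6 : (a ^ 6)⁻¹ = s ^ 3 := by
      have : a ^ 6 * s ^ 3 = 1 := by
        calc a ^ 6 * s ^ 3 = (a ^ 2 * s) ^ 3 := by ring
          _ = 1 := by rw [has]; norm_num
      exact inv_eq_of_mul_eq_one_right this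
    have e1 : ∀ g : I → ℝ, a * ∑ i, u i * g i = ∑ i, (a * u i) * g i := fun g => by
      rw [Finset.mul_sum]
      exact Finset.sum_congr rfl fun i _ => by ring
    have e2 : ∀ g : I → ℝ, -(a * ∑ i, u i * g i) = ∑ i, (-(a * u i)) * g i := fun g => by
      rw [e1, ← Finset.sum_neg_distrib]
      exact Finset.sum_congr rfl fun i _ => by ring
    have hi1 : Integrable (fun g : I → ℝ => Real.exp (a * ∑ i, u i * g i)) (gau I) := by
      simp only [e1]
      exact integrable_exp_lin _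
    have hi2 : Integrable (fun g : I → ℝ => Real.exp (-(a * ∑ i, u i * g i))) (gau I) := by
      simp only [e2]
      exact integrable_exp_lin _
    have hsum : ∑ i, (a * u i) ^ 2 = 1 := by
      rw [← has, hs, Finset.mul_sum]
      exact Finset.sum_congr rfl fun i _ => by ring
    have hsum2 : ∑ i, (-(a * u i)) ^ 2 = 1 := by
      rw [← hsum]
      exact Finset.sum_congr rfl fun i _ => by ring
    have h1 : ∫ g : I → ℝ, Real.exp (a * ∑ i, u i * g i) ∂(gau I) = Real.exp (1 / 2) := by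
      simp only [e1]
      rw [gau_exp, hsum]
    have h2 : ∫ g : I → ℝ, Real.exp (-(a * ∑ i, u i * g i)) ∂(gau I) = Real.exp (1 / 2) := by
      simp only [e2]
      rw [gau_exp, hsum2]
    have hpt : ∀ g : I → ℝ, (∑ i, u i * g i) ^ 6 ≤ 360 * s ^ 3 *
        (Real.exp (a * ∑ i, u i * g i) + Real.exp (-(a * ∑ i, u i * g i))) := by
      intro g
      have h3 := H692.six_le (a * ∑ i, u i * g i)
      rw [Real.cosh_eq] at h3
      have h4 : (∑ i, u i * g i) ^ 6 = s ^ 3 * (a * ∑ i, u i * g i) ^ 6 := by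
        rw [mul_pow, ← ha6]
        field_simp
      rw [h4]
      calc s ^ 3 * (a * ∑ i, u i * g i) ^ 6 ≤ s ^ 3 * (720 *
            ((Real.exp (a * ∑ i, u i * g i) + Real.exp (-(a * ∑ i, u i * g i))) / 2)) :=
            mul_le_mul_of_nonneg_left h3 (by positivity)
        _ = _ := by ring
    have hi3 := (hi1.add hi2).const_mul (360 * s ^ 3)
    have hi0 : Integrable (fun g : I → ℝ => (∑ i, u i * g i) ^ 6) (gau I) := by
      have hmm : Measurable fun g : I → ℝ => (∑ i, u i * g i) ^ 6 := by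
        refine Measurable.pow_const ?_ 6
        exact Finset.measurable_sum _ fun i _ => (measurable_pi_apply i).const_mul _
      refine hi3.mono' hmm.aestronglyMeasurable (Filter.Eventually.of_forall fun g => ?_)
      rw [Real.norm_eq_abs, abs_of_nonneg (by positivity)]
      exact hpt g
    refine ⟨hi0, (integral_mono hi0 hi3 hpt).trans ?_⟩
    have e3 : ∫ g : I → ℝ, 360 * s ^ 3 *
        (Real.exp (a * ∑ i, u i * g i) + Real.exp (-(a * ∑ i, u i * g i))) ∂(gau I) =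
        720 * s ^ 3 * Real.exp (1 / 2) := by
      rw [integral_const_mul, integral_add hi1 hi2, h1, h2]
      ring
    have h5 : Real.exp (1 / 2) ≤ 5 / 3 := by
      have h6 : Real.exp (1 / 2) ^ 2 = Real.exp 1 := by
        rw [← Real.exp_nat_mul]
        norm_num
      have h7 := Real.exp_one_lt_d9
      nlinarith [Real.exp_pos (1 / 2 : ℝ)]
    calc ∫ g : I → ℝ, 360 * s ^ 3 *
          (Real.exp (a * ∑ i, u i * g i) + Real.exp (-(a * ∑ i, u i * g i))) ∂(gau I)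
        = 720 * s ^ 3 * Real.exp (1 / 2) := e3
      _ ≤ 720 * s ^ 3 * (5 / 3) := mul_le_mul_of_nonneg_left h5 (by positivity)
      _ = 1200 * s ^ 3 := by ring

/-- **sixth moments of a Gaussian field** -/
lemma m6_gau {A : Matrix X I ℝ} {τ : ℝ} (hτ : 0 < τ)
    (hA : ∀ v : X → ℝ, ∑ i, (Aᵀ *ᵥ v) i ^ 2 ≤ τ * ∑ x, v x ^ 2) :
    M6 ((gau I).map fun g => A *ᵥ g) (11 * τ) := by
  have hm : Measurable fun g : I → ℝ => A *ᵥ g := by
    refine measurable_pi_lambda _ fun x => ?_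
    simp only [mulVec, dotProduct]
    fun_prop
  have e : ∀ (v : X → ℝ) (g : I → ℝ), v ⬝ᵥ (A *ᵥ g) = ∑ i, (Aᵀ *ᵥ v) i * g i := fun v g => by
    rw [dotProduct_mulVec, ← mulVec_transpose]
    rfl
  have hmv : ∀ v : X → ℝ, AEStronglyMeasurable (fun z : X → ℝ => (v ⬝ᵥ z) ^ 6)
      ((gau I).map fun g => A *ᵥ g) := fun v =>
    ((H692.meas_dot v).pow_const 6).aestronglyMeasurable
  refine ⟨by positivity, fun v => ?_, fun v => ?_⟩
  · rw [integrable_map_measure (hmv v) hm.aemeasurable]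
    simp only [Function.comp_def, e]
    exact (gau_six _).1
  · rw [integral_map hm.aemeasurable (hmv v)]
    simp only [e]
    refine (gau_six _).2.trans ?_
    have h1 : (∑ i, (Aᵀ *ᵥ v) i ^ 2) ^ 3 ≤ (τ * ∑ x, v x ^ 2) ^ 3 :=
      pow_le_pow_left₀ (by positivity) (hA v) 3
    have h2 : 0 ≤ (τ * ∑ x, v x ^ 2) ^ 3 := by positivity
    calc 1200 * (∑ i, (Aᵀ *ᵥ v) i ^ 2) ^ 3 ≤ 1331 * (τ * ∑ x, v x ^ 2) ^ 3 := by linarith
      _ = (11 * τ * ∑ x, v x ^ 2) ^ 3 := by ring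

end six

/-- **the fine part of a Gaussian source**, integer model, mass `t` off the cells -/
theorem fine_gau {b : ℝ} (hb : 0 ≤ b) : ∃ C c : ℝ, 0 ≤ C ∧ 0 < c ∧ c ≤ 1 ∧
    ∀ (N : ℕ) [NeZero N] (n p : ℕ), 2 ^ n ∣ N → 2 ^ p ∣ N →
    ∀ t : ℝ, 0 < t → t * ((2 : ℝ) ^ n) ^ 2 ≤ 1 → 1 < t * 4 ^ (p + 1) →
    ∀ (m0 : ℝ) (M : Matrix (V N) (V N) ℝ), 0 < m0 → Mᵀ = M →
      (∀ u : V N → ℝ, m0 * ∑ x, u x ^ 2 ≤ qf M u) →
      (∀ u : V N → ℝ, qf M u ≤ t * ∑ x, u x ^ 2) →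
      (∀ y : V N → ℝ, cellP N (2 ^ n) *ᵥ y = 0 → M *ᵥ y = t • y) →
    ∀ {I : Type*} [Fintype I] (A : Matrix (V N) I ℝ) (τ : ℝ), t ≤ τ →
      (∀ v : V N → ℝ, ∑ i, (Aᵀ *ᵥ v) i ^ 2 ≤ τ * ∑ x, v x ^ 2) →
    Integrable (fun g => Rs (wM (wT b N) M)
      ((2 : ℝ) • ((1 - cellP N (2 ^ n)) *ᵥ (A *ᵥ g)))) (gau I) ∧
    ∫ g, Rs (wM (wT b N) M) ((2 : ℝ) • ((1 - cellP N (2 ^ n)) *ᵥ (A *ᵥ g))) ∂(gau I) ≤
      C * ((t * (N : ℝ) ^ 2) * (τ / t) ^ 3) * ((2 : ℝ) ^ n * √t) ^ c := by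
  obtain ⟨C0, C1, κ, c, hC0, hC1, hκ, hc, hc1, hlev⟩ := levok_gen hb
  have hCF := CFN_nonneg hC0 hC1 hκ hc
  refine ⟨1331 * CFN C0 C1 κ c, c / 2, by positivity, by positivity, by linarith, ?_⟩
  intro N _ n p hn hp t ht htn htp m0 M hm0 hMs hMl hMu hfix I _ A τ htτ hA
  have hμ := H789.em_wM_wT hb hm0 hMl
  have hE := H789.ev_wM_wT (b := b) M
  have hK : PK (wM (wT b N) M) := H789.pk_wM_wT' hb hm0 hMl
  have hm : Measurable fun g : I → ℝ => A *ᵥ g := by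
    refine measurable_pi_lambda _ fun x => ?_
    simp only [mulVec, dotProduct]
    fun_prop
  have : IsProbabilityMeasure ((gau I).map fun g => A *ᵥ g) :=
    Measure.isProbabilityMeasure_map hm.aemeasurable
  have hτ0 : 0 < τ := ht.trans_le htτ
  have hcore := fn_core hμ hE hK hC0 hC1 hκ hc hc1 ht htn htp (D := fun i => Dr N (2 ^ i)) (N := N)
    (fun i hi j hij hjp ht1 => hlev N i j n hij (by omega)
      (dvd_trans (pow_dvd_pow 2 hjp) hp) hn t ht ht1 m0 M hm0 hMs hMl hMu hfix)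
    (m6_gau hτ0 hA) (by linarith)
  rw [sum_Dr] at hcore
  have hmR : Measurable fun z : V N → ℝ => Rs (wM (wT b N) M)
      ((2 : ℝ) • ((1 - cellP N (2 ^ n)) *ᵥ z)) := by
    have h1 : Measurable fun z : V N → ℝ => Rs (wM (wT b N) M) ((2 : ℝ) • z) :=
      (H692.continuous_Rs hμ).measurable.comp (measurable_const_smul _)
    have h2 : Measurable fun z : V N → ℝ => (1 - cellP N (2 ^ n)) *ᵥ z := by
      refine measurable_pi_lambda _ fun x => ?_
      simp only [mulVec, dotProduct]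
      fun_prop
    exact h1.comp h2
  obtain ⟨h1, h2⟩ := hcore
  rw [integrable_map_measure hmR.aestronglyMeasurable hm.aemeasurable] at h1
  rw [integral_map hm.aemeasurable hmR.aestronglyMeasurable] at h2
  refine ⟨h1, h2.trans (le_of_eq ?_)⟩
  have e1 : 11 * τ / t = 11 * (τ / t) := by ring
  rw [e1]
  ring

/-- Fatou -/
lemma fatou_seq {Ω : Type*} [MeasurableSpace Ω] {μ : Measure Ω} {f : ℕ → Ω → ℝ} {F : Ω → ℝ} {B : ℝ}
    (h0 : ∀ k g, 0 ≤ f k g) (hm : ∀ k, Measurable (f k)) (hF : Measurable F)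
    (hi : ∀ k, Integrable (f k) μ) (hB : ∀ k, ∫ g, f k g ∂μ ≤ B)
    (hl : ∀ g, Tendsto (fun k => f k g) atTop (𝓝 (F g))) : Integrable F μ ∧ ∫ g, F g ∂μ ≤ B := by
  have hF0 : ∀ g, 0 ≤ F g := fun g => ge_of_tendsto' (hl g) fun k => h0 k g
  have hB0 : 0 ≤ B := (integral_nonneg (h0 0)).trans (hB 0)
  have h1 : ∫⁻ g, ENNReal.ofReal (F g) ∂μ ≤ ENNReal.ofReal B := by
    calc ∫⁻ g, ENNReal.ofReal (F g) ∂μ
        = ∫⁻ g, Filter.liminf (fun k : ℕ => ENNReal.ofReal (f k g)) atTop ∂μ := by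
          refine lintegral_congr fun g => ?_
          have h2 : Tendsto (fun k => ENNReal.ofReal (f k g)) atTop (𝓝 (ENNReal.ofReal (F g))) :=
            (ENNReal.continuous_ofReal.tendsto _).comp (hl g)
          rw [h2.liminf_eq]
      _ ≤ Filter.liminf (fun k : ℕ => ∫⁻ g, ENNReal.ofReal (f k g) ∂μ) atTop :=
          lintegral_liminf_le fun k => (hm k).ennreal_ofReal
      _ ≤ ENNReal.ofReal B := by
          refine (Filter.liminf_le_liminf (v := fun _ => ENNReal.ofReal B)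
            (Filter.Eventually.of_forall fun k => ?_)).trans ?_
          · rw [← ofReal_integral_eq_lintegral_ofReal (hi k) (Filter.Eventually.of_forall (h0 k))]
            exact ENNReal.ofReal_le_ofReal (hB k)
          · simp
  have h2 : Integrable F μ := by
    refine ⟨hF.aestronglyMeasurable, ?_⟩
    rw [hasFiniteIntegral_iff_ofReal (Filter.Eventually.of_forall hF0)]
    exact h1.trans_lt ENNReal.ofReal_lt_top
  refine ⟨h2, ?_⟩
  rw [← ENNReal.ofReal_le_ofReal_iff hB0,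
    ofReal_integral_eq_lintegral_ofReal h2 (Filter.Eventually.of_forall hF0)]
  exact h1

lemma measurable_fineA {N : ℕ} [NeZero N] {μ : (V N → ℤ) → ℝ} (hμ : EM μ) {I : Type*} [Fintype I]
    (l : ℕ) (A : Matrix (V N) I ℝ) :
    Measurable fun g : I → ℝ => Rs μ ((2 : ℝ) • ((1 - cellP N l) *ᵥ (A *ᵥ g))) := by
  have h1 : Measurable fun z : V N → ℝ => Rs μ ((2 : ℝ) • z) :=
    (H692.continuous_Rs hμ).measurable.comp (measurable_const_smul _)
  have h2 : Measurable fun g : I → ℝ => (1 - cellP N l) *ᵥ (A *ᵥ g) := by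
    have : (fun g : I → ℝ => (1 - cellP N l) *ᵥ (A *ᵥ g)) = fun g => ((1 - cellP N l) * A) *ᵥ g := by
      funext g
      rw [mulVec_mulVec]
    rw [this]
    refine measurable_pi_lambda _ fun x => ?_
    simp only [mulVec, dotProduct]
    fun_prop
  exact h1.comp h2

/-- **the fine part of a Gaussian source**, neutral model, mass `t` off the cells -/
theorem fine_gau_N {b : ℝ} (hb : 0 ≤ b) : ∃ C c : ℝ, 0 ≤ C ∧ 0 < c ∧ c ≤ 1 ∧
    ∀ (N : ℕ) [NeZero N] (n p : ℕ), 2 ^ n ∣ N → 2 ^ p ∣ N →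
    ∀ t : ℝ, 0 < t → t * ((2 : ℝ) ^ n) ^ 2 ≤ 1 → 1 < t * 4 ^ (p + 1) →
    ∀ (a m : ℝ) (M : Matrix (V N) (V N) ℝ), H159.MasN t a M m M m →
      (∀ y : V N → ℝ, cellP N (2 ^ n) *ᵥ y = 0 → M *ᵥ y = t • y) →
    ∀ (x₀ : V N) {I : Type*} [Fintype I] (A : Matrix (V N) I ℝ) (τ : ℝ), t ≤ τ →
      (∀ v : V N → ℝ, ∑ i, (Aᵀ *ᵥ v) i ^ 2 ≤ τ * ∑ x, v x ^ 2) →
    Integrable (fun g => Rs (H963.nM (wT b N) M m x₀)
      ((2 : ℝ) • ((1 - cellP N (2 ^ n)) *ᵥ (A *ᵥ g)))) (gau I) ∧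
    ∫ g, Rs (H963.nM (wT b N) M m x₀)
        ((2 : ℝ) • ((1 - cellP N (2 ^ n)) *ᵥ (A *ᵥ g))) ∂(gau I) ≤
      C * ((t * (N : ℝ) ^ 2) * (τ / t) ^ 3) * ((2 : ℝ) ^ n * √t) ^ c := by
  obtain ⟨C, c, hC, hc, hc1, h⟩ := fine_gau hb
  refine ⟨C, c, hC, hc, hc1, ?_⟩
  intro N _ n p hn hp t ht htn htp a m M hMas hfix x₀ I _ A τ htτ hA
  have hw := H963.gw_wT (N := N) hb
  have hev := hMas.ev ht
  -- a sequence of masses of the constants
  obtain ⟨u, hu1, hu2⟩ := exists_seq_strictAnti_tendsto' (show (0 : ℝ) < 1 by norm_num)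
  have hut : Tendsto u atTop (𝓝[>] (0 : ℝ)) := by
    rw [tendsto_nhdsWithin_iff]
    exact ⟨hu2.2, Filter.Eventually.of_forall fun k => (hu2.1 k).1⟩
  obtain ⟨k0, hk0⟩ := Filter.eventually_atTop.1 (hut.eventually hev)
  have hneu : ∀ g : I → ℝ, H963.Neu ((2 : ℝ) • ((1 - cellP N (2 ^ n)) *ᵥ (A *ᵥ g))) := by
    intro g
    refine H692.Neu_two ?_
    have h1 : cellP N (2 ^ n) *ᵥ ((1 - cellP N (2 ^ n)) *ᵥ (A *ᵥ g)) = 0 := by
      rw [mulVec_mulVec, Matrix.mul_sub, Matrix.mul_one, H864.cellP_idem hn, sub_self,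
        Matrix.zero_mulVec]
    exact H692.sum_of_cellP hn h1
  have hk := fun k => hk0 _ (Nat.le_add_left k0 k)
  have hmain : ∀ k, _ := fun k => h N n p hn hp t ht htn htp (u (k + k0))
    (H159.Ms M m (u (k + k0))) (hk k).1 (hk k).2.s1 (hk k).2.lo (hk k).2.up
    (fun y hy => by rw [H692.Ms_mulVec M m _ (H692.sum_of_cellP hn hy), hfix y hy]) A τ htτ hA
  refine fatou_seq (f := fun k g => Rs (wM (wT b N) (H159.Ms M m (u (k + k0))))
    ((2 : ℝ) • ((1 - cellP N (2 ^ n)) *ᵥ (A *ᵥ g)))) (fun k g => ?_) (fun k => ?_) ?_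
    (fun k => (hmain k).1) (fun k => (hmain k).2) fun g => ?_
  · exact H789.Rs_nonneg (H789.em_wM_wT hb (hk k).1 (hk k).2.lo) (H789.ev_wM_wT _)
      (H789.pk_wM_wT' hb (hk k).1 (hk k).2.lo) _
  · exact measurable_fineA (H789.em_wM_wT hb (hk k).1 (hk k).2.lo) _ A
  · exact measurable_fineA (hw.em_nM hMas.mf1 x₀) _ A
  · have h1 := (H692.lim_Rs hw hMas.mf1 x₀ (hneu g)).comp
      (hut.comp (tendsto_add_atTop_nat k0))
    exact h1

end

end Vale.Agent.P159.H30
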