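import Vale.Agent.P159.H30.Sand

/-!
SANDWICH, part 10 (helper30): uniformity in the mass. `tk κ N = κ² / (N + 1)²`, `κ` in a compact
interval.
-/

open MeasureTheory Filter Topology

namespace Vale.Agent.P159.H30

open Vale.Agent.P159 Vale.Agent.P159.H353 Vale.Agent.P159.R2.H254 Vale.Agent.P159.T1.H934
open Vale.Agent.P159.TM Vale.Agent.P159.TM.H22
open Vale.Agent.P159.TM.H859 (dirE)
open Vale.Agent.P159.H37 (Zs)
open Vale.Agent.P159.TM.H104 (EM Lg li)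

/-- **the torus with the source `p (t - Δ/Y) W`** -/
theorem M1g {w : ℝ → ℝ → ℝ} (hw : ContDiff ℝ 2 fun p : ℝ × ℝ => w p.1 p.2) (hp : Per w) {b : ℝ}
    (hb : 0 < b) (hY : 0 < helicity b) (p : ℝ) {η : ℝ} (hη : 0 < η) :
    ∀ᶠ N : ℕ in atTop, ∀ t : ℝ, 0 < t → Lg (H37.wt (N + 1) b t) (p • JW t (helicity b) (lat N w)) -
      Lg (H37.wt (N + 1) b t) 0 ≤ p ^ 2 / 2 * QW t (helicity b) (lat N w) + η := by
  set Y := helicity b with hYd
  have l1 := hE_lim hw hb (Y⁻¹ * p)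
  have l2 := dirE_lim hw hp
  have l3 := wrap_lim hw hp b (Y⁻¹ * p)
  have l1' := (Real.continuousAt_log (Real.exp_pos _).ne').tendsto.comp l1
  rw [Real.log_exp] at l1'
  have l4 := (l1'.add l3).sub (l2.const_mul (p ^ 2 / 2 * Y⁻¹))
  have e0 : (Y⁻¹ * p) ^ 2 * (helicity b / 2 * EN w) + 0 - p ^ 2 / 2 * Y⁻¹ * EN w = 0 := by
    rw [← hYd]
    field_simp
    ring
  rw [e0] at l4
  filter_upwards [l4.eventually (ge_mem_nhds hη)] with N hN t ht
  simp only [Function.comp] at hN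
  have hμ := H789.em_wt (N := N + 1) hb.le ht
  have h := Zs_JW N hb ht Y (p • lat N w)
  have p1 := H37.Zs_pos hμ (JW t Y (p • lat N w))
  have p0 := H37.Zs_pos hμ (0 : SpecC.Tor (N + 1) → ℝ)
  have c1 : (fun e : Eb N => Y⁻¹ * gB (p • lat N w) e) = fun e => (Y⁻¹ * p) * gB (lat N w) e := by
    funext e
    show Y⁻¹ * (p * (lat N w) (blf e) - p * (lat N w) (brt e)) = _
    have : gB (lat N w) e = (lat N w) (blf e) - (lat N w) (brt e) := rfl
    rw [this]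
    ring
  have c2 : ∀ f : Ew N, Y⁻¹ * gW (p • lat N w) f = (Y⁻¹ * p) * gW (lat N w) f := by
    intro f
    rcases f with j | i
    · show Y⁻¹ * (p * (lat N w) (0, j) - p * (lat N w) (Fin.last N, j)) =
        (Y⁻¹ * p) * ((lat N w) (0, j) - (lat N w) (Fin.last N, j))
      ring
    · show Y⁻¹ * (p * (lat N w) (i, 0) - p * (lat N w) (i, Fin.last N)) =
        (Y⁻¹ * p) * ((lat N w) (i, 0) - (lat N w) (i, Fin.last N))
      ring
  have c2' : ∑ f : Ew N, b * (Real.cosh (Y⁻¹ * gW (p • lat N w) f) - 1) =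
      ∑ f : Ew N, b * (Real.cosh ((Y⁻¹ * p) * gW (lat N w) f) - 1) :=
    Finset.sum_congr rfl fun f _ => by rw [c2 f]
  rw [c2'] at h
  have c1' : H968.hE N b (fun h => Real.exp (H968.lin (fun e => Y⁻¹ * gB (p • lat N w) e) h)) =
      H968.hE N b (fun h => Real.exp (H968.lin (fun e => (Y⁻¹ * p) * gB (lat N w) e) h)) :=
    congrArg (fun a : Eb N → ℝ => H968.hE N b fun h => Real.exp (H968.lin a h)) c1
  rw [c1'] at h
  set A := H968.hE N b (fun h => Real.exp (H968.lin (fun e => (Y⁻¹ * p) * gB (lat N w) e) h))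
    with hA
  have hA0 : 0 < A := by
    by_contra hc
    push Not at hc
    have : Real.exp (t * (∑ x, (p • lat N w) x ^ 2) / 2) * A *
        Real.exp (∑ f : Ew N, b * (Real.cosh ((Y⁻¹ * p) * gW (lat N w) f) - 1)) *
        Zs (H37.wt (N + 1) b t) (0 : SpecC.Tor (N + 1) → ℝ) ≤ 0 := by
      have q1 := Real.exp_pos (t * (∑ x, (p • lat N w) x ^ 2) / 2)
      have q2 := Real.exp_pos (∑ f : Ew N, b * (Real.cosh ((Y⁻¹ * p) * gW (lat N w) f) - 1))
      have q3 : Real.exp (t * (∑ x, (p • lat N w) x ^ 2) / 2) * A ≤ 0 :=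
        mul_nonpos_of_nonneg_of_nonpos q1.le hc
      exact mul_nonpos_of_nonpos_of_nonneg (mul_nonpos_of_nonpos_of_nonneg q3 q2.le) p0.le
    linarith
  have h3 := Real.log_le_log p1 h
  rw [Real.log_mul (by positivity) p0.ne', Real.log_mul (by positivity) (Real.exp_pos _).ne',
    Real.log_mul (Real.exp_pos _).ne' hA0.ne', Real.log_exp, Real.log_exp] at h3
  have e1 : Real.log (Zs (H37.wt (N + 1) b t) (JW t Y (p • lat N w))) =
    Lg (H37.wt (N + 1) b t) (p • JW t Y (lat N w)) := by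
    rw [JW_smul]
    rfl
  have e2 : Real.log (Zs (H37.wt (N + 1) b t) (0 : SpecC.Tor (N + 1) → ℝ)) =
    Lg (H37.wt (N + 1) b t) 0 := rfl
  rw [e1, e2] at h3
  have e3 : t * (∑ x, (p • lat N w) x ^ 2) / 2 = p ^ 2 / 2 * (t * ∑ x, (lat N w) x ^ 2) := by
    have : ∀ x, (p • lat N w) x ^ 2 = p ^ 2 * (lat N w) x ^ 2 := fun x => by
      rw [Pi.smul_apply, smul_eq_mul]
      ring
    simp only [this]
    rw [← Finset.mul_sum]
    ring
  rw [e3] at h3
  unfold QW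
  have e4 : p ^ 2 / 2 * (t * ∑ x, lat N w x ^ 2 + Y⁻¹ * dirE (lat N w)) =
      p ^ 2 / 2 * (t * ∑ x, lat N w x ^ 2) + p ^ 2 / 2 * Y⁻¹ * dirE (lat N w) := by ring
  rw [e4]
  linarith

/-- **the torus with a source near `(t - Δ/Y) W`** -/
theorem M2g {w : ℝ → ℝ → ℝ} (hw : ContDiff ℝ 2 fun p : ℝ × ℝ => w p.1 p.2) (hp : Per w) {b : ℝ}
    (hb : 0 < b) (hY : 0 < helicity b) {p : ℝ} (hp1 : 1 < p) {η : ℝ} (hη : 0 < η) :
    ∀ᶠ N : ℕ in atTop, ∀ t : ℝ, 0 < t → ∀ F : ZMod (N + 1) × ZMod (N + 1) → ℝ,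
      Lg (H37.wt (N + 1) b t) (t • F) - Lg (H37.wt (N + 1) b t) 0 ≤
      t * ∑ x, F x * lat N w x - QW t (helicity b) (lat N w) / 2 +
        Real.sqrt (dl t (helicity b) F (lat N w) * QW t (helicity b) (lat N w)) +
        (p - 1) / 2 * QW t (helicity b) (lat N w) + η +
        p / (p - 1) / 2 * dl t (helicity b) F (lat N w) := by
  set Y := helicity b with hYd
  have hp0 : 0 < p := by linarith
  filter_upwards [M1g hw hp hb hY p (mul_pos hp0 hη)] with N hN t ht F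
  have hμ := H789.em_wt (N := N + 1) hb.le ht
  set W := lat N w with hW
  set q := p / (p - 1) with hq
  have hq0 : 0 < q := div_pos hp0 (by linarith)
  have hpq : p⁻¹ + q⁻¹ = 1 := by
    rw [hq, inv_div]
    have : p - 1 ≠ 0 := by linarith
    field_simp
    ring
  have h1 := Lg_hold hμ (a := p⁻¹) (c := q⁻¹) (inv_pos.2 hp0).le (inv_pos.2 hq0).le hpq
    (p • JW t Y W) (q • (t • F - JW t Y W))
  have e1 : p⁻¹ • p • JW t Y W + q⁻¹ • q • (t • F - JW t Y W) = t • F := by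
    rw [smul_smul, smul_smul, inv_mul_cancel₀ hp0.ne', inv_mul_cancel₀ hq0.ne', one_smul, one_smul]
    abel
  rw [e1] at h1
  have h2 := Lg_mass N hb ht (q • (t • F - JW t Y W))
  have e2 : (∑ x, (q • (t • F - JW t Y W)) x ^ 2) / (2 * t) = q ^ 2 / 2 * dl t Y F W := by
    unfold dl
    have : ∀ x, (q • (t • F - JW t Y W)) x ^ 2 = q ^ 2 * (t * F x - JW t Y W x) ^ 2 := by
      intro x
      simp only [Pi.smul_apply, Pi.sub_apply, smul_eq_mul]
      ring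
    simp only [this]
    rw [← Finset.mul_sum]
    field_simp
  rw [e2] at h2
  set L0 := Lg (H37.wt (N + 1) b t) 0 with hL0
  set Q := QW t Y W with hQ
  set D := dl t Y F W with hD
  have h3 : Lg (H37.wt (N + 1) b t) (t • F) - L0 ≤ p / 2 * Q + η + q / 2 * D := by
    have k1 := mul_le_mul_of_nonneg_left (hN t ht) (inv_pos.2 hp0).le
    have k2 := mul_le_mul_of_nonneg_left h2 (inv_pos.2 hq0).le
    have k3 : p⁻¹ * (p ^ 2 / 2 * Q + p * η) = p / 2 * Q + η := by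
      field_simp
    have k4 : q⁻¹ * (q ^ 2 / 2 * D) = q / 2 * D := by
      field_simp
    rw [k3] at k1
    rw [k4] at k2
    have k5 : L0 = p⁻¹ * L0 + q⁻¹ * L0 := by
      rw [← add_mul, hpq, one_mul]
    linarith
  -- `Q = <JW, W>`
  have hself := JW_self t Y W
  rw [← hQ] at hself
  have hD0 : 0 ≤ D := div_nonneg (Finset.sum_nonneg fun _ _ => sq_nonneg _) ht.le
  have hQt : t * ∑ x, W x ^ 2 ≤ Q := by
    rw [hQ]
    unfold QW
    have := mul_nonneg (inv_pos.2 hY).le (dirE_nonneg W)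
    linarith
  have hQ0 : 0 ≤ Q := (mul_nonneg ht.le (Finset.sum_nonneg fun _ _ => sq_nonneg _)).trans hQt
  have h4 : Q - Real.sqrt (D * Q) ≤ t * ∑ x, F x * W x := by
    have e3 : t * ∑ x, F x * W x = Q + ∑ x, (t * F x - JW t Y W x) * W x := by
      rw [← hself, ← Finset.sum_add_distrib, Finset.mul_sum]
      exact Finset.sum_congr rfl fun x _ => by ring
    have e4 : |∑ x, (t * F x - JW t Y W x) * W x| ≤ Real.sqrt (D * Q) := by
      rw [← Real.sqrt_sq_eq_abs]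
      apply Real.sqrt_le_sqrt
      have cs := Finset.sum_mul_sq_le_sq_mul_sq Finset.univ (fun x => t * F x - JW t Y W x) W
      have e5 : ∑ x, (t * F x - JW t Y W x) ^ 2 = t * D := by
        rw [hD]
        unfold dl
        field_simp
      rw [e5] at cs
      calc _ ≤ t * D * ∑ x, W x ^ 2 := cs
        _ = D * (t * ∑ x, W x ^ 2) := by ring
        _ ≤ D * Q := mul_le_mul_of_nonneg_left hQt hD0
    have e6 := (abs_le.1 e4).1
    rw [e3]
    linarith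
  have h5 : p / 2 * Q = Q - Q / 2 + (p - 1) / 2 * Q := by ring
  have h6 : q / 2 * D = p / (p - 1) / 2 * D := by rw [hq]
  linarith


/-- change of the mass and of the profile -/
lemma dl_le3 {N : ℕ} [NeZero N] {t s Y : ℝ} (ht : 0 < t) (hs : 0 < s) (F F' W : ZMod N × ZMod N → ℝ) :
    dl s Y F W ≤ 3 * (t / s) * dl t Y F' W + 3 / s * ∑ x, (s * F x - t * F' x) ^ 2 +
      3 * (s - t) ^ 2 / s * ∑ x, W x ^ 2 := by
  unfold dl
  rw [div_le_iff₀ hs]
  have e : (3 * (t / s) * ((∑ x, (t * F' x - JW t Y W x) ^ 2) / t) +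
      3 / s * ∑ x, (s * F x - t * F' x) ^ 2 + 3 * (s - t) ^ 2 / s * ∑ x, W x ^ 2) * s =
      ∑ x, (3 * (t * F' x - JW t Y W x) ^ 2 + 3 * (s * F x - t * F' x) ^ 2 +
        3 * ((s - t) * W x) ^ 2) := by
    have h1 : ∀ x, ((s - t) * W x) ^ 2 = (s - t) ^ 2 * W x ^ 2 := fun x => by ring
    simp only [h1, Finset.sum_add_distrib, ← Finset.mul_sum]
    field_simp
  rw [e]
  refine Finset.sum_le_sum fun x _ => ?_
  have h2 : s * F x - JW s Y W x = (t * F' x - JW t Y W x) + (s * F x - t * F' x) -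
      (s - t) * W x := by
    unfold JW
    ring
  rw [h2]
  set a := t * F' x - JW t Y W x
  set b := s * F x - t * F' x
  set c := (s - t) * W x
  nlinarith [sq_nonneg (a - b), sq_nonneg (a + c), sq_nonneg (b + c)]

/-- the error of the change from `(κ0, f0)` to `(κ, f)` -/
noncomputable def er3 {n0 : ℕ} (D Q κ0 : ℝ) (f0 : Fin n0 × Fin n0 → ℝ)
    (p : ℝ × (Fin n0 × Fin n0 → ℝ)) : ℝ :=
  3 * (κ0 ^ 2 / p.1 ^ 2) * (D / 12) + 3 / p.1 ^ 2 * ∑ c, (p.1 ^ 2 * p.2 c - κ0 ^ 2 * f0 c) ^ 2 +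
    3 * (p.1 ^ 2 - κ0 ^ 2) ^ 2 / (p.1 ^ 2 * κ0 ^ 2) * Q

lemma er3_nhds {n0 : ℕ} {D Q κ0 : ℝ} (hD : 0 < D) (hκ : 0 < κ0) (f0 : Fin n0 × Fin n0 → ℝ) :
    ∀ᶠ p in 𝓝 (κ0, f0), er3 D Q κ0 f0 p ≤ D := by
  have hc : ContinuousAt (er3 D Q κ0 f0) (κ0, f0) := by
    unfold er3
    have h1 : (κ0, f0).1 ^ 2 ≠ 0 := by
      show κ0 ^ 2 ≠ 0
      positivity
    have h2 : (κ0, f0).1 ^ 2 * κ0 ^ 2 ≠ 0 := by
      show κ0 ^ 2 * κ0 ^ 2 ≠ 0
      positivity
    refine ContinuousAt.add (ContinuousAt.add ?_ ?_) ?_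
    · exact ((continuousAt_const.div (continuousAt_fst.pow 2) h1).const_mul 3).mul
        continuousAt_const
    · refine (continuousAt_const.div (continuousAt_fst.pow 2) h1).mul ?_
      refine (continuous_finsetSum _ fun c _ => ?_).continuousAt
      fun_prop
    · exact ((((continuousAt_fst.pow 2).sub continuousAt_const).pow 2).const_mul 3 |>.div
        ((continuousAt_fst.pow 2).mul continuousAt_const) h2).mul continuousAt_const
  have h0 : er3 D Q κ0 f0 (κ0, f0) < D := by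
    unfold er3
    simp only [sub_self]
    have : κ0 ^ 2 / κ0 ^ 2 = 1 := div_self (by positivity)
    simp [this]
    linarith
  exact (hc.eventually_lt continuousAt_const h0).mono fun _ h => h.le

lemma xt_sum {n0 : ℕ} (f g : Fin n0 × Fin n0 → ℝ) (a b : ℝ) (i j : ℕ) :
    (a * xt f i j - b * xt g i j) ^ 2 ≤ ∑ c, (a * f c - b * g c) ^ 2 := by
  unfold xt
  split_ifs with h
  · exact Finset.single_le_sum (f := fun c => (a * f c - b * g c) ^ 2)
      (fun c _ => sq_nonneg _) (Finset.mem_univ ((⟨i, h.1⟩, ⟨j, h.2⟩) : Fin n0 × Fin n0))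
  · simp only [mul_zero, sub_self]
    norm_num
    exact Finset.sum_nonneg fun c _ => sq_nonneg _

/-- **(ST6) on the torus of side `N + 1`, uniformly in the mass** -/
theorem sand0K {b k1 k2 : ℝ} (hb : 0 < b) (hY : 0 < helicity b) (hk1 : 0 < k1) {n0 : ℕ}
    (hn : 0 < n0) {Λ : ℝ} (hΛ : 0 ≤ Λ) {η : ℝ} (hη : 0 < η) :
    ∀ᶠ N : ℕ in atTop, n0 ∣ N + 1 → ∀ κ : ℝ, k1 ≤ κ → κ ≤ k2 →
      ∀ f : Fin n0 × Fin n0 → ℝ, (∀ c, |f c| ≤ Λ) →
      ∀ F : ZMod (N + 1) × ZMod (N + 1) → ℝ,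
        (∀ x, F x = xt f (x.1.val / ((N + 1) / n0)) (x.2.val / ((N + 1) / n0))) →
        ∃ W : ZMod (N + 1) × ZMod (N + 1) → ℝ,
          Lg (H37.wt (N + 1) b (tk κ N)) (tk κ N • F) - Lg (H37.wt (N + 1) b (tk κ N)) 0 ≤
            tk κ N * ∑ x, F x * W x - QW (tk κ N) (helicity b) W / 2 + η := by
  set Y := helicity b with hYd
  rcases lt_or_ge k2 k1 with hk | hk
  · exact Eventually.of_forall fun N _ κ h1 h2 => absurd (h1.trans h2) (not_le.2 hk)
  have hk2 : 0 < k2 := hk1.trans_le hk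
  set Q1 : ℝ := 2 * (k2 ^ 2 * Λ ^ 2) + 2 with hQ1
  have hQ1p : 0 < Q1 := by positivity
  set p : ℝ := 1 + η / (2 * Q1) with hp
  have hp1 : 1 < p := by
    have : 0 < η / (2 * Q1) := by positivity
    linarith
  set D : ℝ := min 1 (min (η ^ 2 / (16 * Q1)) (η * (p - 1) / (2 * p))) with hD
  have hD0 : 0 < D := by
    refine lt_min one_pos (lt_min (by positivity) ?_)
    exact div_pos (mul_pos hη (by linarith)) (by linarith)
  have hD1 : D ≤ 1 := min_le_left _ _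
  have hD2 : D ≤ η ^ 2 / (16 * Q1) := (min_le_right _ _).trans (min_le_left _ _)
  have hD3 : D ≤ η * (p - 1) / (2 * p) := (min_le_right _ _).trans (min_le_right _ _)
  have hK : IsCompact (Set.Icc k1 k2 ×ˢ
      (Set.pi Set.univ fun _ : Fin n0 × Fin n0 => Set.Icc (-Λ) Λ)) :=
    isCompact_Icc.prod (isCompact_univ_pi fun _ => isCompact_Icc)
  have main : (fun s : Set (ℝ × (Fin n0 × Fin n0 → ℝ)) => ∀ᶠ N : ℕ in atTop, n0 ∣ N + 1 →
      ∀ q ∈ s, k1 ≤ q.1 → q.1 ≤ k2 → (∀ c, |q.2 c| ≤ Λ) →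
      ∀ F : ZMod (N + 1) × ZMod (N + 1) → ℝ,
        (∀ x, F x = xt q.2 (x.1.val / ((N + 1) / n0)) (x.2.val / ((N + 1) / n0))) →
        ∃ W : ZMod (N + 1) × ZMod (N + 1) → ℝ,
          Lg (H37.wt (N + 1) b (tk q.1 N)) (tk q.1 N • F) - Lg (H37.wt (N + 1) b (tk q.1 N)) 0 ≤
            tk q.1 N * ∑ x, F x * W x - QW (tk q.1 N) Y W / 2 + η)
      (Set.Icc k1 k2 ×ˢ (Set.pi Set.univ fun _ : Fin n0 × Fin n0 => Set.Icc (-Λ) Λ)) := by
    refine hK.induction_on ?_ ?_ ?_ ?_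
    · exact Eventually.of_forall fun N _ f hf => absurd hf (Set.notMem_empty f)
    · intro s s' hss h
      filter_upwards [h] with N h1 hd f hf
      exact h1 hd f (hss hf)
    · intro s s' h h'
      filter_upwards [h, h'] with N h1 h1' hd f hf
      rcases hf with hf | hf
      · exact h1 hd f hf
      · exact h1' hd f hf
    · rintro ⟨κ0, f0⟩ ⟨hκ0, hf0⟩
      have hκ0p : 0 < κ0 := hk1.trans_le hκ0.1
      have hf0Λ : ∀ c, |f0 c| ≤ Λ := fun c => abs_le.2 (hf0 c (Set.mem_univ c))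
      obtain ⟨w, cw, hper, lw⟩ := lemA hn hκ0p hY (xt f0) (ρ := D / 12) (by linarith)
      refine ⟨{q | er3 D Q1 κ0 f0 q ≤ D}, mem_nhdsWithin_of_mem_nhds (er3_nhds hD0 hκ0p f0), ?_⟩
      filter_upwards [lw, M2g cw hper hb hY hp1 (η := η / 4) (by linarith)] with N h1 h2 hd q hq
        hq1 hq2 hfΛ F hF
      obtain ⟨κ, f⟩ := q
      have hq' : er3 D Q1 κ0 f0 (κ, f) ≤ D := hq
      simp only at hq1 hq2 hfΛ hF
      have hκp : 0 < κ := hk1.trans_le hq1
      refine ⟨lat N w, ?_⟩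
      have ht := tk_pos hκp N
      have hs := tk_pos hκ0p N
      have h3 := h2 (tk κ N) ht F
      have hN0 : (0 : ℝ) < (N : ℝ) + 1 := by positivity
      set F0 : ZMod (N + 1) × ZMod (N + 1) → ℝ := fun x =>
        xt f0 (x.1.val / ((N + 1) / n0)) (x.2.val / ((N + 1) / n0)) with hF0
      have h4 := h1 hd F0 fun _ => rfl
      have hdl00 : 0 ≤ dl (tk κ0 N) Y F0 (lat N w) :=
        div_nonneg (Finset.sum_nonneg fun _ _ => sq_nonneg _) hs.le
      have h5 := dl_le3 (Y := Y) hs ht F F0 (lat N w)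
      have hQ0' : QW (tk κ0 N) Y (lat N w) ≤ Q1 := by
        have h8 : tk κ0 N * ∑ x, F0 x ^ 2 ≤ κ0 ^ 2 * Λ ^ 2 :=
          tk_sum N fun x => xt_le hΛ hf0Λ _ _
        have h9 := QW_le hs hY F0 (lat N w)
        have h10 : κ0 ^ 2 * Λ ^ 2 ≤ k2 ^ 2 * Λ ^ 2 :=
          mul_le_mul_of_nonneg_right (pow_le_pow_left₀ hκ0p.le hκ0.2 2) (sq_nonneg _)
        rw [hQ1]
        linarith
      have hWs : tk κ0 N * ∑ x, lat N w x ^ 2 ≤ Q1 := by
        refine le_trans ?_ hQ0'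
        unfold QW
        have := mul_nonneg (inv_pos.2 hY).le (dirE_nonneg (lat N w))
        linarith
      have h6 : 3 / tk κ N * ∑ x, (tk κ N * F x - tk κ0 N * F0 x) ^ 2 ≤
          3 / κ ^ 2 * ∑ c, (κ ^ 2 * f c - κ0 ^ 2 * f0 c) ^ 2 := by
        have g1 : ∀ x, (tk κ N * F x - tk κ0 N * F0 x) ^ 2 ≤
            (((N : ℝ) + 1) ^ 2)⁻¹ ^ 2 * ∑ c, (κ ^ 2 * f c - κ0 ^ 2 * f0 c) ^ 2 := by
          intro x
          have g2 := xt_sum f f0 (κ ^ 2) (κ0 ^ 2) (x.1.val / ((N + 1) / n0))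
            (x.2.val / ((N + 1) / n0))
          have g3 : tk κ N * F x - tk κ0 N * F0 x = (((N : ℝ) + 1) ^ 2)⁻¹ *
              (κ ^ 2 * xt f (x.1.val / ((N + 1) / n0)) (x.2.val / ((N + 1) / n0)) -
              κ0 ^ 2 * xt f0 (x.1.val / ((N + 1) / n0)) (x.2.val / ((N + 1) / n0))) := by
            rw [hF x, hF0]
            unfold tk
            field_simp
          rw [g3, mul_pow]
          exact mul_le_mul_of_nonneg_left g2 (by positivity)
        have g4 := Finset.sum_le_sum fun (x : ZMod (N + 1) × ZMod (N + 1))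
          (_ : x ∈ Finset.univ) => g1 x
        rw [Finset.sum_const, Finset.card_univ, Fintype.card_prod, ZMod.card, nsmul_eq_mul] at g4
        calc 3 / tk κ N * ∑ x, (tk κ N * F x - tk κ0 N * F0 x) ^ 2
            ≤ 3 / tk κ N * ((((N + 1) * (N + 1) : ℕ) : ℝ) * ((((N : ℝ) + 1) ^ 2)⁻¹ ^ 2 *
              ∑ c, (κ ^ 2 * f c - κ0 ^ 2 * f0 c) ^ 2)) :=
              mul_le_mul_of_nonneg_left g4 (by positivity)
          _ = _ := by
              unfold tk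
              push_cast
              field_simp
      have h7 : 3 * (tk κ N - tk κ0 N) ^ 2 / tk κ N * ∑ x, lat N w x ^ 2 ≤
          3 * (κ ^ 2 - κ0 ^ 2) ^ 2 / (κ ^ 2 * κ0 ^ 2) * Q1 := by
        have g1 : 3 * (tk κ N - tk κ0 N) ^ 2 / tk κ N * ∑ x, lat N w x ^ 2 =
            3 * (κ ^ 2 - κ0 ^ 2) ^ 2 / (κ ^ 2 * κ0 ^ 2) * (tk κ0 N * ∑ x, lat N w x ^ 2) := by
          unfold tk
          field_simp
        rw [g1]
        exact mul_le_mul_of_nonneg_left hWs (by positivity)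
      have h7' : 3 * (tk κ0 N / tk κ N) * dl (tk κ0 N) Y F0 (lat N w) ≤
          3 * (κ0 ^ 2 / κ ^ 2) * (D / 12) := by
        have g1 : tk κ0 N / tk κ N = κ0 ^ 2 / κ ^ 2 := by
          unfold tk
          field_simp
        rw [g1]
        exact mul_le_mul_of_nonneg_left h4 (by positivity)
      have h7'' : dl (tk κ N) Y F (lat N w) ≤ D := by
        refine le_trans ?_ hq'
        unfold er3
        simp only
        linarith
      have h8 : tk κ N * ∑ x, F x ^ 2 ≤ k2 ^ 2 * Λ ^ 2 := by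
        refine (tk_sum N fun x => ?_).trans (mul_le_mul_of_nonneg_right
          (pow_le_pow_left₀ hκp.le hq2 2) (sq_nonneg _))
        rw [hF x]
        exact xt_le hΛ hfΛ _ _
      have h9 := QW_le ht hY F (lat N w)
      have hdl0 : 0 ≤ dl (tk κ N) Y F (lat N w) :=
        div_nonneg (Finset.sum_nonneg fun _ _ => sq_nonneg _) ht.le
      have h10 : QW (tk κ N) Y (lat N w) ≤ Q1 := by
        rw [hQ1]
        linarith
      have hQ0 : 0 ≤ QW (tk κ N) Y (lat N w) := by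
        unfold QW
        have i1 := mul_nonneg (inv_pos.2 hY).le (dirE_nonneg (lat N w))
        have i2 := mul_nonneg ht.le
          (Finset.sum_nonneg fun (x : ZMod (N + 1) × ZMod (N + 1)) (_ : x ∈ Finset.univ) =>
            sq_nonneg (lat N w x))
        linarith
      set Q := QW (tk κ N) Y (lat N w) with hQ
      set d := dl (tk κ N) Y F (lat N w) with hdd
      have k1' : Real.sqrt (d * Q) ≤ η / 4 := by
        rw [Real.sqrt_le_left (by linarith)]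
        calc d * Q ≤ D * Q1 := mul_le_mul h7'' h10 hQ0 hD0.le
          _ ≤ η ^ 2 / (16 * Q1) * Q1 := mul_le_mul_of_nonneg_right hD2 hQ1p.le
          _ = (η / 4) ^ 2 := by
            field_simp
            norm_num
      have k2' : (p - 1) / 2 * Q ≤ η / 4 := by
        have e1 : p - 1 = η / (2 * Q1) := by rw [hp]; ring
        calc (p - 1) / 2 * Q ≤ (p - 1) / 2 * Q1 :=
              mul_le_mul_of_nonneg_left h10 (by linarith)
          _ = η / 4 := by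
            rw [e1]
            field_simp
            norm_num
      have k3' : p / (p - 1) / 2 * d ≤ η / 4 := by
        have e1 : 0 < p - 1 := by linarith
        have e2 : 0 < p := by linarith
        calc p / (p - 1) / 2 * d ≤ p / (p - 1) / 2 * (η * (p - 1) / (2 * p)) :=
              mul_le_mul_of_nonneg_left (h7''.trans hD3) (by positivity)
          _ = η / 4 := by
            field_simp
            norm_num
      linarith
  filter_upwards [main] with N h hd κ h1 h2 f hf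
  refine h hd (κ, f) ⟨⟨h1, h2⟩, ?_⟩ h1 h2 hf
  intro c _
  exact abs_le.1 (hf c)

/-- **(ST6) uniformly in the mass**: `k1² ≤ t N² ≤ k2²` -/
theorem sand_upK {b k1 k2 : ℝ} (hb : 0 < b) (hY : 0 < helicity b) (hk1 : 0 < k1) {n0 : ℕ}
    (hn : 0 < n0) (Λ : ℝ) {η : ℝ} (hη : 0 < η) : ∃ X : ℕ, ∀ l : ℕ, X ≤ l → ∀ (N : ℕ) [NeZero N],
      N = n0 * l → ∀ t : ℝ, k1 ^ 2 ≤ t * (N : ℝ) ^ 2 → t * (N : ℝ) ^ 2 ≤ k2 ^ 2 →
      ∀ F : SpecC.Tor N → ℝ, (∀ x, |F x| ≤ Λ) →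
        (∀ x y : SpecC.Tor N, x.1.val / l = y.1.val / l → x.2.val / l = y.2.val / l → F x = F y) →
        ∃ W : SpecC.Tor N → ℝ, Lg (H37.wt N b t) (t • F) - Lg (H37.wt N b t) 0 ≤
          t * ∑ x, F x * W x - (t * ∑ x, W x ^ 2 + 1 / helicity b * dirE W) / 2 + η := by
  rcases lt_or_ge Λ 0 with hΛ | hΛ
  · refine ⟨0, fun l _ N _ _ t _ _ F hF => ?_⟩
    exact absurd ((abs_nonneg _).trans (hF 0)) (not_le.2 hΛ)
  obtain ⟨X, hX⟩ := eventually_atTop.1 (sand0K (k1 := k1) (k2 := |k2|) hb hY hk1 hn hΛ hη)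
  refine ⟨X + 1, fun l hl N hN0 hN t ht1 ht2 F hF hc => ?_⟩
  obtain ⟨M, rfl⟩ : ∃ M, N = M + 1 := ⟨N - 1, by have := hN0.out; omega⟩
  have hl0 : 0 < l := by omega
  have hdiv : (M + 1) / n0 = l := by
    rw [hN]
    exact Nat.mul_div_cancel_left l hn
  have hMX : X ≤ M := by
    have : l ≤ n0 * l := Nat.le_mul_of_pos_left l hn
    omega
  have hM0 : (0 : ℝ) < ((M + 1 : ℕ) : ℝ) := by positivity
  have ht0 : 0 < t := by
    by_contra hcon
    push Not at hcon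
    have h1 : t * ((M + 1 : ℕ) : ℝ) ^ 2 ≤ 0 := mul_nonpos_of_nonpos_of_nonneg hcon (by positivity)
    have h2 : 0 < k1 ^ 2 := by positivity
    linarith
  set κ := Real.sqrt t * ((M + 1 : ℕ) : ℝ) with hκ
  have hκ2 : κ ^ 2 = t * ((M + 1 : ℕ) : ℝ) ^ 2 := by
    rw [hκ, mul_pow, Real.sq_sqrt ht0.le]
  have hκ0 : 0 ≤ κ := by positivity
  have hκ1 : k1 ≤ κ := by
    rw [← hκ2] at ht1
    exact le_of_sq_le_sq ht1 hκ0
  have hκk : κ ≤ |k2| := by
    rw [← hκ2, ← sq_abs k2] at ht2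
    exact le_of_sq_le_sq ht2 (abs_nonneg _)
  have htk : t = tk κ M := by
    unfold tk
    rw [hκ2]
    push_cast
    field_simp
  have hbd : ∀ i : Fin n0, (i : ℕ) * l < M + 1 := by
    intro i
    rw [hN]
    exact Nat.mul_lt_mul_of_pos_right i.2 hl0
  set f : Fin n0 × Fin n0 → ℝ := fun c =>
    F (((c.1 : ℕ) * l : ℕ), ((c.2 : ℕ) * l : ℕ)) with hf
  have h := hX M hMX ⟨l, hN⟩ κ hκ1 hκk f (fun c => hF _) F (fun x => ?_)
  · obtain ⟨W, hW⟩ := h
    refine ⟨W, ?_⟩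
    rw [htk]
    refine hW.trans (le_of_eq ?_)
    unfold QW
    rw [one_div]
  · have v1 : x.1.val / l < n0 := by
      rw [Nat.div_lt_iff_lt_mul hl0, ← hN]
      exact ZMod.val_lt x.1
    have v2 : x.2.val / l < n0 := by
      rw [Nat.div_lt_iff_lt_mul hl0, ← hN]
      exact ZMod.val_lt x.2
    rw [hdiv]
    unfold xt
    rw [dif_pos ⟨v1, v2⟩, hf]
    refine hc _ _ ?_ ?_
    · show x.1.val / l = (((x.1.val / l * l : ℕ) : ZMod (M + 1))).val / l
      rw [ZMod.val_natCast, Nat.mod_eq_of_lt (hbd ⟨_, v1⟩), Nat.mul_div_cancel _ hl0]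
    · show x.2.val / l = (((x.2.val / l * l : ℕ) : ZMod (M + 1))).val / l
      rw [ZMod.val_natCast, Nat.mod_eq_of_lt (hbd ⟨_, v2⟩), Nat.mul_div_cancel _ hl0]

/-- **`R ≤ η + e κ² Λ² / 2`**, uniformly in the mass -/
theorem sand_RK {b k1 k2 : ℝ} (hb : 0 < b) (hY : 0 < helicity b) (hk1 : 0 < k1) {n0 : ℕ}
    (hn : 0 < n0) (Λ : ℝ) {η : ℝ} (hη : 0 < η) : ∃ X : ℕ, ∀ l : ℕ, X ≤ l → ∀ (N : ℕ) [NeZero N],
      N = n0 * l → ∀ t : ℝ, k1 ^ 2 ≤ t * (N : ℝ) ^ 2 → t * (N : ℝ) ^ 2 ≤ k2 ^ 2 →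
      ∀ e : ℝ, 0 ≤ e →
        (∀ u v : SpecC.Tor N → ℝ, t * ∑ x, u x ^ 2 - t ^ 2 * H37.qf (H37.Gm (H37.wt N b t)) u ≤
          e * t * ∑ x, u x ^ 2 + t * ∑ x, (u x - v x) ^ 2 + 1 / helicity b * dirE v) →
        ∀ F : SpecC.Tor N → ℝ, (∀ x, |F x| ≤ Λ) →
        (∀ x y : SpecC.Tor N, x.1.val / l = y.1.val / l → x.2.val / l = y.2.val / l → F x = F y) →
        H37.Rs (H37.wt N b t) (t • F) ≤ η + e * (k2 ^ 2 * Λ ^ 2) / 2 := by
  obtain ⟨X, hX⟩ := sand_upK (k2 := k2) hb hY hk1 hn Λ hη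
  refine ⟨X, fun l hl N hN0 hN t ht1 ht2 e he hq F hF hc => ?_⟩
  obtain ⟨W, hW⟩ := hX l hl N hN t ht1 ht2 F hF hc
  have h1 := hq F W
  have ht0 : 0 ≤ t := by
    by_contra hcon
    push Not at hcon
    have h1 : t * (N : ℝ) ^ 2 ≤ 0 := mul_nonpos_of_nonpos_of_nonneg hcon.le (by positivity)
    have h2 : 0 < k1 ^ 2 := by positivity
    linarith
  have hqf : H37.qf (H37.Gm (H37.wt N b t)) (t • F) =
      t ^ 2 * H37.qf (H37.Gm (H37.wt N b t)) F := by
    unfold H37.qf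
    rw [Finset.mul_sum]
    refine Finset.sum_congr rfl fun x _ => ?_
    rw [Finset.mul_sum]
    refine Finset.sum_congr rfl fun y _ => ?_
    simp only [Pi.smul_apply, smul_eq_mul]
    ring
  have hexp : ∑ x, (F x - W x) ^ 2 = ∑ x, F x ^ 2 - 2 * ∑ x, F x * W x + ∑ x, W x ^ 2 := by
    rw [Finset.mul_sum, ← Finset.sum_sub_distrib, ← Finset.sum_add_distrib]
    exact Finset.sum_congr rfl fun x _ => by ring
  have hsum : t * ∑ x, F x ^ 2 ≤ k2 ^ 2 * Λ ^ 2 := by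
    have h1 : ∑ x, F x ^ 2 ≤ ∑ _x : SpecC.Tor N, Λ ^ 2 := by
      refine Finset.sum_le_sum fun x _ => ?_
      rw [← sq_abs]
      exact pow_le_pow_left₀ (abs_nonneg _) (hF x) 2
    have hcard : ((Finset.univ : Finset (SpecC.Tor N)).card : ℝ) = (N : ℝ) ^ 2 := by
      rw [Finset.card_univ]
      show ((Fintype.card (ZMod N × ZMod N) : ℕ) : ℝ) = _
      rw [Fintype.card_prod, ZMod.card]
      push_cast
      ring
    rw [Finset.sum_const, nsmul_eq_mul, hcard] at h1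
    calc t * ∑ x, F x ^ 2 ≤ t * ((N : ℝ) ^ 2 * Λ ^ 2) := mul_le_mul_of_nonneg_left h1 ht0
      _ = (t * (N : ℝ) ^ 2) * Λ ^ 2 := by ring
      _ ≤ _ := mul_le_mul_of_nonneg_right ht2 (sq_nonneg _)
  unfold H37.Rs
  rw [hqf]
  rw [hexp] at h1
  have h2 := mul_le_mul_of_nonneg_left hsum he
  have h3 : t * (∑ x, F x ^ 2 - 2 * ∑ x, F x * W x + ∑ x, W x ^ 2) =
      t * ∑ x, F x ^ 2 - 2 * (t * ∑ x, F x * W x) + t * ∑ x, W x ^ 2 := by ring
  rw [h3] at h1
  have h4 : e * t * ∑ x, F x ^ 2 = e * (t * ∑ x, F x ^ 2) := by ring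
  rw [h4] at h1
  linarith

end Vale.Agent.P159.H30
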