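import Vale.Agent.P159.H30.SandK
import Vale.Agent.P159.H197.Start5
import Vale.Agent.P159.H197.Form8

/-!
START at all real masses (helper30): `τ ∈ [ξ⁻²/q, ξ⁻²]`, torus of side `2^i₁ ξ`, `ξ = 2^m` large.
-/

open Finset Filter Topology

namespace Vale.Agent.P159.H30

open Vale.Agent.P159 Vale.Agent.P159.TM Vale.Agent.P159.H37
open Vale.Agent.P159.TM.H764 (Gh EE)
open Vale.Agent.P159.TM.Spec (V)
open Vale.Agent.P159.H197 (QSt qst_of_modes start_win)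

/-- transfer of the lower bound of one mode to a smaller mass -/
lemma mode_low {g1 g t1 τ L e : ℝ} (hτ : 0 < τ) (ht : τ ≤ t1) (hL : 0 ≤ L) (he : 0 ≤ e)
    (hg1 : 0 < g1) (hg1t : g1 ≤ 1 / t1) (hg : 0 < g) (hP : g⁻¹ - τ ≤ g1⁻¹ - t1)
    (h : 1 / (t1 + L) - e / t1 ≤ g1) : 1 / (τ + L) - (t1 / τ * e) / τ ≤ g := by
  have ht1 : 0 < t1 := hτ.trans_le ht
  have h1 : t1 * g1 ≤ 1 := by
    rw [le_div_iff₀ ht1] at hg1t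
    linarith
  have h2 : 0 < 1 - (t1 - τ) * g1 := by nlinarith
  have h3 : g1 / (1 - (t1 - τ) * g1) ≤ g := by
    have e1 : g1 / (1 - (t1 - τ) * g1) = (g1⁻¹ - (t1 - τ))⁻¹ := by
      field_simp
    rw [e1]
    have h4 : 0 < g1⁻¹ - (t1 - τ) := by
      have e2 : g1⁻¹ - (t1 - τ) = (1 - (t1 - τ) * g1) / g1 := by field_simp
      rw [e2]
      exact div_pos h2 hg1
    rw [inv_le_comm₀ h4 hg]
    linarith
  refine le_trans ?_ h3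
  have h5 : 0 < τ + L := by linarith
  have h6 : 0 < t1 + L := by linarith
  have e3 : 1 / (τ + L) - g1 / (1 - (t1 - τ) * g1) =
      (t1 + L) * (1 / (t1 + L) - g1) / ((τ + L) * (1 - (t1 - τ) * g1)) := by
    have e4 : (t1 + L) * (1 / (t1 + L) - g1) = 1 - (t1 + L) * g1 := by
      field_simp
    rw [e4, div_sub_div _ _ h5.ne' h2.ne']
    congr 1
    ring
  have h7 : 1 / (τ + L) - g1 / (1 - (t1 - τ) * g1) ≤ t1 / τ * e / τ := by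
    rw [e3, div_le_iff₀ (mul_pos h5 h2)]
    have h8 : (t1 + L) * (1 / (t1 + L) - g1) ≤ (t1 + L) * (e / t1) :=
      mul_le_mul_of_nonneg_left (by linarith) h6.le
    refine h8.trans ?_
    -- `(t1 + L) ≤ (t1/τ)(τ + L)`, `τ/t1 ≤ 1 - (t1 - τ) g1`
    have h9 : t1 + L ≤ t1 / τ * (τ + L) := by
      rw [div_mul_eq_mul_div, le_div_iff₀ hτ]
      nlinarith
    have h10 : τ / t1 ≤ 1 - (t1 - τ) * g1 := by
      rw [div_le_iff₀ ht1]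
      nlinarith [mul_le_mul_of_nonneg_left h1 (by linarith : 0 ≤ t1 - τ)]
    calc (t1 + L) * (e / t1) ≤ (t1 / τ * (τ + L)) * (e / t1) :=
          mul_le_mul_of_nonneg_right h9 (by positivity)
      _ = t1 / τ * e / τ * ((τ + L) * (τ / t1)) := by field_simp
      _ ≤ t1 / τ * e / τ * ((τ + L) * (1 - (t1 - τ) * g1)) :=
          mul_le_mul_of_nonneg_left (mul_le_mul_of_nonneg_left h10 h5.le) (by positivity)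
  linarith

/-- **the form window at a smaller real mass** from the modes at the mass `t1` -/
theorem qst_real {N : ℕ} [NeZero N] {b t1 τ Y e : ℝ} (hb : 0 < b) (hτ : 0 < τ) (ht : τ ≤ t1)
    (hY : 0 < Y) (he : 0 ≤ e) (h : ∀ k : V N, 1 / (t1 + EE k / Y) - e / t1 ≤ Ght N b t1 k) :
    QSt N b τ Y (t1 / τ * e) := by
  have ht1 : 0 < t1 := hτ.trans_le ht
  refine qst_of_modes hb.le hτ hY (by positivity) fun k => ?_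
  have hE := H764.EE_nonneg k
  have hP := H864.Pik_mono (N := N) hb hτ ht k
  unfold Pik at hP
  exact mode_low hτ ht (div_nonneg hE hY.le) he (H864.Ght_pos hb ht1 k)
    (H864.Ght_le hb.le ht1 k) (H864.Ght_pos hb hτ k) hP (h k)

/-- **(ST7) at all real masses** -/
theorem start_real {b : ℝ} (hb : 0 < b) (hY : 2 / Real.pi ≤ helicity b) :
    ∃ c C : ℝ, 0 < c ∧ 0 < C ∧ ∀ i₁ : ℕ, 3 ≤ i₁ → ∀ δ : ℝ, 0 < δ → ∃ m₀ : ℕ, ∀ m : ℕ, m₀ ≤ m →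
      ∀ τ : ℝ, 0 < τ → τ ≤ 1 / ((2 ^ m : ℕ) : ℝ) ^ 2 →
      QSt (2 ^ (i₁ + m)) b τ (helicity b)
        (1 / ((2 ^ m : ℕ) : ℝ) ^ 2 / τ * (C * Real.exp (-(c * 2 ^ i₁)) + δ)) := by
  have hY0 : 0 < helicity b := (by positivity : (0 : ℝ) < 2 / Real.pi).trans_le hY
  obtain ⟨c, C, hc, hC, h⟩ := start_win hb hY
  refine ⟨c, C, hc, hC, fun i₁ hi₁ δ hδ => ?_⟩
  obtain ⟨m₀, hm₀⟩ := h i₁ hi₁ δ hδ
  refine ⟨m₀, fun m hm τ hτ hτt => ?_⟩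
  refine qst_real hb hτ hτt hY0 (by positivity) fun k => ?_
  have h1 := hm₀ m hm k
  have hξ : (0 : ℝ) < ((2 ^ m : ℕ) : ℝ) := by positivity
  rw [H864.Ght_eq_Gh' (by positivity) k]
  have e1 : 1 / Real.sqrt (1 / ((2 ^ m : ℕ) : ℝ) ^ 2) = ((2 ^ m : ℕ) : ℝ) := by
    rw [Real.sqrt_div zero_le_one, Real.sqrt_one, Real.sqrt_sq hξ.le, one_div_one_div]
  rw [e1]
  refine le_trans (le_of_eq ?_) h1
  have hE := H764.EE_nonneg k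
  have h2 : 0 < 1 + ((2 ^ m : ℕ) : ℝ) ^ 2 * EE k / helicity b := by positivity
  have h3 : 0 < 1 / ((2 ^ m : ℕ) : ℝ) ^ 2 + EE k / helicity b := by positivity
  field_simp
  ring

/-- **(ST8) at all real masses** `ξ⁻²/q ≤ τ ≤ ξ⁻²` -/
theorem st8r {b : ℝ} (hb : 0 < b) (hY : 2 / Real.pi ≤ helicity b) {q : ℝ} (hq : 1 ≤ q) :
    ∃ c C : ℝ, 0 < c ∧ 0 < C ∧ ∀ i₁ : ℕ, 3 ≤ i₁ → ∀ s : ℕ, ∀ Λ η : ℝ, 0 < η →
      ∃ m₀ : ℕ, s ≤ m₀ ∧ ∀ m : ℕ, m₀ ≤ m → ∀ τ : ℝ, 1 / ((2 ^ m : ℕ) : ℝ) ^ 2 / q ≤ τ →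
        τ ≤ 1 / ((2 ^ m : ℕ) : ℝ) ^ 2 →
        ∀ F : SpecC.Tor (2 ^ (i₁ + m)) → ℝ, (∀ x, |F x| ≤ Λ) →
        (∀ x y : SpecC.Tor (2 ^ (i₁ + m)), x.1.val / 2 ^ (m - s) = y.1.val / 2 ^ (m - s) →
          x.2.val / 2 ^ (m - s) = y.2.val / 2 ^ (m - s) → F x = F y) →
        Rs (wt (2 ^ (i₁ + m)) b τ) (τ • F) ≤
          η + q * C * Real.exp (-(c * 2 ^ i₁)) * (4 ^ i₁ * Λ ^ 2) := by
  have hY0 : 0 < helicity b := (by positivity : (0 : ℝ) < 2 / Real.pi).trans_le hY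
  have hq0 : 0 < q := by linarith
  obtain ⟨c, C, hc, hC, h⟩ := start_real hb hY
  refine ⟨c, C, hc, hC, fun i₁ hi₁ s Λ η hη => ?_⟩
  obtain ⟨δ, hδ0, hδ⟩ : ∃ δ : ℝ, 0 < δ ∧ q * δ * (4 ^ i₁ * Λ ^ 2) / 2 ≤ η / 2 := by
    refine ⟨η / (q * (4 ^ i₁ * Λ ^ 2) + 1), by positivity, ?_⟩
    have h1 : q * (η / (q * (4 ^ i₁ * Λ ^ 2) + 1)) * (4 ^ i₁ * Λ ^ 2) ≤ η := by
      have e : q * (η / (q * (4 ^ i₁ * Λ ^ 2) + 1)) * (4 ^ i₁ * Λ ^ 2) =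
        η * (q * (4 ^ i₁ * Λ ^ 2)) / (q * (4 ^ i₁ * Λ ^ 2) + 1) := by ring
      rw [e, div_le_iff₀ (by positivity)]
      nlinarith [hη]
    linarith
  obtain ⟨m₁, hm₁⟩ := h i₁ hi₁ δ hδ0
  obtain ⟨X, hX⟩ := sand_RK (k1 := (2 : ℝ) ^ i₁ / Real.sqrt q) (k2 := (2 : ℝ) ^ i₁) hb hY0
    (by positivity) (n0 := 2 ^ (i₁ + s)) (by positivity) Λ (half_pos hη)
  refine ⟨max m₁ (X + s), le_trans (Nat.le_add_left s X) (le_max_right _ _),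
    fun m hm τ hτ1 hτ2 F hF hc' => ?_⟩
  have h1 : m₁ ≤ m := (le_max_left _ _).trans hm
  have h2 : X + s ≤ m := (le_max_right _ _).trans hm
  have hsm : s ≤ m := by omega
  have hl : X ≤ 2 ^ (m - s) := by
    have : m - s < 2 ^ (m - s) := Nat.lt_two_pow_self
    omega
  have hN : 2 ^ (i₁ + m) = 2 ^ (i₁ + s) * 2 ^ (m - s) := by
    rw [← pow_add]
    congr 1
    omega
  have hξ : (0 : ℝ) < ((2 ^ m : ℕ) : ℝ) := by positivity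
  have hτ0 : 0 < τ := lt_of_lt_of_le (by positivity) hτ1
  have hNξ : ((2 ^ (i₁ + m) : ℕ) : ℝ) = (2 : ℝ) ^ i₁ * ((2 ^ m : ℕ) : ℝ) := by
    push_cast
    rw [pow_add]
  have ht1 : ((2 : ℝ) ^ i₁ / Real.sqrt q) ^ 2 ≤ τ * ((2 ^ (i₁ + m) : ℕ) : ℝ) ^ 2 := by
    rw [hNξ, div_pow, Real.sq_sqrt hq0.le]
    have h3 := mul_le_mul_of_nonneg_right hτ1 (by positivity :
      (0 : ℝ) ≤ ((2 : ℝ) ^ i₁ * ((2 ^ m : ℕ) : ℝ)) ^ 2)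
    refine le_trans (le_of_eq ?_) h3
    field_simp
  have ht2 : τ * ((2 ^ (i₁ + m) : ℕ) : ℝ) ^ 2 ≤ ((2 : ℝ) ^ i₁) ^ 2 := by
    rw [hNξ]
    have h3 := mul_le_mul_of_nonneg_right hτ2 (by positivity :
      (0 : ℝ) ≤ ((2 : ℝ) ^ i₁ * ((2 ^ m : ℕ) : ℝ)) ^ 2)
    refine h3.trans (le_of_eq ?_)
    field_simp
  have hq' := hm₁ m h1 τ hτ0 hτ2
  set e0 := C * Real.exp (-(c * 2 ^ i₁)) + δ with he0
  have he00 : 0 < e0 := by positivity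
  have hr : 1 / ((2 ^ m : ℕ) : ℝ) ^ 2 / τ ≤ q := by
    rw [div_le_iff₀ hτ0]
    rw [div_le_iff₀ hq0] at hτ1
    linarith
  have h3 := hX (2 ^ (m - s)) hl (2 ^ (i₁ + m)) hN τ ht1 ht2
    (1 / ((2 ^ m : ℕ) : ℝ) ^ 2 / τ * e0) (by positivity) hq' F hF hc'
  refine h3.trans ?_
  have h4 : ((2 : ℝ) ^ i₁) ^ 2 = 4 ^ i₁ := by
    rw [← pow_mul, mul_comm, pow_mul]
    norm_num
  rw [h4]
  have h5 : 1 / ((2 ^ m : ℕ) : ℝ) ^ 2 / τ * e0 * (4 ^ i₁ * Λ ^ 2) / 2 ≤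
      q * e0 * (4 ^ i₁ * Λ ^ 2) / 2 := by
    have h6 := mul_le_mul_of_nonneg_right hr he00.le
    have h7 := mul_le_mul_of_nonneg_right h6 (by positivity : (0 : ℝ) ≤ 4 ^ i₁ * Λ ^ 2)
    linarith
  have h8 : q * e0 * (4 ^ i₁ * Λ ^ 2) / 2 = q * C * Real.exp (-(c * 2 ^ i₁)) * (4 ^ i₁ * Λ ^ 2) / 2 +
      q * δ * (4 ^ i₁ * Λ ^ 2) / 2 := by
    rw [he0]
    ring
  have h9 : 0 ≤ q * C * Real.exp (-(c * 2 ^ i₁)) * (4 ^ i₁ * Λ ^ 2) := by positivity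
  linarith

/-- **(ST8) at all real masses**, the side `2^i₁ ξ` depends on `Λ, η, q` only -/
theorem st8r' {b : ℝ} (hb : 0 < b) (hY : 2 / Real.pi ≤ helicity b) {q : ℝ} (hq : 1 ≤ q)
    {Λ η : ℝ} (hη : 0 < η) :
    ∃ i₀ : ℕ, ∀ i₁ : ℕ, i₀ ≤ i₁ → ∀ s : ℕ,
      ∃ m₀ : ℕ, s ≤ m₀ ∧ ∀ m : ℕ, m₀ ≤ m → ∀ τ : ℝ, 1 / ((2 ^ m : ℕ) : ℝ) ^ 2 / q ≤ τ →
        τ ≤ 1 / ((2 ^ m : ℕ) : ℝ) ^ 2 →
        ∀ F : SpecC.Tor (2 ^ (i₁ + m)) → ℝ, (∀ x, |F x| ≤ Λ) →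
        (∀ x y : SpecC.Tor (2 ^ (i₁ + m)), x.1.val / 2 ^ (m - s) = y.1.val / 2 ^ (m - s) →
          x.2.val / 2 ^ (m - s) = y.2.val / 2 ^ (m - s) → F x = F y) →
        Rs (wt (2 ^ (i₁ + m)) b τ) (τ • F) ≤ η := by
  obtain ⟨c, C, hc, hC, h⟩ := st8r hb hY hq
  have t1 : Tendsto (fun x : ℝ => x ^ 2 * Real.exp (-x)) atTop (𝓝 0) :=
    Real.tendsto_pow_mul_exp_neg_atTop_nhds_zero 2
  have t2 : Tendsto (fun i : ℕ => c * (2 : ℝ) ^ i) atTop atTop :=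
    (tendsto_pow_atTop_atTop_of_one_lt (by norm_num)).const_mul_atTop hc
  have t3 := ((t1.comp t2).const_mul (q * C * Λ ^ 2 / c ^ 2))
  rw [mul_zero] at t3
  obtain ⟨i₀, hi₀⟩ := ((t3.eventually (ge_mem_nhds (half_pos hη))).and
    (eventually_ge_atTop 3)).exists_forall_of_atTop
  refine ⟨i₀, fun i₁ hi₁ s => ?_⟩
  obtain ⟨h5, h6⟩ := hi₀ i₁ hi₁
  obtain ⟨m₀, hs, hm₀⟩ := h i₁ h6 s Λ (η / 2) (half_pos hη)
  refine ⟨m₀, hs, fun m hm τ hτ1 hτ2 F hF hcell => (hm₀ m hm τ hτ1 hτ2 F hF hcell).trans ?_⟩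
  have h7 : q * C * Λ ^ 2 / c ^ 2 * ((fun x : ℝ => x ^ 2 * Real.exp (-x)) ∘
      fun i : ℕ => c * (2 : ℝ) ^ i) i₁ =
      q * C * Real.exp (-(c * 2 ^ i₁)) * (4 ^ i₁ * Λ ^ 2) := by
    simp only [Function.comp]
    have h4 : (4 : ℝ) ^ i₁ = (2 ^ i₁) ^ 2 := by
      rw [← pow_mul, mul_comm, pow_mul]
      norm_num
    rw [h4]
    field_simp
  rw [h7] at h5
  linarith

end Vale.Agent.P159.H30
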