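import Vale.Agent.P159.H30.StG
import Vale.Agent.P159.H462.In3Sum
import Vale.Agent.P159.H197.Flat
import Vale.Agent.P159.H864.Cel4

/-!
START, part F (helper30): the flat profile at the start. First part: the neutral covariance is at
most the integer covariance plus a tiny multiple of `1/τ` at the small momenta.
-/

namespace Vale.Agent.P159.H30

open Finset Matrix MeasureTheory Filter Topology
open Vale.Agent.P159 Vale.Agent.P159.TM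
open Vale.Agent.P159.TM.H104 (EM Ex Cv K3 Lg li nh Gr)
open Vale.Agent.P159.TM.H764 (EE cN sN dt)
open Vale.Agent.P159.H37
open Vale.Agent.P159.H963 (GW MF nM Neu ntr pin nwt Gn Gnh Pin Gnc)
open Vale.Agent.P159.TM.Spec (V)
open Vale.Agent.P159.TM.SpecC (Tor wT)
open Vale.Agent.P159.H864 (cobV cl ce TI sym Gc rd Wl als)

section torus

variable {N l : ℕ} [NeZero N] [NeZero (N / l)] {b τ : ℝ}

lemma abs_cN_le {n : ℕ} [NeZero n] (a : ZMod n) : |cN a| ≤ 1 := by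
  obtain ⟨m, rfl⟩ := ZMod.intCast_surjective a
  rw [TM.H764.cN_int]
  exact Real.abs_cos_le_one _

lemma abs_sN_le {n : ℕ} [NeZero n] (a : ZMod n) : |sN a| ≤ 1 := by
  obtain ⟨m, rfl⟩ := ZMod.intCast_surjective a
  rw [TM.H764.sN_int]
  exact Real.abs_sin_le_one _

/-- one cell wave -/
lemma wave_le (hb : 0 < b) (hτ : 0 < τ) (hl : l ∣ N) {Λ η : ℝ} (hΛ : 0 < Λ)
    (HR : ∀ F : V N → ℝ, (∀ x, |F x| ≤ Λ + 1) → CellC N l F → Rs (wt N b τ) (τ • F) ≤ η)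
    {φ : V (N / l) → ℝ} (hφ : Neu φ) (h1 : ∀ c, |φ c| ≤ 1) :
    qf (Gc l (Gn N b τ)) φ ≤ qf (Gc l (Gm (wt N b τ))) φ + 2 * η / (τ ^ 2 * (Λ * l) ^ 2) := by
  have hl0 : (0 : ℝ) < l := l_pos' hl
  set F : V N → ℝ := (Λ * l) • ((cobV N l)ᵀ *ᵥ φ) with hF
  have hFx : ∀ x, F x = Λ * φ (cl x) := by
    intro x
    rw [hF, Pi.smul_apply, cobV_tr_apply, smul_eq_mul]
    field_simp
  have hneu : Neu ((cobV N l)ᵀ *ᵥ φ) := H963.neu_cobV_tr hl hφ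
  have h2 := Gm_nwt_le hb.le hτ (0 : V N) (F := F) (hneu.smul _) (η := η) fun c hc0 hc1 => by
    refine HR _ (fun x => ?_) fun x y hx hy => ?_
    · rw [hFx]
      have h3 := abs_add_le (Λ * φ (cl x)) c
      rw [abs_mul, abs_of_pos hΛ, abs_of_nonneg hc0] at h3
      have h4 : Λ * |φ (cl x)| ≤ Λ * 1 := mul_le_mul_of_nonneg_left (h1 _) hΛ.le
      linarith
    · simp only [hFx, cl_cell hx hy]
  rw [qf_smul, qf_smul, hF, qf_smul, qf_smul] at h2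
  rw [H864.qf_Gc, H864.qf_Gc, H963.qf_Gn_neu N b τ hneu]
  have h5 : 0 < τ ^ 2 * (Λ * l) ^ 2 := by positivity
  rw [← sub_le_iff_le_add', le_div_iff₀ h5]
  linarith

/-- **cell symbols**: neutral versus integer -/
theorem symGc_le (hb : 0 < b) (hτ : 0 < τ) (hl : l ∣ N) {Λ η : ℝ} (hΛ : 0 < Λ)
    (HR : ∀ F : V N → ℝ, (∀ x, |F x| ≤ Λ + 1) → CellC N l F → Rs (wt N b τ) (τ • F) ≤ η)
    {k : V (N / l)} (hk : k ≠ 0) :
    sym (Gc l (Gn N b τ)) k ≤ sym (Gc l (Gm (wt N b τ))) k +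
      4 * η / (τ ^ 2 * Λ ^ 2 * (N : ℝ) ^ 2) := by
  have hl0 : (0 : ℝ) < l := l_pos' hl
  have hN0 : (0 : ℝ) < N := hl0.trans_le (l_le hl)
  have hA : TI (Gc l (Gn N b τ)) := by
    rw [← H963.Gnc_self]
    exact H963.ti_Gnc hb.le hl hτ le_rfl
  have hB : TI (Gc l (Gm (wt N b τ))) := by
    rw [← H864.GM_self N l b τ]
    exact H864.ti_Gc_GM hl b τ τ
  have h1 := wave_le hb hτ hl hΛ HR (H963.neu_cN hk) fun c => abs_cN_le _
  have h2 := wave_le hb hτ hl hΛ HR (H963.neu_sN k) fun c => abs_sN_le _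
  have h3 := H864.qf_wave hA k
  have h4 := H864.qf_wave hB k
  have hn : ((N / l : ℕ) : ℝ) = N / l := by
    rw [← H864.Nl hl]
    field_simp
  rw [hn] at h3 h4
  have h5 : ((N : ℝ) / l) ^ 2 * sym (Gc l (Gn N b τ)) k ≤
      ((N : ℝ) / l) ^ 2 * sym (Gc l (Gm (wt N b τ))) k + 4 * η / (τ ^ 2 * (Λ * l) ^ 2) := by
    have e : 4 * η / (τ ^ 2 * (Λ * l) ^ 2) = 2 * η / (τ ^ 2 * (Λ * l) ^ 2) +
      2 * η / (τ ^ 2 * (Λ * l) ^ 2) := by ring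
    rw [e]
    linarith
  have h6 : 0 < ((N : ℝ) / l) ^ 2 := by positivity
  have h7 : 4 * η / (τ ^ 2 * (Λ * l) ^ 2) =
      ((N : ℝ) / l) ^ 2 * (4 * η / (τ ^ 2 * Λ ^ 2 * (N : ℝ) ^ 2)) := by
    field_simp
  rw [h7, ← mul_add] at h5
  exact le_of_mul_le_mul_left h5 h6

/-- **site symbols**: neutral versus integer, small momenta -/
theorem Gnh_le_Ght (hb : 0 < b) (hτ : 0 < τ) (hl : l ∣ N) {Λ η : ℝ} (hΛ : 0 < Λ)
    (HR : ∀ F : V N → ℝ, (∀ x, |F x| ≤ Λ + 1) → CellC N l F → Rs (wt N b τ) (τ • F) ≤ η)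
    {p : V N} (hp : p ≠ 0) (hE : (l : ℝ) ^ 2 * EE p < 4) :
    Gnh N b τ p ≤ Ght N b τ p + (2 * ((l : ℝ) ^ 2 * EE p) / τ +
      4 * η / (τ ^ 2 * Λ ^ 2 * (N : ℝ) ^ 2)) := by
  have hl0 : (0 : ℝ) < l := l_pos' hl
  have hk : (rd p : V (N / l)) ≠ 0 := by
    intro h
    have h0 : H864.cen l (0 : V N) := by
      unfold H864.cen
      simp
    have h1 := H864.EE_alias_ge hl h0 (q := p) (by rw [h, H864.rd_zero hl]) hp
    have h2 : (l : ℝ) ^ 2 * (4 / (l : ℝ) ^ 2) ≤ (l : ℝ) ^ 2 * EE p :=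
      mul_le_mul_of_nonneg_left h1 (by positivity)
    have h3 : (l : ℝ) ^ 2 * (4 / (l : ℝ) ^ 2) = 4 := by field_simp
    linarith
  have h1 := symGc_le hb hτ hl hΛ HR hk
  have h2 : Gnh N b τ p * Wl l p ≤ sym (Gc l (Gn N b τ)) (rd p) := by
    rw [H864.sym_Gc hl (H963.ti_Gn hb.le hτ)]
    unfold H864.als
    exact Finset.single_le_sum (f := fun q => sym (Gn N b τ) q * Wl l q)
      (fun q _ => mul_nonneg (H963.Gnh_nonneg hb.le hτ q) (H864.Wl_nonneg q))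
      (Finset.mem_filter.2 ⟨Finset.mem_univ p, rfl⟩)
  have h3 := H864.one_sub_Wl_le hl p
  have h4 := H963.Gnh_le (N := N) hb.le hτ p
  have h5 := H963.Gnh_nonneg (N := N) hb.le hτ p
  have h6 := H864.abs_sym_Gc_sub_le (N := N) (l := l) hl (H864.ti_Gm_wt (b := b) τ) (c := 1 / τ)
    (p := p) fun q _ => by
      rw [H864.sym_Gm_wt, H864.sym_Gm_wt, abs_le]
      have a1 := H864.Ght_nonneg (N := N) hb.le hτ p
      have a2 := H864.Ght_nonneg (N := N) hb.le hτ q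
      have a3 := H864.Ght_le (N := N) hb.le hτ p
      have a4 := H864.Ght_le (N := N) hb.le hτ q
      constructor <;> linarith
  rw [H864.sym_Gm_wt] at h6
  have h7 := (abs_le.1 h6).2
  have h8 : Gnh N b τ p * (1 - Wl l p) ≤ τ⁻¹ * ((l : ℝ) ^ 2 * EE p) := by
    have hE0 : 0 ≤ (l : ℝ) ^ 2 * EE p := mul_nonneg (sq_nonneg _) (TM.H764.EE_nonneg p)
    calc Gnh N b τ p * (1 - Wl l p) ≤ Gnh N b τ p * ((l : ℝ) ^ 2 * EE p) :=
          mul_le_mul_of_nonneg_left h3 h5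
      _ ≤ τ⁻¹ * ((l : ℝ) ^ 2 * EE p) := mul_le_mul_of_nonneg_right h4 hE0
  have e1 : 2 * ((l : ℝ) ^ 2 * EE p) / τ = τ⁻¹ * ((l : ℝ) ^ 2 * EE p) +
      (l : ℝ) ^ 2 * EE p * (1 / τ) := by
    field_simp
    ring
  rw [e1]
  linarith

/-- **the neutral self energy from below** -/
theorem Pin_ge (hb : 0 < b) (hτ : 0 < τ) {p : V N} (hp : p ≠ 0) {d : ℝ}
    (h : Gnh N b τ p ≤ Ght N b τ p + d) (hd : 0 ≤ d) :
    Pik N b τ p - d * (τ + Pik N b τ p) ^ 2 ≤ Pin N b τ p := by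
  have h1 := H864.Ght_pos (N := N) hb hτ p
  have h2 := H963.Gnh_pos (N := N) hb hτ hp
  have h3 := H963.Ght_le_Gnh (N := N) hb.le hτ hp
  unfold Pik Pin
  set g := Ght N b τ p
  set G := Gnh N b τ p
  have h4 : g⁻¹ - G⁻¹ ≤ d * (g⁻¹) ^ 2 := by
    have e : g⁻¹ - G⁻¹ = (G - g) * (g⁻¹ * G⁻¹) := by field_simp
    rw [e]
    have h5 : G⁻¹ ≤ g⁻¹ := inv_anti₀ h1 h3
    have h6 : g⁻¹ * G⁻¹ ≤ (g⁻¹) ^ 2 := by
      rw [pow_two]
      exact mul_le_mul_of_nonneg_left h5 (by positivity)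
    calc (G - g) * (g⁻¹ * G⁻¹) ≤ d * (g⁻¹ * G⁻¹) :=
          mul_le_mul_of_nonneg_right (by linarith) (by positivity)
      _ ≤ d * (g⁻¹) ^ 2 := mul_le_mul_of_nonneg_left h6 hd
  have e2 : τ + (g⁻¹ - τ) = g⁻¹ := by ring
  rw [e2]
  linarith

end torus

end Vale.Agent.P159.H30
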