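import Vale.Agent.P159.H30.StF

/-!
START, part F2 (helper30): the flat profile of the neutral model at the start, all momenta, in the
quartic form `FL` of `H972`.
-/

namespace Vale.Agent.P159.H30

open Finset Matrix MeasureTheory Filter Topology
open Vale.Agent.P159 Vale.Agent.P159.TM
open Vale.Agent.P159.TM.H764 (EE cN sN dt)
open Vale.Agent.P159.H37
open Vale.Agent.P159.H963 (GW MF nM Neu ntr pin nwt Gn Gnh Pin Gnc)
open Vale.Agent.P159.TM.Spec (V)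
open Vale.Agent.P159.TM.SpecC (Tor wT)
open Vale.Agent.P159.H972 (Par lg tn FL)

lemma fl_core {t E a P Pn κ δ d η K : ℝ} (ht : 0 < t) (hE : 0 < E) (hK : t + E ≤ K * E)
    (ha : a ≤ 2) (hup : P ≤ a * E + κ * (t + E) * (1 + E / t))
    (hlow : a * E - δ * (t + E) * (1 + E / t) ≤ P) (hκ1 : κ * (1 + E / t) ≤ 1) (hPn1 : Pn ≤ P)
    (hPn2 : P - d / t * (t + P) ^ 2 ≤ Pn) (hP0 : 0 ≤ P) (hκ0 : 0 ≤ κ) (hδ0 : 0 ≤ δ)
    (hd0 : 0 ≤ d) (h1 : κ * K ^ 2 ≤ η) (h2 : (δ + 9 * d) * K ^ 2 ≤ η) :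
    |Pn - a * E| ≤ η * E ^ 2 / t := by
  have hQ : (t + E) * (1 + E / t) = (t + E) ^ 2 / t := by
    field_simp
  have hQ2 : (t + E) ^ 2 / t ≤ K ^ 2 * (E ^ 2 / t) := by
    rw [← mul_div_assoc]
    refine div_le_div_of_nonneg_right ?_ ht.le
    calc (t + E) ^ 2 ≤ (K * E) ^ 2 := pow_le_pow_left₀ (by positivity) hK 2
      _ = K ^ 2 * E ^ 2 := by ring
  have hEt : 0 ≤ E ^ 2 / t := by positivity
  have hR : η * E ^ 2 / t = η * (E ^ 2 / t) := by ring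
  have hu : P ≤ a * E + κ * ((t + E) ^ 2 / t) := by rw [← hQ]; linarith
  have hl : a * E - δ * ((t + E) ^ 2 / t) ≤ P := by rw [← hQ]; linarith
  have h3 : t + P ≤ 3 * (t + E) := by
    have h4 : κ * (1 + E / t) * (t + E) ≤ 1 * (t + E) :=
      mul_le_mul_of_nonneg_right hκ1 (by positivity)
    have h5 : a * E ≤ 2 * E := mul_le_mul_of_nonneg_right ha hE.le
    linarith
  have h6 : d / t * (t + P) ^ 2 ≤ 9 * d * ((t + E) ^ 2 / t) := by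
    have h7 : (t + P) ^ 2 ≤ (3 * (t + E)) ^ 2 := pow_le_pow_left₀ (by positivity) h3 2
    calc d / t * (t + P) ^ 2 ≤ d / t * (3 * (t + E)) ^ 2 :=
          mul_le_mul_of_nonneg_left h7 (by positivity)
      _ = 9 * d * ((t + E) ^ 2 / t) := by ring
  have h8 : κ * ((t + E) ^ 2 / t) ≤ η * (E ^ 2 / t) := by
    calc κ * ((t + E) ^ 2 / t) ≤ κ * (K ^ 2 * (E ^ 2 / t)) := mul_le_mul_of_nonneg_left hQ2 hκ0
      _ = κ * K ^ 2 * (E ^ 2 / t) := by ring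
      _ ≤ η * (E ^ 2 / t) := mul_le_mul_of_nonneg_right h1 hEt
  have h9 : (δ + 9 * d) * ((t + E) ^ 2 / t) ≤ η * (E ^ 2 / t) := by
    calc (δ + 9 * d) * ((t + E) ^ 2 / t) ≤ (δ + 9 * d) * (K ^ 2 * (E ^ 2 / t)) :=
          mul_le_mul_of_nonneg_left hQ2 (by positivity)
      _ = (δ + 9 * d) * K ^ 2 * (E ^ 2 / t) := by ring
      _ ≤ η * (E ^ 2 / t) := mul_le_mul_of_nonneg_right h2 hEt
  rw [hR, abs_le]
  constructor
  · have : (δ + 9 * d) * ((t + E) ^ 2 / t) =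
      δ * ((t + E) ^ 2 / t) + 9 * d * ((t + E) ^ 2 / t) := by ring
    linarith
  · linarith

/-- thresholds for the exponential -/
lemma thr2 {C c : ℝ} (hc : 0 < c) (M : ℝ) (p : ℕ) :
    ∃ i₀ : ℕ, ∀ i : ℕ, i₀ ≤ i → 4 ≤ i ∧ M ≤ 2 ^ i ∧
      C * Real.exp (-(c * 2 ^ i)) * (2 ^ i) ^ p ≤ 1 / 2 := by
  have t1 : Tendsto (fun x : ℝ => x ^ p * Real.exp (-x)) atTop (𝓝 0) :=
    Real.tendsto_pow_mul_exp_neg_atTop_nhds_zero p
  have t0 : Tendsto (fun i : ℕ => (2 : ℝ) ^ i) atTop atTop :=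
    tendsto_pow_atTop_atTop_of_one_lt (by norm_num)
  have t2 : Tendsto (fun i : ℕ => c * (2 : ℝ) ^ i) atTop atTop := t0.const_mul_atTop hc
  have t3 := ((t1.comp t2).const_mul (C / c ^ p))
  rw [mul_zero] at t3
  obtain ⟨i₀, hi₀⟩ := ((t3.eventually (ge_mem_nhds (by norm_num : (0 : ℝ) < 1 / 2))).and
    ((t0.eventually_ge_atTop M).and (eventually_ge_atTop 4))).exists_forall_of_atTop
  refine ⟨i₀, fun i hi => ?_⟩
  obtain ⟨h1, h2, h3⟩ := hi₀ i hi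
  refine ⟨h3, h2, ?_⟩
  simp only [Function.comp] at h1
  have e2 : C / c ^ p * ((c * 2 ^ i) ^ p * Real.exp (-(c * 2 ^ i))) =
      C * Real.exp (-(c * 2 ^ i)) * (2 ^ i) ^ p := by
    rw [mul_pow]
    field_simp
  rwa [e2] at h1

lemma nu1 {y z C1 ex δ X : ℝ} (hy : 16 ≤ y) (hz : 1 ≤ z) (hC1 : 2 ≤ C1) (hCy : 80 * C1 ≤ y)
    (hex : 2 * ex * (z * y ^ 5) ≤ 1 / 2)
    (hδ : δ = 1 / (4 * (z * y ^ 4) * (2 * C1 * z))) (hX0 : 0 ≤ X) (hX : X ≤ 2 * C1 * z) :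
    ex + δ ≤ 1 / 2 / (z * y ^ 4) ∧ δ ≤ 1 / 4 / (z * y ^ 4) ∧ (ex + δ) * X ≤ 1 := by
  have hy0 : 0 < y := by linarith
  have hz0 : 0 < z := by linarith
  have hC0 : 0 < C1 := by linarith
  have hex1 : ex ≤ 1 / 4 / (z * y ^ 5) := by
    rw [le_div_iff₀ (by positivity)]
    linarith
  have h1 : 1 / 4 / (z * y ^ 5) ≤ 1 / 4 / (z * y ^ 4) := by
    refine div_le_div_of_nonneg_left (by norm_num) (by positivity) ?_
    refine mul_le_mul_of_nonneg_left ?_ hz0.le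
    exact pow_le_pow_right₀ (by linarith) (by norm_num)
  have hδ' : δ ≤ 1 / 4 / (z * y ^ 4) := by
    rw [hδ, div_div, div_le_div_iff₀ (by positivity) (by positivity)]
    have : 1 ≤ 2 * C1 * z := by nlinarith
    have h2 : 4 * (z * y ^ 4) * 1 ≤ 4 * (z * y ^ 4) * (2 * C1 * z) :=
      mul_le_mul_of_nonneg_left this (by positivity)
    linarith
  have hδ0 : 0 ≤ δ := by rw [hδ]; positivity
  refine ⟨?_, hδ', ?_⟩
  · have h2 : (1 : ℝ) / 2 / (z * y ^ 4) = 1 / 4 / (z * y ^ 4) + 1 / 4 / (z * y ^ 4) := by ring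
    rw [h2]
    linarith
  · have h3 : ex * X ≤ 1 / 2 := by
      have h4 : ex * X ≤ 1 / 4 / (z * y ^ 5) * (2 * C1 * z) :=
        mul_le_mul hex1 hX hX0 (by positivity)
      refine h4.trans ?_
      have h5 : 1 / 4 / (z * y ^ 5) * (2 * C1 * z) = C1 / (2 * y ^ 5) := by
        field_simp
        norm_num
      rw [h5, div_le_div_iff₀ (by positivity) (by norm_num)]
      have h6 : y ≤ y ^ 5 := le_self_pow₀ (by linarith) (by norm_num)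
      linarith
    have h7 : δ * X ≤ 1 / 2 := by
      have h8 : δ * X ≤ δ * (2 * C1 * z) := mul_le_mul_of_nonneg_left hX hδ0
      refine h8.trans ?_
      rw [hδ]
      have h9 : 1 / (4 * (z * y ^ 4) * (2 * C1 * z)) * (2 * C1 * z) =
        1 / (4 * (z * y ^ 4)) := by field_simp
      rw [h9, div_le_div_iff₀ (by positivity) (by norm_num)]
      have h10 : (1 : ℝ) ≤ y ^ 4 := one_le_pow₀ (by linarith)
      nlinarith
    rw [add_mul]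
    linarith

lemma nu2 {y z C1 : ℝ} (hy : 16 ≤ y) (hz : 1 ≤ z) (hC1 : 2 ≤ C1) (hCy : 80 * C1 ≤ y) :
    C1 * z / (z * z * y ^ 6) ^ 2 ≤ 1 / (80 * (z * y ^ 4)) ∧
    4 * (1 / (z * z * y ^ 6)) / y ^ 2 ≤ 1 / (40 * (z * y ^ 4)) ∧ 1 / (80 * (z * y ^ 4)) < 1 := by
  have hy0 : 0 < y := by linarith
  have hz0 : 0 < z := by linarith
  have hC0 : 0 < C1 := by linarith
  have hy4 : (16 : ℝ) ^ 4 ≤ y ^ 4 := by gcongr
  have hzy : 65536 ≤ z * y ^ 4 := by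
    norm_num at hy4
    nlinarith
  refine ⟨?_, ?_, ?_⟩
  · rw [div_le_div_iff₀ (by positivity) (by positivity)]
    have h1 : (80 * C1) * (z * (z * y ^ 4)) ≤ y * (z * (z * y ^ 4)) :=
      mul_le_mul_of_nonneg_right hCy (by positivity)
    have h4 : 1 ≤ z * z * y ^ 7 := by
      have h5 : 1 ≤ y ^ 7 := one_le_pow₀ (by linarith)
      have h6 : 1 ≤ z * z := by nlinarith
      nlinarith
    have h7 : (z * z * y ^ 5) * 1 ≤ (z * z * y ^ 5) * (z * z * y ^ 7) :=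
      mul_le_mul_of_nonneg_left h4 (by positivity)
    calc C1 * z * (80 * (z * y ^ 4)) = (80 * C1) * (z * (z * y ^ 4)) := by ring
      _ ≤ y * (z * (z * y ^ 4)) := h1
      _ = (z * z * y ^ 5) * 1 := by ring
      _ ≤ (z * z * y ^ 5) * (z * z * y ^ 7) := h7
      _ = 1 * (z * z * y ^ 6) ^ 2 := by ring
  · have e2 : 4 * (1 / (z * z * y ^ 6)) / y ^ 2 = 4 / (z * z * y ^ 8) := by
      field_simp
    rw [e2, div_le_div_iff₀ (by positivity) (by positivity)]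
    calc 4 * (40 * (z * y ^ 4)) = 160 * (z * y ^ 4) := by ring
      _ ≤ (z * y ^ 4) * (z * y ^ 4) := mul_le_mul_of_nonneg_right (by linarith) (by positivity)
      _ = 1 * (z * z * y ^ 8) := by ring
  · rw [div_lt_one (by positivity)]
    linarith

lemma nu3 {y z κ δ d : ℝ} (hy : 16 ≤ y) (hz : 1 ≤ z) (hκ : κ ≤ 1 / 2 / (z * y ^ 4))
    (hδ : δ ≤ 1 / 4 / (z * y ^ 4)) (hd : d ≤ 1 / (20 * (z * y ^ 4))) :
    κ * (y ^ 2) ^ 2 ≤ 1 / z ∧ (δ + 9 * d) * (y ^ 2) ^ 2 ≤ 1 / z := by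
  have hy0 : 0 < y := by linarith
  have hz0 : 0 < z := by linarith
  have hz1 : 0 < 1 / z := by positivity
  constructor
  · calc κ * (y ^ 2) ^ 2 ≤ 1 / 2 / (z * y ^ 4) * (y ^ 2) ^ 2 :=
          mul_le_mul_of_nonneg_right hκ (by positivity)
      _ = 1 / 2 * (1 / z) := by field_simp
      _ ≤ 1 / z := by linarith
  · have h1 : δ + 9 * d ≤ 7 / 10 / (z * y ^ 4) := by
      have e : 7 / 10 / (z * y ^ 4) = 1 / 4 / (z * y ^ 4) + 9 * (1 / (20 * (z * y ^ 4))) := by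
        field_simp
        norm_num
      rw [e]
      linarith
    calc (δ + 9 * d) * (y ^ 2) ^ 2 ≤ 7 / 10 / (z * y ^ 4) * (y ^ 2) ^ 2 :=
          mul_le_mul_of_nonneg_right h1 (by positivity)
      _ = 7 / 10 * (1 / z) := by field_simp
      _ ≤ 1 / z := by linarith

/-- rough momenta -/
lemma fl_big {E t z C1 a Pn : ℝ} (ht : 0 < t) (hE : 0 < E) (hz : 0 < z) (ha0 : 0 ≤ a)
    (ha : a ≤ C1) (h0 : 0 ≤ Pn) (h1 : Pn ≤ C1 * E) (hbig : C1 * z * t ≤ E) :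
    |Pn - a * E| ≤ 1 / z * E ^ 2 / t := by
  have h3 : a * E ≤ C1 * E := mul_le_mul_of_nonneg_right ha hE.le
  have h4 : 0 ≤ a * E := by positivity
  have h5 : |Pn - a * E| ≤ C1 * E := by
    rw [abs_le]
    constructor <;> linarith
  refine h5.trans ?_
  rw [div_mul_eq_mul_div, one_mul, div_div, le_div_iff₀ (by positivity)]
  calc C1 * E * (z * t) = (C1 * z * t) * E := by ring
    _ ≤ E * E := mul_le_mul_of_nonneg_right hbig hE.le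
    _ = E ^ 2 := by ring

section small

variable {N l : ℕ} [NeZero N] [NeZero (N / l)] {b t : ℝ}

/-- small momenta -/
lemma fl_small (hb : 0 < b) (ht : 0 < t) (hl : l ∣ N) {y z C1 ex δ a : ℝ} (hy : 16 ≤ y)
    (hz : 1 ≤ z) (hC1 : 2 ≤ C1) (hCy : 80 * C1 ≤ y) (hex0 : 0 ≤ ex)
    (hex : 2 * ex * (z * y ^ 5) ≤ 1 / 2) (hδ : δ = 1 / (4 * (z * y ^ 4) * (2 * C1 * z)))
    (ha : a ≤ 2) (hNt : t * (N : ℝ) ^ 2 = y ^ 2) (hl2 : (l : ℝ) ^ 2 * t = 1 / (z * z * y ^ 6) ^ 2)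
    (HR : ∀ F : V N → ℝ, (∀ x, |F x| ≤ 1 + 1) → CellC N l F →
      Rs (wt N b t) (t • F) ≤ 1 / (z * z * y ^ 6))
    {k : V N} (hk : k ≠ 0) (hsm : EE k ≤ C1 * z * t)
    (hlow : a * EE k - δ * (t + EE k) * (1 + EE k / t) ≤ Pik N b t k)
    (hup : (ex + δ) * (1 + EE k / t) ≤ 1 →
      Pik N b t k ≤ a * EE k + (ex + δ) * (t + EE k) * (1 + EE k / t)) :
    |Pin N b t k - a * EE k| ≤ 1 / z * EE k ^ 2 / t := by
  have hy0 : 0 < y := by linarith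
  have hz0 : 0 < z := by linarith
  have hE0 : 0 ≤ EE k := TM.H764.EE_nonneg k
  have hgap := H462.EE_gap hk
  have hN0 : (0 : ℝ) < N := by exact_mod_cast NeZero.pos N
  have hE : 0 < EE k := lt_of_lt_of_le (by positivity) hgap
  have hPn1 := H963.Pin_le_Pik (N := N) hb ht hk
  have hP0 := H864.Pik_nonneg (N := N) hb ht k
  have hxR : 1 + EE k / t ≤ 2 * C1 * z := by
    have h1 : EE k / t ≤ C1 * z := by rw [div_le_iff₀ ht]; exact hsm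
    nlinarith
  obtain ⟨hκ, hδ', hκ1⟩ := nu1 hy hz hC1 hCy hex hδ (by positivity : 0 ≤ 1 + EE k / t) hxR
  have hδ0 : 0 < δ := by rw [hδ]; positivity
  have hup' := hup hκ1
  obtain ⟨n1, n2, n3⟩ := nu2 hy hz hC1 hCy
  have htE : t + EE k ≤ y ^ 2 * EE k := by
    have h1 : 16 * t ≤ y ^ 2 * EE k := by
      rw [← hNt]
      rw [div_le_iff₀ (by positivity)] at hgap
      calc 16 * t ≤ (EE k * (N : ℝ) ^ 2) * t := mul_le_mul_of_nonneg_right hgap ht.le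
        _ = t * (N : ℝ) ^ 2 * EE k := by ring
    have h2 : 16 * EE k ≤ y ^ 2 * EE k := mul_le_mul_of_nonneg_right (by nlinarith) hE0
    linarith
  have hlE : (l : ℝ) ^ 2 * EE k ≤ 1 / (80 * (z * y ^ 4)) := by
    refine le_trans ?_ n1
    calc (l : ℝ) ^ 2 * EE k ≤ (l : ℝ) ^ 2 * (C1 * z * t) :=
          mul_le_mul_of_nonneg_left hsm (by positivity)
      _ = C1 * z * ((l : ℝ) ^ 2 * t) := by ring
      _ = C1 * z / (z * z * y ^ 6) ^ 2 := by rw [hl2]; ring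
  have hG := Gnh_le_Ght hb ht hl (Λ := 1) (η := 1 / (z * z * y ^ 6)) zero_lt_one HR hk (by linarith)
  obtain ⟨d, hd⟩ : ∃ d, d = 2 * ((l : ℝ) ^ 2 * EE k) +
      4 * (1 / (z * z * y ^ 6)) / (t * 1 ^ 2 * (N : ℝ) ^ 2) := ⟨_, rfl⟩
  have hd0 : 0 ≤ d := by rw [hd]; positivity
  have hdt : d / t = 2 * ((l : ℝ) ^ 2 * EE k) / t +
      4 * (1 / (z * z * y ^ 6)) / (t ^ 2 * 1 ^ 2 * (N : ℝ) ^ 2) := by
    rw [hd]
    field_simp
  rw [← hdt] at hG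
  have hPin := Pin_ge hb ht hk hG (by positivity)
  have hd' : d ≤ 1 / (20 * (z * y ^ 4)) := by
    have e : 1 / (20 * (z * y ^ 4)) = 2 * (1 / (80 * (z * y ^ 4))) +
      1 / (40 * (z * y ^ 4)) := by
      field_simp
      norm_num
    have e1 : t * 1 ^ 2 * (N : ℝ) ^ 2 = y ^ 2 := by rw [← hNt]; ring
    rw [e, hd, e1]
    linarith
  obtain ⟨n4, n5⟩ := nu3 hy hz hκ hδ' hd'
  exact fl_core ht hE htE ha hup' hlow hκ1 hPn1 hPin hP0 (by linarith) hδ0.le hd0 n4 n5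

end small

/-! powers -/

lemma pw_t {t1 : ℝ} (ht1 : 0 < t1) {m₃ m : ℕ} (h : 1 / t1 ≤ (m₃ : ℝ)) (hm : m₃ ≤ m) :
    1 / (2 ^ m : ℝ) ^ 2 ≤ t1 := by
  have h1 : (m₃ : ℝ) ≤ m := by exact_mod_cast hm
  have h2 : (m : ℝ) ≤ 2 ^ m := by exact_mod_cast (Nat.lt_two_pow_self (n := m)).le
  have h4 : (1 : ℝ) ≤ 2 ^ m := one_le_pow₀ (by norm_num)
  have h5 : (2 : ℝ) ^ m ≤ (2 ^ m) ^ 2 := le_self_pow₀ h4 (by norm_num)
  have h3 : 1 / t1 ≤ (2 ^ m : ℝ) ^ 2 := by linarith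
  rw [div_le_iff₀ ht1] at h3
  rw [div_le_iff₀ (by positivity)]
  linarith

lemma pw_A {i B : ℕ} {y z : ℝ} (hy : y = 2 ^ i) (hz : z = y ^ B) :
    (2 : ℝ) ^ ((2 * B + 6) * i) = z * z * y ^ 6 := by
  rw [hz, hy, ← pow_add, ← pow_add, ← pow_mul]
  congr 1
  ring

lemma pw_N {i m : ℕ} {y t : ℝ} (hy : y = 2 ^ i) (ht : t = 1 / (2 ^ m : ℝ) ^ 2) :
    t * ((2 ^ (i + m) : ℕ) : ℝ) ^ 2 = y ^ 2 := by
  rw [ht, hy]
  push_cast
  rw [pow_add]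
  field_simp

lemma pw_l {m s : ℕ} {A t : ℝ} (hA : (2 : ℝ) ^ s = A) (ht : t = 1 / (2 ^ m : ℝ) ^ 2)
    (hsm : s ≤ m) : ((2 ^ (m - s) : ℕ) : ℝ) ^ 2 * t = 1 / A ^ 2 := by
  rw [ht]
  push_cast
  have h1 : (2 : ℝ) ^ m = 2 ^ (m - s) * A := by
    rw [← hA, ← pow_add]
    congr 1
    omega
  rw [h1]
  field_simp

lemma pw_A2 {y z : ℝ} (hy : 16 ≤ y) (hz : 1 ≤ z) : (1 : ℝ) + 1 ≤ z * z * y ^ 6 := by
  have h5 : (16 : ℝ) ≤ y ^ 6 := hy.trans (le_self_pow₀ (by linarith) (by norm_num))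
  have h6 : 1 * 1 ≤ z * z := mul_le_mul hz hz (by norm_num) (by linarith)
  have h7 : 1 * y ^ 6 ≤ z * z * y ^ 6 := mul_le_mul_of_nonneg_right (by linarith) (by positivity)
  linarith

/-- small momenta, in powers of two -/
lemma fl_sm {b : ℝ} (hb : 0 < b) {i m s B : ℕ} (hs : s = (2 * B + 6) * i) (hsm : s ≤ m)
    {y z t C1 ex δ a : ℝ} (hy : y = 2 ^ i) (hz : z = y ^ B) (ht : t = 1 / (2 ^ m : ℝ) ^ 2)
    (hy16 : 16 ≤ y) (hC1 : 2 ≤ C1) (hCy : 80 * C1 ≤ y) (hex0 : 0 ≤ ex)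
    (hex : 2 * ex * y ^ (B + 5) ≤ 1 / 2) (hδ : δ = 1 / (4 * (z * y ^ 4) * (2 * C1 * z)))
    (ha : a ≤ 2)
    (HR : ∀ F : V (2 ^ (i + m)) → ℝ, (∀ x, |F x| ≤ 2 ^ s) → CellC (2 ^ (i + m)) (2 ^ (m - s)) F →
      Rs (wt (2 ^ (i + m)) b t) (t • F) ≤ 1 / 2 ^ s)
    {k : V (2 ^ (i + m))} (hk : k ≠ 0) (hsm' : EE k ≤ C1 * z * t)
    (hlow : a * EE k - δ * (t + EE k) * (1 + EE k / t) ≤ Pik (2 ^ (i + m)) b t k)
    (hup : (ex + δ) * (1 + EE k / t) ≤ 1 →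
      Pik (2 ^ (i + m)) b t k ≤ a * EE k + (ex + δ) * (t + EE k) * (1 + EE k / t)) :
    |Pin (2 ^ (i + m)) b t k - a * EE k| ≤ 1 / z * EE k ^ 2 / t := by
  have ht0 : 0 < t := by rw [ht]; positivity
  have hz1 : 1 ≤ z := by rw [hz]; exact one_le_pow₀ (by linarith)
  have hl : 2 ^ (m - s) ∣ 2 ^ (i + m) := pow_dvd_pow 2 (by omega)
  have : NeZero (2 ^ (i + m) / 2 ^ (m - s)) :=
    ⟨(Nat.div_pos (Nat.pow_le_pow_right (by norm_num) (by omega)) (by positivity)).ne'⟩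
  have hA : (2 : ℝ) ^ s = z * z * y ^ 6 := by rw [hs]; exact pw_A hy hz
  have hl2 := pw_l hA ht hsm
  have hNt := pw_N hy ht
  have hA2 := pw_A2 hy16 hz1
  have hex' : 2 * ex * (z * y ^ 5) ≤ 1 / 2 := by
    rw [hz, ← pow_add]
    exact hex
  have HR' : ∀ F : V (2 ^ (i + m)) → ℝ, (∀ x, |F x| ≤ 1 + 1) →
      CellC (2 ^ (i + m)) (2 ^ (m - s)) F →
      Rs (wt (2 ^ (i + m)) b t) (t • F) ≤ 1 / (z * z * y ^ 6) := by
    intro F hF hc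
    rw [← hA]
    exact HR F (fun x => (hF x).trans (by rw [hA]; exact hA2)) hc
  exact fl_small hb ht0 hl hy16 hz1 hC1 hCy hex0 hex' hδ ha hNt hl2 HR' hk hsm' hlow hup

/-- **flat profile at the start**, neutral model, all momenta, mass `ξ⁻²` -/
theorem start_FL0 {b : ℝ} (hb : 0 < b) (hY : 2 / Real.pi ≤ helicity b) {C1' t1 : ℝ}
    (hC1' : 0 < C1') (ht1 : 0 < t1) (hT1 : ∀ (N : ℕ) [NeZero N] (t : ℝ), 0 < t → t ≤ t1 →
      ∀ k : V N, k ≠ 0 → Pik N b t k ≤ C1' * (t + EE k)) (B : ℕ) :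
    ∃ i₀ : ℕ, ∀ i : ℕ, i₀ ≤ i → ∃ m₀ : ℕ, ∀ m : ℕ, m₀ ≤ m → ∀ k : V (2 ^ (i + m)), k ≠ 0 →
      |Pin (2 ^ (i + m)) b (1 / (2 ^ m : ℝ) ^ 2) k - 1 / helicity b * EE k| ≤
        1 / 2 ^ (B * i) * EE k ^ 2 / (1 / (2 ^ m : ℝ) ^ 2) := by
  obtain ⟨hY0, hY2⟩ := H197.inv_Y_le hY
  obtain ⟨c, C, hc, hC, hF⟩ := H197.start_flat hb hY
  obtain ⟨C1, hC1⟩ : ∃ C1, C1 = max (2 * C1') 2 := ⟨_, rfl⟩
  have hC12 : 2 ≤ C1 := by rw [hC1]; exact le_max_right _ _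
  have hC11 : 2 * C1' ≤ C1 := by rw [hC1]; exact le_max_left _ _
  obtain ⟨i₁, hi₁⟩ := start_D hb hY (q := 1) le_rfl (2 * B + 6)
  obtain ⟨i₂, hi₂⟩ := thr2 (C := 2 * C) hc (80 * C1) (B + 5)
  refine ⟨max i₁ i₂, fun i hi => ?_⟩
  have hii1 : i₁ ≤ i := (le_max_left _ _).trans hi
  obtain ⟨hi4, hiC, hexp⟩ := hi₂ i ((le_max_right _ _).trans hi)
  obtain ⟨y, hy⟩ : ∃ y : ℝ, y = 2 ^ i := ⟨_, rfl⟩
  rw [← hy] at hiC hexp
  have hy16 : 16 ≤ y := by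
    rw [hy]
    calc (16 : ℝ) = 2 ^ 4 := by norm_num
      _ ≤ 2 ^ i := pow_le_pow_right₀ (by norm_num) hi4
  have hy0 : 0 < y := by linarith
  obtain ⟨z, hzB⟩ : ∃ z : ℝ, z = y ^ B := ⟨_, rfl⟩
  have hzB' : (2 : ℝ) ^ (B * i) = z := by rw [hzB, hy, ← pow_mul, mul_comm]
  have hz1 : 1 ≤ z := by rw [hzB]; exact one_le_pow₀ (by linarith)
  have hz0 : 0 < z := by linarith
  obtain ⟨δ, hδ⟩ : ∃ δ : ℝ, δ = 1 / (4 * (z * y ^ 4) * (2 * C1 * z)) := ⟨_, rfl⟩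
  have hδ0 : 0 < δ := by rw [hδ]; positivity
  obtain ⟨m₁, hm₁⟩ := hF i (by omega) δ hδ0
  obtain ⟨s, hs⟩ : ∃ s, s = (2 * B + 6) * i := ⟨_, rfl⟩
  obtain ⟨m₂, hsm, hm₂⟩ := hi₁ i hii1 s hs.le
  obtain ⟨m₃, hm₃⟩ := exists_nat_ge (1 / t1)
  refine ⟨max (max m₁ m₂) m₃, fun m hm k hk => ?_⟩
  have hmm1 : m₁ ≤ m := ((le_max_left _ _).trans (le_max_left _ _)).trans hm
  have hmm2 : m₂ ≤ m := ((le_max_right _ _).trans (le_max_left _ _)).trans hm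
  have hmm3 : m₃ ≤ m := (le_max_right _ _).trans hm
  have htt1 := pw_t ht1 hm₃ hmm3
  obtain ⟨t, ht⟩ : ∃ t : ℝ, t = 1 / (2 ^ m : ℝ) ^ 2 := ⟨_, rfl⟩
  rw [← ht] at htt1
  rw [← ht, hzB']
  have ht0 : 0 < t := by rw [ht]; positivity
  have ht' : t = 1 / ((2 ^ m : ℕ) : ℝ) ^ 2 := by rw [ht]; push_cast; rfl
  have hE0 : 0 ≤ EE k := TM.H764.EE_nonneg k
  have hgap := H462.EE_gap hk
  have hE : 0 < EE k := lt_of_lt_of_le (by positivity) hgap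
  by_cases hbig : C1 * z * t ≤ EE k
  · -- rough momenta
    have hPn0 := H963.Pin_nonneg (N := 2 ^ (i + m)) hb ht0 hk
    have hPn1 := H963.Pin_le_Pik (N := 2 ^ (i + m)) hb ht0 hk
    have htE1 : t ≤ EE k := by
      have h0 : 2 * 1 ≤ C1 * z := mul_le_mul hC12 hz1 (by norm_num) (by linarith)
      have h1 : 1 * t ≤ C1 * z * t := mul_le_mul_of_nonneg_right (by linarith) ht0.le
      linarith
    have h1 := hT1 (2 ^ (i + m)) t ht0 htt1 k hk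
    have h3 : C1' * (t + EE k) ≤ C1' * (2 * EE k) := mul_le_mul_of_nonneg_left (by linarith) hC1'.le
    have h2 : 2 * C1' * EE k ≤ C1 * EE k := mul_le_mul_of_nonneg_right hC11 hE0
    exact fl_big ht0 hE hz0 (by positivity) (hY2.trans hC12) hPn0 (by linarith) hbig
  · -- small momenta
    obtain ⟨hlow, hup⟩ := hm₁ m hmm1 k t ht'
    rw [← hy] at hup
    have hst := hm₂ m hmm2 t (by rw [div_one, ht']) (by rw [ht'])
    have e1 : EE k / helicity b = 1 / helicity b * EE k := by ring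
    rw [e1] at hlow hup
    have hexp' : 2 * (C * Real.exp (-(c * y))) * y ^ (B + 5) ≤ 1 / 2 := by
      rw [← mul_assoc]
      exact hexp
    have HR : ∀ F : V (2 ^ (i + m)) → ℝ, (∀ x, |F x| ≤ 2 ^ s) →
        CellC (2 ^ (i + m)) (2 ^ (m - s)) F →
        Rs (wt (2 ^ (i + m)) b t) (t • F) ≤ 1 / 2 ^ s := by
      intro F hF hc'
      have h1 := hst.R F (fun x => by rw [← hs]; exact hF x) hc'
      rwa [← hs] at h1
    exact fl_sm hb hs (hsm.trans hmm2) hy hzB ht hy16 hC12 hiC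
      (mul_nonneg hC.le (Real.exp_pos _).le) hexp' hδ hY2 HR hk (not_le.1 hbig).le hlow hup

end Vale.Agent.P159.H30
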