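import Vale.Agent.P159.H30.StF2
import Vale.Agent.P159.H30.StG
import Vale.Agent.P159.H280.Top1

/-!
START, part F3 (helper30): the field `flat` of `H972.GP` at the start (all admissible tori, both
masses `t_n` and `4 t_n`), and the fields `D`, `ap` in the final letters.
-/

namespace Vale.Agent.P159.H30

open Finset Matrix MeasureTheory Filter Topology
open Vale.Agent.P159 Vale.Agent.P159.TM
open Vale.Agent.P159.TM.H764 (EE cN sN dt)
open Vale.Agent.P159.H37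
open Vale.Agent.P159.H963 (GW MF nM Neu ntr pin nwt Gn Gnh Pin Gnc)
open Vale.Agent.P159.TM.Spec (V)
open Vale.Agent.P159.TM.SpecC (Tor wT)
open Vale.Agent.P159.H972 (Par lg tn FL DN AP)

lemma FL_of {b : ℝ} {i m B : ℕ} {η t : ℝ}
    (h : ∀ k : V (2 ^ (i + m)), k ≠ 0 →
      |Pin (2 ^ (i + m)) b (1 / (2 ^ m : ℝ) ^ 2) k - 1 / helicity b * EE k| ≤
        1 / 2 ^ (B * i) * EE k ^ 2 / (1 / (2 ^ m : ℝ) ^ 2))
    (hη : 1 / 2 ^ (B * i) ≤ η) (ht : t = 1 / (2 ^ m : ℝ) ^ 2) :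
    FL b t (helicity b)⁻¹ η (2 ^ (i + m)) := by
  have hη0 : 0 ≤ η := le_trans (by positivity) hη
  refine ⟨0, (helicity b)⁻¹, le_rfl, by simpa using hη0, by simpa using hη0, fun k hk => ?_⟩
  have h1 := h k hk
  rw [← ht] at h1
  rw [sub_zero, ← one_div]
  refine h1.trans ?_
  have ht0 : 0 < t := by rw [ht]; positivity
  refine div_le_div_of_nonneg_right ?_ ht0.le
  exact mul_le_mul_of_nonneg_right hη (sq_nonneg _)

/-- **flat profile at the start**: neutral model, all momenta, masses `ξ⁻²` and `4 ξ⁻²`, all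
tori `2 ^ i ξ`, `i₀ ≤ i ≤ I` -/
theorem start_FL {b : ℝ} (hb : 0 < b) (hY : 2 / Real.pi ≤ helicity b) (B : ℕ) :
    ∃ i₀ : ℕ, ∀ I : ℕ, ∃ n₀ : ℕ, ∀ n : ℕ, n₀ ≤ n → ∀ i : ℕ, i₀ ≤ i → i ≤ I →
      FL b (tn n) (helicity b)⁻¹ (1 / 2 ^ (B * i)) (2 ^ (i + n)) ∧
      FL b (4 * tn n) (helicity b)⁻¹ (1 / 2 ^ (B * i)) (2 ^ (i + n)) := by
  obtain ⟨hY0, hY2⟩ := H197.inv_Y_le hY
  obtain ⟨C1, t1, hC1, ht1, hT1⟩ := H280.top1 hb hY0 (by linarith)
  obtain ⟨i₀, h⟩ := start_FL0 hb hY hC1 ht1 hT1 B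
  choose! M hM using h
  refine ⟨i₀, fun I => ⟨(Finset.range (I + 2)).sup M + 1, fun n hn i hi hiI => ?_⟩⟩
  have hsup : ∀ j, j ≤ I + 1 → M j ≤ (Finset.range (I + 2)).sup M := fun j hj =>
    Finset.le_sup (f := M) (Finset.mem_range.2 (by omega))
  obtain ⟨m, rfl⟩ : ∃ m, n = m + 1 := ⟨n - 1, by omega⟩
  constructor
  · refine FL_of (B := B) (hM i hi (m + 1) (by have := hsup i (by omega); omega)) le_rfl ?_
    rw [tn, ← one_div, ← pow_mul, mul_comm, pow_mul]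
    norm_num
  · have h1 := FL_of (B := B) (η := 1 / 2 ^ (B * i)) (t := 4 * tn (m + 1))
      (hM (i + 1) (by omega) m (by have := hsup (i + 1) (by omega); omega)) ?_ ?_
    · have e : i + (m + 1) = i + 1 + m := by omega
      rw [e]
      exact h1
    · refine div_le_div_of_nonneg_left (by norm_num) (by positivity) ?_
      exact pow_le_pow_right₀ (by norm_num) (Nat.mul_le_mul_left B (by omega))
    · rw [tn, ← one_div, ← pow_mul, mul_comm m, pow_mul, pow_succ]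
      norm_num
      field_simp

/-- **the field `flat` of `H972.GP` at the start** -/
theorem start_flatP {b : ℝ} (hb : 0 < b) (hY : 2 / Real.pi ≤ helicity b) {th pf : ℝ}
    (hth : 0 < th) :
    ∃ es0 : ℝ, 0 < es0 ∧ ∀ P : Par, P.th = th → P.pf = pf → P.es ≤ es0 →
      ∀ e0 : ℝ, 0 < e0 → ∃ n0 : ℕ, ∀ n : ℕ, n0 ≤ n → ∀ e : ℝ, e0 ≤ e → e ≤ P.es →
      ∀ r, P.TT n e r → FL b (tn n) (helicity b)⁻¹ (e ^ P.pf) (2 ^ r) ∧
        FL b (4 * tn n) (helicity b)⁻¹ (e ^ P.pf) (2 ^ r) := by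
  obtain ⟨B, hB⟩ := exists_nat_ge (pf / th)
  have hB' : pf ≤ B * th := by rwa [div_le_iff₀ hth] at hB
  obtain ⟨i₀, hi₀⟩ := start_FL hb hY B
  refine ⟨(2 : ℝ) ^ (-((i₀ : ℝ) / th)), by positivity, fun P hPth hPpf hPes e0 he0 => ?_⟩
  obtain ⟨n₀, hn₀⟩ := hi₀ (P.kE e0 + P.q0 * (4 * P.w e0))
  refine ⟨n₀, fun n hn e he0e hees r hr => ?_⟩
  have he : 0 < e := he0.trans_le he0e
  have he12 : e ≤ 1 / 2 := hees.trans P.es1
  have hL1 := H972.one_le_logb he he12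
  obtain ⟨i, rfl⟩ : ∃ i, r = i + n := ⟨r - n, by have := hr.1; omega⟩
  have hik : P.kE e ≤ i := by have := hr.1; omega
  have hiI : i ≤ P.kE e0 + P.q0 * (4 * P.w e0) := by
    have h1 := hr.2
    have h2 : P.kE e ≤ P.kE e0 := H972.lg_anti P.th0.le he0 he0e
    have h3 : P.w e ≤ P.w e0 := H972.lg_anti P.thp0.le he0 he0e
    have h4 : P.q0 * (4 * P.w e) ≤ P.q0 * (4 * P.w e0) := Nat.mul_le_mul_left _ (by omega)
    omega
  have hiL : th * Real.logb 2 (1 / e) ≤ i := by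
    refine le_trans ?_ (by exact_mod_cast hik : (P.kE e : ℝ) ≤ i)
    rw [← hPth]
    exact Nat.le_ceil _
  have hi₀i : i₀ ≤ i := by
    have h1 : (i₀ : ℝ) / th ≤ Real.logb 2 (1 / e) := by
      rw [Real.le_logb_iff_rpow_le (by norm_num) (by positivity), le_div_iff₀ he]
      have h2 : e ≤ (2 : ℝ) ^ (-((i₀ : ℝ) / th)) := hees.trans hPes
      calc (2 : ℝ) ^ ((i₀ : ℝ) / th) * e ≤ (2 : ℝ) ^ ((i₀ : ℝ) / th) * 2 ^ (-((i₀ : ℝ) / th)) :=
            mul_le_mul_of_nonneg_left h2 (by positivity)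
        _ = 1 := by rw [← Real.rpow_add (by norm_num)]; simp
    have h2 : (i₀ : ℝ) ≤ th * Real.logb 2 (1 / e) := by
      rw [div_le_iff₀ hth] at h1
      linarith
    exact_mod_cast h2.trans hiL
  have hη : 1 / 2 ^ (B * i) ≤ e ^ P.pf := by
    have h9 : e = (2 : ℝ) ^ (-(Real.logb 2 (1 / e))) := by
      rw [Real.rpow_neg (by norm_num), Real.rpow_logb (by norm_num) (by norm_num) (by positivity)]
      simp
    have h10 : (1 : ℝ) / 2 ^ (B * i) = (2 : ℝ) ^ (-((B : ℝ) * i)) := by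
      rw [Real.rpow_neg (by norm_num), one_div, ← Nat.cast_mul, Real.rpow_natCast]
    have h11 : e ^ P.pf = (2 : ℝ) ^ (-(Real.logb 2 (1 / e)) * P.pf) := by
      conv_lhs => rw [h9]
      rw [← Real.rpow_mul (by norm_num)]
    rw [h10, h11]
    refine Real.rpow_le_rpow_of_exponent_le (by norm_num) ?_
    rw [hPpf]
    have h12 : pf * Real.logb 2 (1 / e) ≤ B * th * Real.logb 2 (1 / e) :=
      mul_le_mul_of_nonneg_right hB' (by linarith)
    have h13 : (B : ℝ) * (th * Real.logb 2 (1 / e)) ≤ B * i :=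
      mul_le_mul_of_nonneg_left hiL (by positivity)
    linarith
  obtain ⟨h1, h2⟩ := hn₀ n hn i hi₀i hiI
  have hmono : ∀ t : ℝ, 0 < t → FL b t (helicity b)⁻¹ (1 / 2 ^ (B * i)) (2 ^ (i + n)) →
      FL b t (helicity b)⁻¹ (e ^ P.pf) (2 ^ (i + n)) := by
    rintro t ht ⟨z, a', g1, g2, g3, g4⟩
    refine ⟨z, a', g1, g2.trans hη, g3.trans hη, fun k hk => (g4 k hk).trans ?_⟩
    refine div_le_div_of_nonneg_right ?_ ht.le
    exact mul_le_mul_of_nonneg_right hη (sq_nonneg _)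
  have ht : 0 < tn n := by unfold tn; positivity
  exact ⟨hmono _ ht h1, hmono _ (by positivity) h2⟩

/-- **the fields `D` and `ap` of `H972.GP` at the start** -/
theorem start_DA {b : ℝ} (hb : 0 < b) (hY : 2 / Real.pi ≤ helicity b) {th C0 x1 : ℝ}
    (hth : 0 < th) (hC0 : 0 < C0) (hx1 : 0 < x1) :
    ∃ es0 : ℝ, 0 < es0 ∧ ∀ P : Par, P.th = th → P.C0 = C0 → P.x1 = x1 → P.es ≤ es0 →
      ∀ e0 : ℝ, 0 < e0 → ∃ n0 : ℕ, ∀ n : ℕ, n0 ≤ n → ∀ e : ℝ, e0 ≤ e → e ≤ P.es →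
      (∀ τ : ℝ, tn n ≤ τ → τ ≤ 4 * tn n → ∀ r, P.TT n e r → DN b n r (P.sE n e) τ ≤ e) ∧
      AP b n (n + 3 * P.xE e) (P.sE n e) (2 ^ P.xE e) (tn n) (e ^ (1 / 8 : ℝ)) := by
  obtain ⟨es0, hes0, h⟩ := start_DAP hb hY hth hC0 hx1
  refine ⟨es0, hes0, fun P h1 h2 h3 h4 e0 he0 => ?_⟩
  obtain ⟨n0, hn0⟩ := h P h1 h2 h3 h4 e0 he0
  refine ⟨n0, fun n hn e he0e hees => ?_⟩
  have he : 0 < e := he0.trans_le he0e
  have he12 : e ≤ 1 / 2 := hees.trans P.es1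
  have ht : 0 < tn n := by unfold tn; positivity
  have he8 : e ≤ e ^ (1 / 8 : ℝ) := by
    conv_lhs => rw [← Real.rpow_one e]
    exact Real.rpow_le_rpow_of_exponent_ge he (by linarith) (by norm_num)
  refine ⟨fun τ hτ1 hτ2 => (hn0 n hn e he0e hees τ hτ1 hτ2).1, fun B => ?_⟩
  refine le_trans (measureReal_mono fun g hg => lt_of_le_of_lt he8 hg)
    ((hn0 n hn e he0e hees (tn n) le_rfl (by linarith)).2 _ (Or.inr rfl) B)

end Vale.Agent.P159.H30
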