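import Vale.Agent.P159.H640.Dt13

/-!
P159, LINKW (C3) (helper30), part 1: second derivatives of free energies of two models from values.

* `lk2` : `|f''(0)| ≤ C (ε/h² + B h^(n-2))` if `|f| ≤ ε`, `|f^(n)| ≤ B` on `[0, h]`;
* `C2_two` : two models, with quadratic corrections.
-/

set_option linter.unusedSectionVars false

namespace Vale.Agent.P159.H30

open Finset Set
open Vale.Agent.P159.TM.H104
open Vale.Agent.P159.H37 (Ev)
open Vale.Agent.P159.H640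

noncomputable section

/-- Landau-Kolmogorov for the second derivative at the end point -/
theorem lk2 (n : ℕ) (hn : 3 ≤ n) : ∃ C : ℝ, 0 < C ∧ ∀ (f : ℝ → ℝ) (h ε B : ℝ), 0 < h →
    ContDiff ℝ n f → (∀ x ∈ Icc 0 h, |iteratedDeriv n f x| ≤ B) → (∀ x ∈ Icc 0 h, |f x| ≤ ε) →
    |iteratedDeriv 2 f 0| ≤ C * (ε / h ^ 2 + B * h ^ (n - 2)) := by
  obtain ⟨c, C, hC, hc, H⟩ := fd_exists (E := ℝ) n
  refine ⟨C, hC, ?_⟩
  intro f h ε B hh hf hB hε
  have h4 := H f h B hh hf (fun x hx => by rw [Real.norm_eq_abs]; exact hB x hx) ⟨2, by omega⟩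
  simp only [Real.norm_eq_abs, smul_eq_mul] at h4
  have h5 : |∑ j, c ⟨2, by omega⟩ j * f (nd n j * h)| ≤ C * ε := by
    have hε0 : 0 ≤ ε := (abs_nonneg _).trans (hε 0 ⟨le_rfl, hh.le⟩)
    calc |∑ j, c ⟨2, by omega⟩ j * f (nd n j * h)|
        ≤ ∑ j, |c ⟨2, by omega⟩ j * f (nd n j * h)| := abs_sum_le_sum_abs _ _
      _ ≤ ∑ j, |c ⟨2, by omega⟩ j| * ε := by
          refine sum_le_sum fun j _ => ?_
          rw [abs_mul]
          exact mul_le_mul_of_nonneg_left (hε _ (nd_mem j hh.le)) (abs_nonneg _)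
      _ = (∑ j, |c ⟨2, by omega⟩ j|) * ε := (sum_mul _ _ _).symm
      _ ≤ C * ε := mul_le_mul_of_nonneg_right (hc _) hε0
  have h6 : h ^ 2 * |iteratedDeriv 2 f 0| ≤ C * ε + C * (B * h ^ n) := by
    have e1 : |h ^ 2 * iteratedDeriv 2 f 0| = h ^ 2 * |iteratedDeriv 2 f 0| := by
      rw [abs_mul, abs_of_pos (by positivity)]
    rw [← e1]
    have h7 : |h ^ 2 * iteratedDeriv 2 f 0| ≤
        |h ^ 2 * iteratedDeriv 2 f 0 - ∑ j, c ⟨2, by omega⟩ j * f (nd n j * h)| +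
        |∑ j, c ⟨2, by omega⟩ j * f (nd n j * h)| := by
      have := abs_add_le (h ^ 2 * iteratedDeriv 2 f 0 - ∑ j, c ⟨2, by omega⟩ j * f (nd n j * h))
        (∑ j, c ⟨2, by omega⟩ j * f (nd n j * h))
      simpa using this
    linarith
  have e2 : h ^ n = h ^ 2 * h ^ (n - 2) := by
    rw [← pow_add]
    congr 1
    omega
  have h8 : |iteratedDeriv 2 f 0| ≤ (C * ε + C * (B * h ^ n)) / h ^ 2 := by
    rw [le_div_iff₀ (by positivity)]
    linarith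
  refine h8.trans (le_of_eq ?_)
  rw [e2]
  field_simp

section alg

variable {V : Type*} [Fintype V] {μ : (V → ℤ) → ℝ}

/-- the second derivative is the variance -/
theorem iter2 (hμ : EM μ) (J u : V → ℝ) :
    iteratedDeriv 2 (Ll μ J u) 0 = Ex μ J (fun h => (li u h - Ex μ J (li u)) ^ 2) := by
  have h1 : iteratedDeriv 2 (Ll μ J u) 0 = iteratedDeriv 1 (gq μ J u) 0 := iter_Ll hμ J u 0 0
  have hf := contDiff_Fk hμ J u 0
  have hg := contDiff_gq hμ J u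
  have e1 : deriv (Fk μ J u 0) = fun s => gq μ J u s * Fk μ J u 0 s := funext (deriv_Fk0 hμ J u)
  have hl : ∀ n : ℕ, Fk μ J u (n + 1) 0 = ∑ i ∈ range (n + 1),
      (n.choose i : ℝ) * iteratedDeriv i (gq μ J u) 0 * Fk μ J u (n - i) 0 := by
    intro n
    have hgn : ContDiffAt ℝ ((n : ℕ) : WithTop ℕ∞) (gq μ J u) 0 :=
      (hg.of_le (by exact_mod_cast le_top)).contDiffAt
    have hfn : ContDiffAt ℝ ((n : ℕ) : WithTop ℕ∞) (Fk μ J u 0) 0 :=
      (hf.of_le (by exact_mod_cast le_top)).contDiffAt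
    have h2 := iteratedDeriv_fun_mul hgn hfn
    rw [← e1, ← iteratedDeriv_succ', iter_Fk hμ] at h2
    rw [h2]
    refine sum_congr rfl fun i _ => ?_
    rw [iter_Fk hμ]
  have f0 : Fk μ J u 0 0 = 1 := Fk0_zero hμ J u
  have f1 : Fk μ J u 1 0 = 0 := by
    rw [Fk_zero]
    simp only [pow_one]
    rw [Ex_sub hμ (Gr.li u) (Gr.const _), Ex_const hμ, sub_self]
  have g0 := hl 0
  have g1 := hl 1
  simp only [sum_range_succ, sum_range_zero, Nat.choose, Nat.sub_zero, Nat.sub_self] at g0 g1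
  norm_num at g0 g1
  rw [f0] at g0 g1
  rw [f1] at g0 g1
  have f2 := Fk_zero (μ := μ) J u 2
  rw [h1, ← f2]
  have g0' : gq μ J u 0 = 0 := by linarith
  have g1' : deriv (gq μ J u) 0 = Fk μ J u 2 0 := by linarith
  rw [iteratedDeriv_one]
  exact g1'

theorem iter2_zero (hμ : EM μ) (he : Ev μ) (u : V → ℝ) :
    iteratedDeriv 2 (Ll μ 0 u) 0 = Ex μ 0 (fun h => li u h ^ 2) := by
  rw [iter2 hμ, H114.Ex_li_zero he u]
  simp only [sub_zero]

/-- the free energy along a ray with a quadratic correction -/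
def Lq (μ : (V → ℤ) → ℝ) (u : V → ℝ) (q s : ℝ) : ℝ := Ll μ 0 u s - Lg μ 0 - s ^ 2 * q / 2

theorem contDiff_Lq (hμ : EM μ) (u : V → ℝ) (q : ℝ) : ContDiff ℝ (⊤ : ℕ∞) (Lq μ u q) := by
  unfold Lq
  refine ((contDiff_Ll hμ 0 u).sub contDiff_const).sub ?_
  exact ((contDiff_id.pow 2).mul contDiff_const).div_const 2

theorem iter_quad (q : ℝ) (s : ℝ) : iteratedDeriv 2 (fun s : ℝ => s ^ 2 * q / 2) s = q := by
  rw [iteratedDeriv_succ, iteratedDeriv_one]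
  have h1 : deriv (fun s : ℝ => s ^ 2 * q / 2) = fun s => s * q := by
    funext s
    have h := ((hasDerivAt_pow 2 s).mul_const q).div_const 2
    rw [h.deriv]
    push_cast
    ring
  rw [h1]
  have h2 := (hasDerivAt_id s).mul_const q
  simp only [id] at h2
  rw [h2.deriv]
  ring

theorem iter_quad' (q : ℝ) (k : ℕ) (hk : 3 ≤ k) (s : ℝ) :
    iteratedDeriv k (fun s : ℝ => s ^ 2 * q / 2) s = 0 := by
  obtain ⟨m, rfl⟩ : ∃ m, k = m + 1 + 2 := ⟨k - 3, by omega⟩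
  rw [iteratedDeriv_eq_iterate, Function.iterate_add_apply]
  have h1 : deriv^[2] (fun s : ℝ => s ^ 2 * q / 2) = fun _ => q := by
    rw [← iteratedDeriv_eq_iterate]
    funext s
    exact iter_quad q s
  rw [h1, ← iteratedDeriv_eq_iterate, iteratedDeriv_const]
  simp

theorem iter_Lq (hμ : EM μ) (u : V → ℝ) (q : ℝ) {k : ℕ} (hk : 0 < k) (s : ℝ) :
    iteratedDeriv k (Lq μ u q) s = iteratedDeriv k (Ll μ 0 u) s -
      iteratedDeriv k (fun s : ℝ => s ^ 2 * q / 2) s := by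
  have h1 : Lq μ u q = fun s => (Ll μ 0 u s + -Lg μ 0) - s ^ 2 * q / 2 := by
    funext s
    unfold Lq
    ring
  have c1 : ContDiffAt ℝ ((k : ℕ) : WithTop ℕ∞) (fun s => Ll μ 0 u s + -Lg μ 0) s :=
    (((contDiff_Ll hμ 0 u).add contDiff_const).of_le (by exact_mod_cast le_top)).contDiffAt
  have c2 : ContDiffAt ℝ ((k : ℕ) : WithTop ℕ∞) (fun s : ℝ => s ^ 2 * q / 2) s :=
    (((contDiff_id.pow 2).mul contDiff_const).div_const 2).contDiffAt
  rw [h1, iteratedDeriv_fun_sub c1 c2, iterC k hk]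

end alg

/-- **variances of two models from values** -/
theorem C2_two (κ : ℝ) (n : ℕ) (hn : 3 ≤ n) : ∃ C : ℝ, 0 < C ∧
    ∀ {V V' : Type} [Fintype V] [Fintype V'] {μ : (V → ℤ) → ℝ} {μ' : (V' → ℤ) → ℝ}
    (_ : EM μ) (_ : Ev μ) (_ : EM μ') (_ : Ev μ') (u : V → ℝ) (u' : V' → ℝ) (q q' r h ε : ℝ),
    0 < r → 0 < h → h ≤ r →
    Lg μ ((2 * r) • u) - Lg μ 0 ≤ κ → Lg μ' ((2 * r) • u') - Lg μ' 0 ≤ κ →
    (∀ s ∈ Icc 0 h, |(Lg μ (s • u) - Lg μ 0 - s ^ 2 * q / 2) -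
      (Lg μ' (s • u') - Lg μ' 0 - s ^ 2 * q' / 2)| ≤ ε) →
    |(Ex μ 0 (fun h => li u h ^ 2) - q) - (Ex μ' 0 (fun h => li u' h ^ 2) - q')| ≤
      C * (ε / h ^ 2 + (1 / r) ^ n * h ^ (n - 2)) := by
  obtain ⟨C1, hC1, H1⟩ := lk2 n hn
  obtain ⟨C2, hC2, H2⟩ := der_le κ (n - 2)
  refine ⟨C1 * (1 + 2 * C2), by positivity, ?_⟩
  intro V V' _ _ μ μ' hμ he hμ' he' u u' q q' r h ε hr hh hhr ha ha' hε
  have e2 : n - 2 + 2 = n := by omega
  have c1 := contDiff_Lq hμ u q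
  have c2 := contDiff_Lq hμ' u' q'
  have hder : ∀ k : ℕ, 0 < k → ∀ s, iteratedDeriv k (fun s => Lq μ u q s - Lq μ' u' q' s) s =
      (iteratedDeriv k (Ll μ 0 u) s - iteratedDeriv k (fun s : ℝ => s ^ 2 * q / 2) s) -
      (iteratedDeriv k (Ll μ' 0 u') s - iteratedDeriv k (fun s : ℝ => s ^ 2 * q' / 2) s) := by
    intro k hk s
    have d1 : ContDiffAt ℝ ((k : ℕ) : WithTop ℕ∞) (Lq μ u q) s :=
      (c1.of_le (by exact_mod_cast le_top)).contDiffAt
    have d2 : ContDiffAt ℝ ((k : ℕ) : WithTop ℕ∞) (Lq μ' u' q') s :=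
      (c2.of_le (by exact_mod_cast le_top)).contDiffAt
    rw [iteratedDeriv_fun_sub d1 d2, iter_Lq hμ _ _ hk, iter_Lq hμ' _ _ hk]
  have hcd : ContDiff ℝ n (fun s => Lq μ u q s - Lq μ' u' q' s) :=
    (c1.sub c2).of_le (by exact_mod_cast le_top)
  have h1 := H1 (fun s => Lq μ u q s - Lq μ' u' q' s) h ε (2 * (C2 * (1 / r) ^ n)) hh hcd
    (fun x hx => by
      rw [hder n (by omega), iter_quad' q n hn, iter_quad' q' n hn, sub_zero, sub_zero]
      have hx' : |x| ≤ r := by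
        rw [abs_of_nonneg hx.1]
        exact hx.2.trans hhr
      have q1 := H2 hμ he u r hr ha x hx'
      have q2 := H2 hμ' he' u' r hr ha' x hx'
      rw [e2] at q1 q2
      refine (abs_sub _ _).trans ?_
      linarith)
    (fun s hs => by
      have := hε s hs
      unfold Lq Ll
      rwa [zero_add, zero_add])
  rw [hder 2 (by norm_num), iter_quad, iter_quad, iter2_zero hμ he, iter2_zero hμ' he'] at h1
  refine h1.trans ?_
  have hε0 : 0 ≤ ε := (abs_nonneg _).trans (hε 0 ⟨le_rfl, hh.le⟩)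
  have p1 : 0 ≤ ε / h ^ 2 := by positivity
  have p2 : 0 ≤ (1 / r) ^ n * h ^ (n - 2) := by positivity
  have q1 : 0 ≤ C1 * C2 * (ε / h ^ 2) := by positivity
  have q2 : 0 ≤ C1 * ((1 / r) ^ n * h ^ (n - 2)) := by positivity
  nlinarith

/-- choice of the step -/
theorem opt2 {n : ℕ} (hn : 3 ≤ n) {r ε E : ℝ} (hr : 0 < r) (hE0 : 0 < E) (hE1 : E ≤ 1)
    (hε : ε ≤ E) : ∃ h, 0 < h ∧ h ≤ r ∧
      ε / h ^ 2 + (1 / r) ^ n * h ^ (n - 2) ≤ 2 * (1 / r) ^ 2 * E ^ (1 - 2 / (n : ℝ)) := by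
  have hnR : (0 : ℝ) < n := by exact_mod_cast (by omega : 0 < n)
  refine ⟨r * E ^ (1 / (n : ℝ)), by positivity, ?_, ?_⟩
  · have h1 : E ^ (1 / (n : ℝ)) ≤ 1 := Real.rpow_le_one hE0.le hE1 (by positivity)
    nlinarith
  · have h2 : (E ^ (1 / (n : ℝ))) ^ 2 = E ^ (2 / (n : ℝ)) := by
      rw [← Real.rpow_natCast, ← Real.rpow_mul hE0.le]
      congr 1
      push_cast
      ring
    have h3 : (E ^ (1 / (n : ℝ))) ^ (n - 2) = E ^ (1 - 2 / (n : ℝ)) := by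
      rw [← Real.rpow_natCast, ← Real.rpow_mul hE0.le]
      congr 1
      rw [Nat.cast_sub (by omega)]
      push_cast
      field_simp
    have h4 : E ^ (1 - 2 / (n : ℝ)) = E / E ^ (2 / (n : ℝ)) := by
      rw [Real.rpow_sub hE0, Real.rpow_one]
    have e1 : ε / (r * E ^ (1 / (n : ℝ))) ^ 2 ≤ (1 / r) ^ 2 * E ^ (1 - 2 / (n : ℝ)) := by
      rw [mul_pow, h2, h4]
      have : ε / (r ^ 2 * E ^ (2 / (n : ℝ))) = (1 / r) ^ 2 * (ε / E ^ (2 / (n : ℝ))) := by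
        field_simp
      rw [this]
      gcongr
    have e2 : (1 / r) ^ n * (r * E ^ (1 / (n : ℝ))) ^ (n - 2) = (1 / r) ^ 2 * E ^ (1 - 2 / (n : ℝ)) := by
      rw [mul_pow, h3, ← mul_assoc]
      congr 1
      have : (1 / r) ^ n = (1 / r) ^ 2 * (1 / r) ^ (n - 2) := by
        rw [← pow_add]
        congr 1
        omega
      rw [this, mul_assoc, ← mul_pow]
      have h5 : 1 / r * r = 1 := by field_simp
      rw [h5, one_pow, mul_one]
    rw [e2]
    linarith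

end

end Vale.Agent.P159.H30
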