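import Vale.Agent.P159.H30.Tk1

/-!
P159, LINKW (C3) (helper30), part 2: the local form of the neutral model of a local source on two
tori.
-/

set_option linter.unusedSectionVars false

namespace Vale.Agent.P159.H30

open Finset
open Vale.Agent.P159.TM.H104 (EM Lg li Gr Ex)
open Vale.Agent.P159.H37
open Vale.Agent.P159.H145 (LM L0 OscZ cs mt em_mt mt_symm mt_mulVec per_wT cs_zero LM_eq Un_eq
  torn)
open Vale.Agent.P159.H963 (nwt Pn em_nwt ev_nwt gw_wT mf_smul)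
open Vale.Agent.P159.TM.Spec (V)
open Vale.Agent.P159.TM.SpecC (wT)
open Vale.Agent.P159.TM.H459 (sn sd ball mem_ball card_ball_le sd_symm sd_tri)
open Vale.Agent.P159.TM.H705 (pt dB bx sn_pt_sub)
open Vale.Agent.P159.H358 (src li_src val_shift)
open Vale.Agent.P159.H640

noncomputable section

/-- error of the cut for a source of size `A` -/
def eT (N ξ ρ : ℕ) (A X c C : ℝ) : ℝ :=
  Real.exp ((4 * X + 17) / 2) * A * (4 * N / ξ) * (C * Real.exp (-(c * (ρ / 2))))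

/-- error of LOC8 for a source of size `A` -/
def e9 (ξ ρ r : ℕ) (A c8 C8 : ℝ) : ℝ :=
  C8 * √((A + 4) * (gI ξ ρ r).card) * Real.exp (La (ρ * ξ) ξ) * Real.exp (-(c8 * r / ξ))

/-- a local source in the middle of the window, energy normalised -/
structure LS (N : ℕ) [NeZero N] (b τ : ℝ) (ξ ρ r : ℕ) (A : ℝ) (j : ℕ → ℕ → ℝ) : Prop where
  A0 : 0 < A
  sup : ∀ i k, j i k ≠ 0 → 2 * dB (pc (ρ * ξ) r) (i, k) ≤ ρ * ξ
  bd : ∀ i k, |j i k| ≤ A / (ξ : ℝ) ^ 2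
  sq : ∑ x, src N (cn (ρ * ξ) r) j x ^ 2 ≤ A ^ 2 * (1 / (ξ : ℝ) ^ 2)
  en : Lg (wt N b τ) ((4 : ℝ) • src N (cn (ρ * ξ) r) j) - Lg (wt N b τ) 0 ≤ 1

section one

variable {N ξ ρ r : ℕ} [NeZero N] {b τ c C ω A : ℝ} {j : ℕ → ℕ → ℝ}

theorem src_zero (n : ℕ) : src N n (fun _ _ => (0 : ℝ)) = 0 := by
  have h := src_smul (N := N) (n := n) 0 (fun _ _ => (0 : ℝ))
  simp only [zero_mul, zero_smul] at h
  exact h

/-- scaling -/
theorem LS.smul (h : LS N b τ ξ ρ r A j) (hb : 0 ≤ b) (hτ : 0 < τ) {p : ℝ} (hp : |p| ≤ 1) :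
    LS N b τ ξ ρ r A (fun i k => p * j i k) where
  A0 := h.A0
  sup := fun i k hik => h.sup i k (right_ne_zero_of_mul hik)
  bd := by
    intro i k
    rw [abs_mul]
    calc |p| * |j i k| ≤ 1 * |j i k| := mul_le_mul_of_nonneg_right hp (abs_nonneg _)
      _ ≤ _ := by rw [one_mul]; exact h.bd i k
  sq := by
    rw [src_smul]
    refine le_trans ?_ h.sq
    refine Finset.sum_le_sum fun x _ => ?_
    rw [Pi.smul_apply, smul_eq_mul, mul_pow]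
    have : p ^ 2 ≤ 1 := by
      rw [← sq_abs]
      exact pow_le_one₀ (abs_nonneg _) hp
    nlinarith [sq_nonneg (src N (cn (ρ * ξ) r) j x)]
  en := by
    rw [src_smul, smul_smul]
    have hE : EM (wt N b τ) := H789.em_wt hb hτ
    have h1 := Lg_ray hE H789.ev_wt (src N (cn (ρ * ξ) r) j) (s := 4 * p) (r := 4) (by
      rw [abs_mul, abs_of_pos (by norm_num : (0 : ℝ) < 4)]
      linarith)
    linarith [h.en]

/-- the energy of the source of the window -/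
theorem LS.La_le (h : OT N b τ ξ c C ω) (hj : LS N b τ ξ ρ r A j) (hρ : 0 < ρ)
    {κ : ℝ} (hκ0 : 0 ≤ κ) (hκ1 : κ ≤ 1) :
    Lg (wt N b τ) ((2 : ℝ) • ((τ * κ) • chT N (ρ * ξ) r + src N (cn (ρ * ξ) r) j)) -
      Lg (wt N b τ) 0 ≤ La (ρ * ξ) ξ := by
  have hb := h.hb
  have hτ := h.τ0
  have hξR := h.ξ0
  have hR : 0 < ρ * ξ := Nat.mul_pos hρ h.hξ
  have hE : EM (wt N b τ) := H789.em_wt hb hτ
  set R := ρ * ξ with hRd
  -- the constant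
  have h1 : Lg (wt N b τ) ((2 : ℝ) • ((2 : ℝ) • ((τ * κ) • chT N R r))) - Lg (wt N b τ) 0 ≤
      32 * (4 * (R : ℝ) + 1) ^ 2 / (ξ : ℝ) ^ 2 := by
    have e : (2 : ℝ) • ((2 : ℝ) • ((τ * κ) • chT N R r)) = τ • ((4 * κ) • chT N R r) := by
      rw [smul_smul, smul_smul, smul_smul]
      congr 1
      ring
    rw [e]
    refine (Lg_bg hb hτ _).trans ?_
    have e2 : ∑ x, ((4 * κ) • chT N R r) x ^ 2 = (4 * κ) ^ 2 * ∑ x, chT N R r x ^ 2 := by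
      rw [Finset.mul_sum]
      refine Finset.sum_congr rfl fun x _ => ?_
      rw [Pi.smul_apply, smul_eq_mul, mul_pow]
    rw [e2]
    have h2 := sum_chT_sq (N := N) (r := r) hR
    have h3 : (4 * κ) ^ 2 ≤ 16 := by nlinarith
    have h4 : (4 * κ) ^ 2 * ∑ x, chT N R r x ^ 2 ≤ 16 * (4 * (R : ℝ) + 1) ^ 2 :=
      mul_le_mul h3 h2 (Finset.sum_nonneg fun _ _ => sq_nonneg _) (by norm_num)
    calc τ * ((4 * κ) ^ 2 * ∑ x, chT N R r x ^ 2) / 2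
        ≤ 4 / (ξ : ℝ) ^ 2 * (16 * (4 * (R : ℝ) + 1) ^ 2) / 2 := by
          refine div_le_div_of_nonneg_right ?_ (by norm_num)
          exact mul_le_mul h.h2 h4 (mul_nonneg (sq_nonneg _)
            (Finset.sum_nonneg fun _ _ => sq_nonneg _)) (by positivity)
      _ = _ := by ring
  -- the source
  have h2 : Lg (wt N b τ) ((2 : ℝ) • ((2 : ℝ) • src N (cn R r) j)) - Lg (wt N b τ) 0 ≤ 1 := by
    rw [smul_smul, show (2 : ℝ) * 2 = 4 by norm_num]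
    exact hj.en
  have h3 := Lg_mid hE ((2 : ℝ) • ((τ * κ) • chT N R r)) ((2 : ℝ) • src N (cn R r) j)
  rw [← smul_add] at h3
  unfold La
  have e5 : 32 * (4 * (R : ℝ) + 1) ^ 2 / (ξ : ℝ) ^ 2 = 2 * (16 * (4 * (R : ℝ) + 1) ^ 2 / (ξ : ℝ) ^ 2) := by
    ring
  rw [e5] at h1
  linarith

/-- the support on the torus -/
theorem LS.near (hj : LS N b τ ξ ρ r A j) (hn : cn (ρ * ξ) r ≤ N) {x : V N}
    (hx : src N (cn (ρ * ξ) r) j x ≠ 0) : 2 * sd (pt N (pc (ρ * ξ) r)) x ≤ ρ * ξ := by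
  unfold src at hx
  split_ifs at hx with h1
  · rw [win_sd hn ⟨h1.1, h1.2.1⟩ h1.2.2]
    exact hj.sup _ _ hx
  · exact absurd rfl hx

/-- **cut of the constant around the source** -/
theorem LS.cut (h : OT N b τ ξ c C ω) (hj : LS N b τ ξ ρ r A j) (hρ : 0 < ρ)
    (hn : cn (ρ * ξ) r ≤ N) {X : ℝ} (hX : Rs (wt N b τ) ((4 * τ) • chT N (ρ * ξ) r) ≤ 8 * X)
    {κ : ℝ} (hκ0 : 0 ≤ κ) (hκ1 : κ ≤ 1) :
    |(Lg (wt N b τ) (τ • cs 0 κ + src N (cn (ρ * ξ) r) j) - Lg (wt N b τ) (τ • cs 0 κ)) -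
      (Lg (wt N b τ) ((τ * κ) • chT N (ρ * ξ) r + src N (cn (ρ * ξ) r) j) -
        Lg (wt N b τ) ((τ * κ) • chT N (ρ * ξ) r))| ≤ eT N ξ ρ A X c C := by
  have hb := h.hb
  have hξR := h.ξ0
  have hR : 0 < ρ * ξ := Nat.mul_pos hρ h.hξ
  have hRs : Rs (wt N b τ) ((4 : ℝ) • src N (cn (ρ * ξ) r) j) ≤ 2 := by
    have := Rs_le_Lg hb h.τ0 ((4 : ℝ) • src N (cn (ρ * ξ) r) j)
    linarith [hj.en]
  refine h.cut (D := (ρ : ℝ) / 2) chT_nonneg chT_le_one hj.A0 (by positivity) hκ0 hκ1 hj.sq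
    hRs hX ?_
  intro x z hx hz
  have hx2 := hj.near hn hx
  have hz2 : ρ * ξ < sd (pt N (pc (ρ * ξ) r)) z := by
    by_contra h2
    exact hz (chT_near hR (not_lt.1 h2))
  have h3 := sd_tri (pt N (pc (ρ * ξ) r)) x z
  have h4 : ρ * ξ ≤ 2 * sd x z := by omega
  have h5 : ((ρ * ξ : ℕ) : ℝ) ≤ ((2 * sd x z : ℕ) : ℝ) := by exact_mod_cast h4
  push_cast at h5
  linarith

end one

/-- the source of the window -/
def jg (R r : ℕ) (τ κ : ℝ) (j : ℕ → ℕ → ℝ) (i k : ℕ) : ℝ := (τ * κ) * chw R r i k + j i k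

theorem src_jg {N R r : ℕ} [NeZero N] (hR : 0 < R) (hn : cn R r ≤ N) (τ κ : ℝ)
    (j : ℕ → ℕ → ℝ) :
    src N (cn R r) (jg R r τ κ j) = (τ * κ) • chT N R r + src N (cn R r) j := by
  unfold jg
  rw [src_add (fun i k => τ * κ * chw R r i k) j, src_smul, src_chw hR hn]

section two

variable {N M ξ ρ r : ℕ} [NeZero N] [NeZero M] {b τ c C c8 C8 ω X A : ℝ} {j : ℕ → ℕ → ℝ}

/-- **free energies of the two tori** -/
theorem near_g (hN : OT N b τ ξ c C ω) (hM : OT M b τ ξ c C ω) (h8 : L8 N M b τ ξ c8 C8)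
    (hρ : 0 < ρ) (hr : ξ + 1 ≤ r) (hn : cn (ρ * ξ) r ≤ N) (hn' : cn (ρ * ξ) r ≤ M)
    (hX : Rs (wt N b τ) ((4 * τ) • chT N (ρ * ξ) r) ≤ 8 * X)
    (hX' : Rs (wt M b τ) ((4 * τ) • chT M (ρ * ξ) r) ≤ 8 * X)
    (hj : LS N b τ ξ ρ r A j) (hj' : LS M b τ ξ ρ r A j) {κ : ℝ}
    (hκ0 : 0 ≤ κ) (hκ1 : κ ≤ 1) :
    |(LM (wT b N) (mt N τ) (cs ((1 / τ) • src N (cn (ρ * ξ) r) j) κ) -
        LM (wT b N) (mt N τ) (cs 0 κ)) -
      (LM (wT b M) (mt M τ) (cs ((1 / τ) • src M (cn (ρ * ξ) r) j) κ) -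
        LM (wT b M) (mt M τ) (cs 0 κ))| ≤
      eT N ξ ρ A X c C + eT M ξ ρ A X c C + 2 * e9 ξ ρ r A c8 C8 := by
  have hb := hN.hb
  have hτ := hN.τ0
  have hξR := hN.ξ0
  have hξ := hN.hξ
  have hR : 0 < ρ * ξ := Nat.mul_pos hρ hξ
  set JN : V N → ℝ := src N (cn (ρ * ξ) r) j with hJN
  set JM : V M → ℝ := src M (cn (ρ * ξ) r) j with hJM
  rw [LM_src hb hτ, LM_src hb hτ]
  -- the sums
  have s1 : ∑ x, JN x = ∑ x, JM x := by rw [hJN, hJM, sum_src hn, sum_src hn']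
  have s2 : ∑ x, JN x ^ 2 = ∑ x, JM x ^ 2 := by rw [hJN, hJM, sum_src_sq hn, sum_src_sq hn']
  rw [s1, s2]
  -- the cut
  have c1' := abs_le.1 (LS.cut hN hj hρ hn hX hκ0 hκ1)
  have c2' := abs_le.1 (LS.cut hM hj' hρ hn' hX' hκ0 hκ1)
  rw [← hJN] at c1'
  rw [← hJM] at c2'
  -- LOC8
  have hrn : r ≤ cn (ρ * ξ) r := by
    unfold cn
    omega
  have l8 : ∀ p : ℝ, |p| ≤ 1 →
      |(Lg (wt N b τ) (src N (cn (ρ * ξ) r) (jg (ρ * ξ) r τ κ (fun i k => p * j i k))) -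
        Lg (wt N b τ) 0) -
      (Lg (wt M b τ) (src M (cn (ρ * ξ) r) (jg (ρ * ξ) r τ κ (fun i k => p * j i k))) -
        Lg (wt M b τ) 0)| ≤ e9 ξ ρ r A c8 C8 := by
    intro p hp
    have hjp := hj.smul hb hτ hp
    have hjp' := hj'.smul hb hτ hp
    refine h8 (gI ξ ρ r) r (cn (ρ * ξ) r) hr hrn hn hn' (fun a ha => gI_in ha) _ (A + 4)
      (La (ρ * ξ) ξ) (by linarith [hj.A0]) ?_ ?_ ?_ ?_
    · intro i k
      have a1 := chw_bd (ρ * ξ) r i k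
      have b1 : |(τ * κ) * chw (ρ * ξ) r i k| ≤ 4 / (ξ : ℝ) ^ 2 := by
        rw [abs_of_nonneg (mul_nonneg (mul_nonneg hτ.le hκ0) a1.1)]
        calc τ * κ * chw (ρ * ξ) r i k ≤ τ * 1 * 1 :=
              mul_le_mul (mul_le_mul_of_nonneg_left hκ1 hτ.le) a1.2 a1.1 (by positivity)
          _ ≤ _ := by linarith [hN.h2]
      have b2 := hjp.bd i k
      unfold jg
      refine (abs_add_le _ _).trans ?_
      rw [add_div]
      linarith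
    · intro i k hik
      refine gI_cov hξ ?_
      by_contra h2
      rw [not_le] at h2
      refine hik ?_
      have a1 : chw (ρ * ξ) r i k = 0 := by
        by_contra h3
        exact absurd (chw_supp hR h3) (not_le.2 h2)
      have a2 : p * j i k = 0 := by
        by_contra h3
        have := hjp.sup i k h3
        omega
      show τ * κ * chw (ρ * ξ) r i k + p * j i k = 0
      rw [a1, a2]
      ring
    · rw [src_jg hR hn]
      exact LS.La_le hN hjp hρ hκ0 hκ1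
    · rw [src_jg hR hn']
      exact LS.La_le hM hjp' hρ hκ0 hκ1
  have m1 := abs_le.1 (l8 1 (by simp))
  have m2 := abs_le.1 (l8 0 (by simp))
  simp only [one_mul, zero_mul] at m1 m2
  rw [src_jg hR hn, src_jg hR hn', ← hJN, ← hJM] at m1
  rw [src_jg hR hn, src_jg hR hn', src_zero, src_zero, add_zero, add_zero] at m2
  rw [abs_le]
  constructor <;> linarith [c1'.1, c1'.2, c2'.1, c2'.2, m1.1, m1.2, m2.1, m2.2]

/-- **neutral free energies of the two tori** -/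
theorem near_Un (hN : OT N b τ ξ c C ω) (hM : OT M b τ ξ c C ω) (h8 : L8 N M b τ ξ c8 C8)
    (hρ : 0 < ρ) (hr : ξ + 1 ≤ r) (hn : cn (ρ * ξ) r ≤ N) (hn' : cn (ρ * ξ) r ≤ M)
    (hX : Rs (wt N b τ) ((4 * τ) • chT N (ρ * ξ) r) ≤ 8 * X)
    (hX' : Rs (wt M b τ) ((4 * τ) • chT M (ρ * ξ) r) ≤ 8 * X)
    (hj : LS N b τ ξ ρ r A j) (hj' : LS M b τ ξ ρ r A j) {s : ℝ} (hs : |s| ≤ 1) :
    |(L0 (wT b N) (mt N τ) ((s / τ) • src N (cn (ρ * ξ) r) j) - L0 (wT b N) (mt N τ) 0) -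
      (L0 (wT b M) (mt M τ) ((s / τ) • src M (cn (ρ * ξ) r) j) - L0 (wT b M) (mt M τ) 0)| ≤
      eT N ξ ρ A X c C + eT M ξ ρ A X c C + 2 * e9 ξ ρ r A c8 C8 + 8 * ω ^ 2 := by
  have hb := hN.hb
  have hτ := hN.τ0
  have h1 := torn (ε := eT N ξ ρ A X c C + eT M ξ ρ A X c C + 2 * e9 ξ ρ r A c8 C8)
    (mt_symm (N := N)) (em_mt hb hτ) (mt_symm (N := M)) (em_mt hb hτ) hN.osc hM.osc
    hN.hω ((1 / τ) • src N (cn (ρ * ξ) r) (fun i k => s * j i k))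
    ((1 / τ) • src M (cn (ρ * ξ) r) (fun i k => s * j i k)) (fun κ hκ =>
      near_g hN hM h8 hρ hr hn hn' hX hX' (hj.smul hb hτ hs) (hj'.smul hb hτ hs) hκ.1 hκ.2)
  rw [Un_eq mt_symm (em_mt hb hτ), Un_eq mt_symm (em_mt hb hτ), src_smul, src_smul, smul_smul,
    smul_smul, show 1 / τ * s = s / τ by ring] at h1
  rw [← abs_neg]
  refine le_trans (le_of_eq ?_) h1
  congr 1
  ring

end two

/-- **the local form of the neutral model** -/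
def An (N : ℕ) [NeZero N] (b τ : ℝ) (J : V N → ℝ) : ℝ :=
  vr J / τ - Ex (nwt N b τ 0) 0 (fun h => li ((Pn : Matrix (V N) (V N) ℝ).mulVec J) h ^ 2)

theorem An_smul {N : ℕ} [NeZero N] {b τ : ℝ} (s : ℝ) (J : V N → ℝ) :
    An N b τ (s • J) = s ^ 2 * An N b τ J := by
  unfold An
  rw [vr_smul, Matrix.mulVec_smul, li_smul']
  have e : (fun h : V N → ℤ => (s * li ((Pn : Matrix (V N) (V N) ℝ).mulVec J) h) ^ 2) =
      fun h => s ^ 2 * li ((Pn : Matrix (V N) (V N) ℝ).mulVec J) h ^ 2 := by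
    funext h
    ring
  rw [e, TM.H104.Ex_cmul]
  ring

/-- **the torus step**, constants as hypotheses -/
theorem tk_core (n : ℕ) (hn3 : 3 ≤ n) : ∃ K : ℝ, 0 < K ∧
    ∀ {N M ξ ρ r : ℕ} [NeZero N] [NeZero M] {b τ c C c8 C8 ω X A E : ℝ} {j : ℕ → ℕ → ℝ},
    OT N b τ ξ c C ω → OT M b τ ξ c C ω → L8 N M b τ ξ c8 C8 →
    0 < ρ → ξ + 1 ≤ r → cn (ρ * ξ) r ≤ N → cn (ρ * ξ) r ≤ M →
    Rs (wt N b τ) ((4 * τ) • chT N (ρ * ξ) r) ≤ 8 * X →
    Rs (wt M b τ) ((4 * τ) • chT M (ρ * ξ) r) ≤ 8 * X →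
    LS N b τ ξ ρ r A j → LS M b τ ξ ρ r A j → 0 < E → E ≤ 1 →
    eT N ξ ρ A X c C + eT M ξ ρ A X c C + 2 * e9 ξ ρ r A c8 C8 + 8 * ω ^ 2 ≤ E →
    |An N b τ (src N (cn (ρ * ξ) r) j) - An M b τ (src M (cn (ρ * ξ) r) j)| ≤
      K * E ^ (1 - 2 / (n : ℝ)) := by
  obtain ⟨K, hK, H⟩ := C2_two 3 n hn3
  refine ⟨2 * K, by positivity, ?_⟩
  intro N M ξ ρ r _ _ b τ c C c8 C8 ω X A E j hN hM h8 hρ hr hn hn' hX hX' hj hj' hE0 hE1 hE
  have hb := hN.hb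
  have hτ := hN.τ0
  obtain ⟨h, h0, h1, h2⟩ := opt2 hn3 one_pos hE0 hE1 le_rfl
  have hen : ∀ {N : ℕ} [NeZero N], OT N b τ ξ c C ω → LS N b τ ξ ρ r A j →
      Lg (nwt N b τ 0) (((2 : ℝ) * 1) • (Pn : Matrix (V N) (V N) ℝ).mulVec
        (src N (cn (ρ * ξ) r) j)) - Lg (nwt N b τ 0) 0 ≤ 3 := by
    intro N _ hN hj
    have a1 := en_nwt hb hτ 0 hN.osc hN.hω (src N (cn (ρ * ξ) r) j) (2 * 1)
    have a2 := Lg_ray (H789.em_wt hb hτ : EM (wt N b τ)) H789.ev_wt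
      (src N (cn (ρ * ξ) r) j) (s := 2 * 1) (r := 4) (by norm_num)
    linarith [hj.en, hN.hω]
  have key := H (em_nwt hb hτ 0) (ev_nwt hb τ 0) (em_nwt hb hτ 0) (ev_nwt hb τ 0)
    ((Pn : Matrix (V N) (V N) ℝ).mulVec (src N (cn (ρ * ξ) r) j))
    ((Pn : Matrix (V M) (V M) ℝ).mulVec (src M (cn (ρ * ξ) r) j))
    (vr (src N (cn (ρ * ξ) r) j) / τ) (vr (src M (cn (ρ * ξ) r) j) / τ) 1 h E one_pos h0 h1
    (hen hN hj) (hen hM hj') ?_
  · unfold An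
    rw [← abs_neg]
    refine le_trans (le_of_eq ?_) (key.trans ?_)
    · congr 1
      ring
    · have := mul_le_mul_of_nonneg_left h2 hK.le
      refine this.trans (le_of_eq ?_)
      ring
  · intro s hs
    rw [Lg_nwt hb hτ, Lg_nwt hb hτ, Lg_nwt0 hb hτ, Lg_nwt0 hb hτ]
    refine le_trans (le_of_eq ?_) ((near_Un hN hM h8 hρ hr hn hn' hX hX' hj hj' (s := s) ?_).trans
      hE)
    · congr 1
      ring
    · rw [abs_of_nonneg hs.1]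
      exact hs.2.trans h1

end

end Vale.Agent.P159.H30
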