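import Vale.Agent.P159.H30.Tk2
import Vale.Agent.P159.H692.Lk2
import Vale.Agent.P159.H340.Kl0

/-!
P159, LINKW (C3) (helper30), part 3: the form `Xf` of helper692 in terms of `An`; the bare energy of
the local source `(t + a lap) f`.
-/

set_option linter.unusedSectionVars false

namespace Vale.Agent.P159.H30

open Finset Matrix
open Vale.Agent.P159.TM.H104 (EM Lg li Gr Ex Cv)
open Vale.Agent.P159.H37
open Vale.Agent.P159.H963 (nwt Pn em_nwt ev_nwt Gn Neu)
open Vale.Agent.P159.TM.Spec (V)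
open Vale.Agent.P159.TM.SpecC (wT)
open Vale.Agent.P159.TM.H459 (tS tT dir)
open Vale.Agent.P159.H864 (lapM TI)
open Vale.Agent.P159.H640
open Vale.Agent.P159.H692 (Xf)

noncomputable section

section one

variable {N : ℕ} [NeZero N] {b t : ℝ}

theorem qf_Gn_Ex (hb : 0 ≤ b) (ht : 0 < t) (J : V N → ℝ) :
    qf (Gn N b t) J =
      Ex (nwt N b t 0) 0 (fun h => li ((Pn : Matrix (V N) (V N) ℝ) *ᵥ J) h ^ 2) := by
  have h1 : qf (Gn N b t) J = qf (Cm (nwt N b t 0) 0) ((Pn : Matrix (V N) (V N) ℝ) *ᵥ J) :=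
    H963.qf_Cn _ _ _ _
  have h2 := H789.qf_Cm (em_nwt (N := N) hb ht 0) 0 ((Pn : Matrix (V N) (V N) ℝ) *ᵥ J)
  rw [h1, h2]
  unfold Cv
  rw [H789.Ex_zero_li (ev_nwt hb t 0), mul_zero, sub_zero]
  congr 1
  funext h
  exact (pow_two _).symm

theorem An_eq (hb : 0 ≤ b) (ht : 0 < t) (J : V N → ℝ) :
    An N b t J = vr J / t - qf (Gn N b t) J := by
  rw [qf_Gn_Ex hb ht]
  rfl

/-- summation by parts -/
theorem sum_lap (u v : V N → ℝ) :
    ∑ x, ((u (x + (1, 0)) - u x) * (v (x + (1, 0)) - v x) +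
      (u (x + (0, 1)) - u x) * (v (x + (0, 1)) - v x)) = ∑ x, (lapM *ᵥ u) x * v x := by
  have key : ∀ e : V N, ∑ x, (u (x + e) - u x) * (v (x + e) - v x) =
      ∑ x, (2 * u x - u (x + e) - u (x - e)) * v x := by
    intro e
    have h1 : ∑ x, (u (x + e) - u x) * v (x + e) = ∑ x, (u x - u (x - e)) * v x := by
      rw [← Equiv.sum_comp (Equiv.addRight e) (fun x => (u x - u (x - e)) * v x)]
      exact Finset.sum_congr rfl fun x _ => by simp
    have h2 : ∑ x, (u (x + e) - u x) * (v (x + e) - v x) =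
        ∑ x, (u (x + e) - u x) * v (x + e) - ∑ x, (u (x + e) - u x) * v x := by
      rw [← Finset.sum_sub_distrib]
      exact Finset.sum_congr rfl fun x _ => by ring
    rw [h2, h1, ← Finset.sum_sub_distrib]
    exact Finset.sum_congr rfl fun x _ => by ring
  rw [Finset.sum_add_distrib, key (1, 0), key (0, 1), ← Finset.sum_add_distrib]
  refine Finset.sum_congr rfl fun x _ => ?_
  rw [H340.lapM_mulVec]
  ring

theorem qf_lap (u : V N → ℝ) : qf lapM u = ∑ x, (lapM *ᵥ u) x * u x := by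
  rw [H864.qf_lapM, ← sum_lap]
  unfold TM.H764.grd TM.H764.Q
  rw [← Finset.sum_add_distrib]
  refine Finset.sum_congr rfl fun x _ => ?_
  ring

theorem sum_lapM (u : V N → ℝ) : ∑ x, (lapM *ᵥ u) x = 0 := by
  have h := sum_lap u (fun _ => (1 : ℝ))
  simp only [sub_self, mul_zero, add_zero, Finset.sum_const_zero, mul_one] at h
  exact h.symm

/-- the local source -/
def Jf (N : ℕ) [NeZero N] (t a : ℝ) (f : V N → ℝ) : V N → ℝ := t • f + a • (lapM *ᵥ f)

theorem sum_Jf (t a : ℝ) (f : V N → ℝ) : ∑ x, Jf N t a f x = t * ∑ x, f x := by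
  unfold Jf
  simp only [Pi.add_apply, Pi.smul_apply, smul_eq_mul]
  rw [Finset.sum_add_distrib, ← Finset.mul_sum, ← Finset.mul_sum, sum_lapM, mul_zero, add_zero]

/-- the form of helper692 -/
theorem Xf_An (hb : 0 ≤ b) (ht : 0 < t) (a : ℝ) (f : V N → ℝ) :
    Xf N b t a f = (∑ x, Jf N t a f x ^ 2) / t - An N b t (Jf N t a f) - t * ∑ x, f x ^ 2 -
      a * qf lapM f := by
  rw [An_eq hb ht]
  unfold Xf vr
  rw [sum_Jf]
  have hc : (Fintype.card (V N) : ℝ) = (N : ℝ) ^ 2 := H963.cardV N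
  have e : (Fintype.card (TM.SpecC.Tor N) : ℝ) = (N : ℝ) ^ 2 := hc
  rw [e]
  have hN : (N : ℝ) ≠ 0 := by exact_mod_cast NeZero.ne N
  have e2 : qf (Gn N b t) (t • f + a • (lapM *ᵥ f)) = qf (Gn N b t) (Jf N t a f) := rfl
  rw [e2]
  field_simp
  ring

/-- **bare energy of the local source** -/
theorem en_Jf (hb : 0 ≤ b) (ht : 0 < t) (a s : ℝ) (f : V N → ℝ)
    (h1 : s ^ 2 * a ^ 2 * qf lapM f ≤ 1) :
    Lg (wt N b t) (s • Jf N t a f) - Lg (wt N b t) 0 ≤
      s ^ 2 * (b * a ^ 2 * qf lapM f + t * (∑ x, f x ^ 2) / 2) := by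
  have hgr : qf lapM f = ∑ e : V N × Bool, (f (tT e) - f (tS e)) ^ 2 := by
    rw [qf_lap, ← sum_lap, H640.sumE, ← Finset.sum_add_distrib]
    refine Finset.sum_congr rfl fun x _ => ?_
    simp only [tT, tS, dir, if_true, Bool.false_eq_true, if_false]
    ring
  have h := Lg_bare hb ht (fun e : V N × Bool => s * a * (f (tT e) - f (tS e)))
    (fun x => s * t * f x) (s • Jf N t a f) (by
      intro v
      rw [H640.sumE, ← Finset.sum_add_distrib]
      have e1 : ∑ x : V N, (s * a * (f (tT (x, true)) - f (tS (x, true))) *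
          (v (tT (x, true)) - v (tS (x, true))) + s * a * (f (tT (x, false)) - f (tS (x, false))) *
          (v (tT (x, false)) - v (tS (x, false)))) = s * a * ∑ x, (lapM *ᵥ f) x * v x := by
        rw [← sum_lap, Finset.mul_sum]
        refine Finset.sum_congr rfl fun x _ => ?_
        simp only [tT, tS, dir, if_true, Bool.false_eq_true, if_false]
        ring
      rw [e1, Finset.mul_sum, ← Finset.sum_add_distrib]
      refine Finset.sum_congr rfl fun x _ => ?_
      unfold Jf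
      simp only [Pi.add_apply, Pi.smul_apply, smul_eq_mul]
      ring)
  refine h.trans ?_
  have hk : ∀ e : V N × Bool, |s * a * (f (tT e) - f (tS e))| ≤ 1 := by
    intro e
    have h2 : (f (tT e) - f (tS e)) ^ 2 ≤ qf lapM f := by
      rw [hgr]
      exact Finset.single_le_sum (f := fun e : V N × Bool => (f (tT e) - f (tS e)) ^ 2)
        (fun _ _ => sq_nonneg _) (Finset.mem_univ e)
    have h3 : (s * a * (f (tT e) - f (tS e))) ^ 2 ≤ 1 := by
      calc (s * a * (f (tT e) - f (tS e))) ^ 2 = s ^ 2 * a ^ 2 * (f (tT e) - f (tS e)) ^ 2 := by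
            ring
        _ ≤ s ^ 2 * a ^ 2 * qf lapM f := mul_le_mul_of_nonneg_left h2 (by positivity)
        _ ≤ 1 := h1
    exact abs_le_one_iff_mul_self_le_one.2 (by rw [← pow_two]; exact h3)
  have hcosh : ∀ x : ℝ, |x| ≤ 1 → Real.cosh x - 1 ≤ x ^ 2 := by
    intro x hx
    have h2 := Real.cosh_le_exp_half_sq x
    have h3 : Real.exp (x ^ 2 / 2) ≤ 1 + x ^ 2 := by
      have hx2 : x ^ 2 ≤ 1 := by
        rw [← sq_abs]
        exact pow_le_one₀ (abs_nonneg _) hx
      have h4 := Real.abs_exp_sub_one_le (x := x ^ 2 / 2) (by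
        rw [abs_of_nonneg (by positivity)]
        linarith)
      rw [abs_of_nonneg (by positivity : (0 : ℝ) ≤ x ^ 2 / 2)] at h4
      have h5 := (abs_le.1 h4).2
      linarith
    linarith
  have h4 : ∑ e : V N × Bool, b * (Real.cosh (s * a * (f (tT e) - f (tS e))) - 1) ≤
      s ^ 2 * (b * a ^ 2 * qf lapM f) := by
    rw [hgr]
    calc ∑ e : V N × Bool, b * (Real.cosh (s * a * (f (tT e) - f (tS e))) - 1)
        ≤ ∑ e : V N × Bool, b * (s * a * (f (tT e) - f (tS e))) ^ 2 :=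
          Finset.sum_le_sum fun e _ => mul_le_mul_of_nonneg_left (hcosh _ (hk e)) hb
      _ = _ := by
          rw [Finset.mul_sum, Finset.mul_sum]
          refine Finset.sum_congr rfl fun e _ => ?_
          ring
  have h5 : ∑ x, (s * t * f x) ^ 2 / (2 * t) = s ^ 2 * (t * (∑ x, f x ^ 2) / 2) := by
    rw [Finset.mul_sum, Finset.sum_div, Finset.mul_sum]
    refine Finset.sum_congr rfl fun x _ => ?_
    field_simp
  linarith

end one

end

end Vale.Agent.P159.H30
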