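import Vale.Agent.P159.H30.Tk3
import Vale.Agent.P159.H640.Dt15

/-!
P159, LINKW (C3) (helper30), part 4: the torus step with explicit errors.
-/

set_option linter.unusedSectionVars false

namespace Vale.Agent.P159.H30

open Finset Matrix
open Vale.Agent.P159.TM.H104 (EM Lg li Gr Ex)
open Vale.Agent.P159.H37
open Vale.Agent.P159.H963 (nwt Pn em_nwt ev_nwt Gn Neu)
open Vale.Agent.P159.TM.Spec (V)
open Vale.Agent.P159.TM.SpecC (wT)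
open Vale.Agent.P159.TM.H459 (sn sd ball mem_ball card_ball_le sd_symm sd_tri)
open Vale.Agent.P159.TM.H705 (pt dB bx sn_pt_sub)
open Vale.Agent.P159.H358 (src li_src val_shift)
open Vale.Agent.P159.H864 (lapM TI)
open Vale.Agent.P159.H640
open Vale.Agent.P159.H692 (Xf)

noncomputable section

section one

variable {N ξ ρ r : ℕ} [NeZero N] {b τ A : ℝ} {j : ℕ → ℕ → ℝ}

/-- square sum of a source of the middle of the window -/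
theorem sq_of_bd (hξ : 0 < ξ) (hn : cn (ρ * ξ) r ≤ N)
    (hs : ∀ i k, j i k ≠ 0 → 2 * dB (pc (ρ * ξ) r) (i, k) ≤ ρ * ξ) (hA : 0 ≤ A)
    (hb : ∀ i k, |j i k| ≤ A / (ξ : ℝ) ^ 2) :
    ∑ x, src N (cn (ρ * ξ) r) j x ^ 2 ≤ (((ρ : ℝ) + 1) * A) ^ 2 * (1 / (ξ : ℝ) ^ 2) := by
  classical
  have hξR : (0 : ℝ) < ξ := by exact_mod_cast hξ
  have hξ1 : (1 : ℝ) ≤ ξ := by exact_mod_cast hξ
  set R := ρ * ξ with hR
  have hnear : ∀ x : V N, src N (cn R r) j x ≠ 0 → sd (pt N (pc R r)) x ≤ R / 2 := by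
    intro x hx
    have h0 : 2 * sd (pt N (pc R r)) x ≤ R := by
      unfold src at hx
      split_ifs at hx with h1
      · rw [win_sd hn ⟨h1.1, h1.2.1⟩ h1.2.2]
        exact hs _ _ hx
      · exact absurd rfl hx
    omega
  have h1 : ∑ x, src N (cn R r) j x ^ 2 =
      ∑ x ∈ ball (pt N (pc R r)) (R / 2), src N (cn R r) j x ^ 2 := by
    symm
    refine Finset.sum_subset (Finset.subset_univ _) fun x _ hx => ?_
    rw [mem_ball] at hx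
    by_contra h
    exact hx (hnear x (by
      intro h2
      rw [h2] at h
      exact h (by norm_num)))
  rw [h1]
  have hbx : ∀ x : V N, |src N (cn R r) j x| ≤ A / (ξ : ℝ) ^ 2 := by
    intro x
    unfold src
    split_ifs
    · exact hb _ _
    · rw [abs_zero]
      positivity
  have h2 : ∑ x ∈ ball (pt N (pc R r)) (R / 2), src N (cn R r) j x ^ 2 ≤
      ∑ x ∈ ball (pt N (pc R r)) (R / 2), (A / (ξ : ℝ) ^ 2) ^ 2 := by
    refine Finset.sum_le_sum fun x _ => ?_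
    rw [← sq_abs]
    exact pow_le_pow_left₀ (abs_nonneg _) (hbx x) 2
  refine h2.trans ?_
  rw [Finset.sum_const, nsmul_eq_mul]
  have h3 := card_ball_le (pt N (pc R r)) (R / 2)
  have h4 : ((ball (pt N (pc R r)) (R / 2)).card : ℝ) ≤ ((ρ : ℝ) * ξ + 1) ^ 2 := by
    have h5 : (2 * (R / 2) + 1) ^ 2 ≤ (R + 1) ^ 2 := Nat.pow_le_pow_left (by omega) 2
    have h6 : ((ball (pt N (pc R r)) (R / 2)).card : ℝ) ≤ (((R + 1) ^ 2 : ℕ) : ℝ) := by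
      exact_mod_cast h3.trans h5
    refine h6.trans (le_of_eq ?_)
    rw [hR]
    push_cast
    ring
  have h5 : ((ρ : ℝ) * ξ + 1) ^ 2 ≤ (((ρ : ℝ) + 1) * ξ) ^ 2 := by
    refine pow_le_pow_left₀ (by positivity) ?_ 2
    nlinarith
  calc ((ball (pt N (pc R r)) (R / 2)).card : ℝ) * (A / (ξ : ℝ) ^ 2) ^ 2
      ≤ (((ρ : ℝ) + 1) * ξ) ^ 2 * (A / (ξ : ℝ) ^ 2) ^ 2 :=
        mul_le_mul_of_nonneg_right (h4.trans h5) (sq_nonneg _)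
    _ = _ := by
        field_simp

theorem LS.of (hξ : 0 < ξ) (hn : cn (ρ * ξ) r ≤ N)
    (hs : ∀ i k, j i k ≠ 0 → 2 * dB (pc (ρ * ξ) r) (i, k) ≤ ρ * ξ) (hA : 0 < A)
    (hb : ∀ i k, |j i k| ≤ A / (ξ : ℝ) ^ 2)
    (he : Lg (wt N b τ) ((4 : ℝ) • src N (cn (ρ * ξ) r) j) - Lg (wt N b τ) 0 ≤ 1) :
    LS N b τ ξ ρ r (((ρ : ℝ) + 1) * A) j where
  A0 := by positivity
  sup := hs
  bd := by
    intro i k
    refine (hb i k).trans ?_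
    refine div_le_div_of_nonneg_right ?_ (by positivity)
    have : (0 : ℝ) ≤ (ρ : ℝ) * A := by positivity
    linarith
  sq := sq_of_bd hξ hn hs hA.le hb
  en := he

end one

/-- the exponentially small error -/
def ZA (N M ξ ρ : ℕ) (A c' : ℝ) : ℝ :=
  ((N : ℝ) + M) / ξ * (A + 1) * Real.exp (-(c' * ρ))

theorem ZA_nonneg (N M ξ ρ : ℕ) {A : ℝ} (hA : 0 ≤ A) (c' : ℝ) : 0 ≤ ZA N M ξ ρ A c' := by
  unfold ZA
  positivity

section errs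

variable {N M ξ ρ : ℕ} {c C c' A : ℝ}

theorem rho_exp (hc : 0 < c) : ((ρ : ℝ) + 1) * Real.exp (-(c * ((ρ : ℝ) / 2))) ≤
    (4 / c + 1) * Real.exp (-(c / 4 * ρ)) := by
  have hρ : (0 : ℝ) ≤ ρ := Nat.cast_nonneg _
  have h1 : Real.exp (-(c * ((ρ : ℝ) / 2))) =
      Real.exp (-(c / 4 * ρ)) * Real.exp (-(c / 4 * ρ)) := by
    rw [← Real.exp_add]
    congr 1
    ring
  rw [h1, ← mul_assoc]
  refine mul_le_mul_of_nonneg_right ?_ (Real.exp_pos _).le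
  have h2 : c / 4 * ρ ≤ Real.exp (c / 4 * ρ) := by
    have := Real.add_one_le_exp (c / 4 * ρ)
    linarith
  have h3 : c / 4 * ρ * Real.exp (-(c / 4 * ρ)) ≤ 1 := by
    calc c / 4 * ρ * Real.exp (-(c / 4 * ρ)) ≤ Real.exp (c / 4 * ρ) * Real.exp (-(c / 4 * ρ)) :=
          mul_le_mul_of_nonneg_right h2 (Real.exp_pos _).le
      _ = 1 := by rw [← Real.exp_add]; simp
  have h4 : Real.exp (-(c / 4 * ρ)) ≤ 1 := Real.exp_le_one_iff.2 (by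
    have : 0 ≤ c / 4 * ρ := by positivity
    linarith)
  have h5 : (ρ : ℝ) * Real.exp (-(c / 4 * ρ)) ≤ 4 / c := by
    rw [le_div_iff₀ hc]
    linarith
  linarith

theorem eT_le (hξ : 0 < ξ) (hC : 0 < C) (hc : 0 < c) (hc' : c' ≤ c / 4) (hA : 0 ≤ A) (X : ℝ) :
    eT N ξ ρ (((ρ : ℝ) + 1) * A) X c C + eT M ξ ρ (((ρ : ℝ) + 1) * A) X c C ≤
      4 * C * Real.exp ((4 * X + 17) / 2) * (4 / c + 1) * ZA N M ξ ρ A c' := by
  have hξR : (0 : ℝ) < ξ := by exact_mod_cast hξ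
  have hρR : (0 : ℝ) ≤ ρ := Nat.cast_nonneg _
  have r1 : Real.exp (-(c / 4 * ρ)) ≤ Real.exp (-(c' * ρ)) := by
    refine Real.exp_le_exp.2 ?_
    nlinarith
  have r2 := (rho_exp (ρ := ρ) hc).trans (mul_le_mul_of_nonneg_left r1
    (by positivity : 0 ≤ 4 / c + 1))
  unfold eT ZA
  have e1 : Real.exp ((4 * X + 17) / 2) * (((ρ : ℝ) + 1) * A) * (4 * N / ξ) *
      (C * Real.exp (-(c * ((ρ : ℝ) / 2)))) + Real.exp ((4 * X + 17) / 2) *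
      (((ρ : ℝ) + 1) * A) * (4 * M / ξ) * (C * Real.exp (-(c * ((ρ : ℝ) / 2)))) =
      4 * C * Real.exp ((4 * X + 17) / 2) * ((((N : ℝ) + M) / ξ) * A *
        (((ρ : ℝ) + 1) * Real.exp (-(c * ((ρ : ℝ) / 2))))) := by ring
  rw [e1]
  have e2 : 4 * C * Real.exp ((4 * X + 17) / 2) * (4 / c + 1) *
      (((N : ℝ) + M) / ξ * (A + 1) * Real.exp (-(c' * ρ))) =
      4 * C * Real.exp ((4 * X + 17) / 2) * ((((N : ℝ) + M) / ξ) * (A + 1) *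
        ((4 / c + 1) * Real.exp (-(c' * ρ)))) := by ring
  rw [e2]
  refine mul_le_mul_of_nonneg_left ?_ (by positivity)
  exact mul_le_mul (mul_le_mul_of_nonneg_left (by linarith) (by positivity)) r2
    (by positivity) (by positivity)

/-- error of LOC8 with `r = B ρ² ξ`, `c8 B ≥ 403` -/
theorem e9_le {B : ℕ} {c8 C8 : ℝ} (hξ : 0 < ξ) (hρ : 0 < ρ) (hA : 0 ≤ A)
    (hC8 : 0 < C8) (hB : 403 ≤ c8 * B) :
    e9 ξ ρ (B * ρ ^ 2 * ξ) (((ρ : ℝ) + 1) * A) c8 C8 ≤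
      50 * C8 * (A + 1) * Real.exp (-(ρ : ℝ)) := by
  have hξR : (0 : ℝ) < ξ := by exact_mod_cast hξ
  have hξ1 : (1 : ℝ) ≤ ξ := by exact_mod_cast hξ
  have hρ1 : (1 : ℝ) ≤ ρ := by exact_mod_cast hρ
  have h1 : √((((ρ : ℝ) + 1) * A + 4) * (gI ξ ρ (B * ρ ^ 2 * ξ)).card) ≤
      50 * (A + 1) * (ρ : ℝ) ^ 2 := by
    rw [show 50 * (A + 1) * (ρ : ℝ) ^ 2 = √((50 * (A + 1) * (ρ : ℝ) ^ 2) ^ 2) from
      (Real.sqrt_sq (by positivity)).symm]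
    refine Real.sqrt_le_sqrt ?_
    have a1 : ((ρ : ℝ) + 1) * A + 4 ≤ 4 * (A + 1) * ρ := by nlinarith
    have a2 : ((gI ξ ρ (B * ρ ^ 2 * ξ)).card : ℝ) ≤ 25 * (ρ : ℝ) ^ 2 := by
      refine (card_gI ξ ρ _).trans ?_
      nlinarith
    have a3 : (ρ : ℝ) ^ 3 ≤ (ρ : ℝ) ^ 4 := pow_le_pow_right₀ hρ1 (by norm_num)
    calc (((ρ : ℝ) + 1) * A + 4) * (gI ξ ρ (B * ρ ^ 2 * ξ)).card
        ≤ (4 * (A + 1) * ρ) * (25 * (ρ : ℝ) ^ 2) :=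
          mul_le_mul a1 a2 (Nat.cast_nonneg _) (by positivity)
      _ = 100 * ((A + 1) * (ρ : ℝ) ^ 3) := by ring
      _ ≤ 2500 * ((A + 1) ^ 2 * (ρ : ℝ) ^ 4) := by
          have a4 : A + 1 ≤ (A + 1) ^ 2 := by nlinarith
          have a5 : (A + 1) * (ρ : ℝ) ^ 3 ≤ (A + 1) ^ 2 * (ρ : ℝ) ^ 4 :=
            mul_le_mul a4 a3 (by positivity) (by positivity)
          have : 0 ≤ (A + 1) ^ 2 * (ρ : ℝ) ^ 4 := by positivity
          linarith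
      _ = _ := by ring
  have h2 : La (ρ * ξ) ξ ≤ 401 * (ρ : ℝ) ^ 2 := by
    unfold La
    have a1 : 16 * (4 * ((ρ * ξ : ℕ) : ℝ) + 1) ^ 2 / (ξ : ℝ) ^ 2 ≤ 400 * (ρ : ℝ) ^ 2 := by
      rw [div_le_iff₀ (by positivity)]
      push_cast
      have : (1 : ℝ) ≤ (ρ : ℝ) * ξ := by nlinarith
      nlinarith
    nlinarith
  have h3 : Real.exp (La (ρ * ξ) ξ) * Real.exp (-(c8 * ((B * ρ ^ 2 * ξ : ℕ) : ℝ) / ξ)) ≤
      Real.exp (-(2 * (ρ : ℝ) ^ 2)) := by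
    rw [← Real.exp_add]
    refine Real.exp_le_exp.2 ?_
    have e : c8 * ((B * ρ ^ 2 * ξ : ℕ) : ℝ) / ξ = c8 * B * (ρ : ℝ) ^ 2 := by
      push_cast
      field_simp
    rw [e]
    have : 403 * (ρ : ℝ) ^ 2 ≤ c8 * B * (ρ : ℝ) ^ 2 := mul_le_mul_of_nonneg_right hB (by positivity)
    linarith
  have h4 : (ρ : ℝ) ^ 2 * Real.exp (-(2 * (ρ : ℝ) ^ 2)) ≤ Real.exp (-(ρ : ℝ)) := by
    have a1 : (ρ : ℝ) ^ 2 ≤ Real.exp ((ρ : ℝ) ^ 2) := by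
      have := Real.add_one_le_exp ((ρ : ℝ) ^ 2)
      linarith
    calc (ρ : ℝ) ^ 2 * Real.exp (-(2 * (ρ : ℝ) ^ 2)) ≤
          Real.exp ((ρ : ℝ) ^ 2) * Real.exp (-(2 * (ρ : ℝ) ^ 2)) :=
          mul_le_mul_of_nonneg_right a1 (Real.exp_pos _).le
      _ = Real.exp (-(ρ : ℝ) ^ 2) := by
          rw [← Real.exp_add]
          congr 1
          ring
      _ ≤ _ := Real.exp_le_exp.2 (by nlinarith)
  unfold e9
  calc C8 * √((((ρ : ℝ) + 1) * A + 4) * (gI ξ ρ (B * ρ ^ 2 * ξ)).card) *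
        Real.exp (La (ρ * ξ) ξ) * Real.exp (-(c8 * ((B * ρ ^ 2 * ξ : ℕ) : ℝ) / ξ))
      = C8 * √((((ρ : ℝ) + 1) * A + 4) * (gI ξ ρ (B * ρ ^ 2 * ξ)).card) *
        (Real.exp (La (ρ * ξ) ξ) *
        Real.exp (-(c8 * ((B * ρ ^ 2 * ξ : ℕ) : ℝ) / ξ))) := by ring
    _ ≤ C8 * (50 * (A + 1) * (ρ : ℝ) ^ 2) * Real.exp (-(2 * (ρ : ℝ) ^ 2)) :=
        mul_le_mul (mul_le_mul_of_nonneg_left h1 hC8.le) h3 (by positivity) (by positivity)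
    _ = 50 * C8 * (A + 1) * ((ρ : ℝ) ^ 2 * Real.exp (-(2 * (ρ : ℝ) ^ 2))) := by ring
    _ ≤ _ := mul_le_mul_of_nonneg_left h4 (by positivity)

/-- the total error -/
theorem err_tot {B0 : ℕ} {c8 C8 ω : ℝ} (hξ : 0 < ξ) (hρ : 0 < ρ) (hξN : ξ ≤ N) (hA : 0 ≤ A)
    (hC : 0 < C) (hc : 0 < c) (hC8 : 0 < C8) (hB : 403 ≤ c8 * ((B0 + 1 : ℕ) : ℝ))
    (hc1 : c' ≤ c / 4) (hc2 : c' ≤ 1) (X : ℝ) :
    eT N ξ ρ (((ρ : ℝ) + 1) * A) X c C + eT M ξ ρ (((ρ : ℝ) + 1) * A) X c C +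
      2 * e9 ξ ρ ((B0 + 1) * ρ ^ 2 * ξ) (((ρ : ℝ) + 1) * A) c8 C8 + 8 * ω ^ 2 ≤
      (4 * C * Real.exp ((4 * X + 17) / 2) * (4 / c + 1) + 100 * C8 + 8) *
        (ZA N M ξ ρ A c' + ω ^ 2) := by
  have h1 := eT_le (N := N) (M := M) (ρ := ρ) hξ hC hc hc1 hA X
  have h2 := e9_le (ρ := ρ) hξ hρ hA hC8 hB
  have hZ := ZA_nonneg N M ξ ρ hA c'
  have hρR : (0 : ℝ) ≤ ρ := Nat.cast_nonneg _
  have h3 : (A + 1) * Real.exp (-(ρ : ℝ)) ≤ ZA N M ξ ρ A c' := by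
    unfold ZA
    have a1 : (1 : ℝ) ≤ ((N : ℝ) + M) / ξ := Nξ_ge hξ hξN
    have a2 : Real.exp (-(ρ : ℝ)) ≤ Real.exp (-(c' * ρ)) := by
      refine Real.exp_le_exp.2 ?_
      nlinarith
    calc (A + 1) * Real.exp (-(ρ : ℝ)) ≤ (A + 1) * Real.exp (-(c' * ρ)) :=
          mul_le_mul_of_nonneg_left a2 (by positivity)
      _ = 1 * ((A + 1) * Real.exp (-(c' * ρ))) := (one_mul _).symm
      _ ≤ ((N : ℝ) + M) / ξ * ((A + 1) * Real.exp (-(c' * ρ))) :=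
          mul_le_mul_of_nonneg_right a1 (by positivity)
      _ = _ := by ring
  set Z := ZA N M ξ ρ A c'
  have h4 : 2 * e9 ξ ρ ((B0 + 1) * ρ ^ 2 * ξ) (((ρ : ℝ) + 1) * A) c8 C8 ≤ 100 * C8 * Z := by
    have := mul_le_mul_of_nonneg_left h3 (by positivity : 0 ≤ 100 * C8)
    have e : 50 * C8 * (A + 1) * Real.exp (-(ρ : ℝ)) = 50 * C8 * ((A + 1) * Real.exp (-(ρ : ℝ))) := by
      ring
    rw [e] at h2
    linarith
  have h5 : 0 ≤ (4 * C * Real.exp ((4 * X + 17) / 2) * (4 / c + 1) + 100 * C8) * ω ^ 2 := by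
    positivity
  have e : (4 * C * Real.exp ((4 * X + 17) / 2) * (4 / c + 1) + 100 * C8 + 8) * (Z + ω ^ 2) =
      4 * C * Real.exp ((4 * X + 17) / 2) * (4 / c + 1) * Z + 100 * C8 * Z +
      (4 * C * Real.exp ((4 * X + 17) / 2) * (4 / c + 1) + 100 * C8) * ω ^ 2 + 8 * Z +
      8 * ω ^ 2 := by ring
  rw [e]
  linarith

end errs

end

end Vale.Agent.P159.H30
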