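import Vale.Agent.P159.H30.Tk4

/-!
P159, LINKW (C3) (helper30), part 5: the torus step of the form `Xf`, constants of the cluster theorems
as hypotheses, then from the range `Rng` at the two scales `ξ`, `ξ / 2`.
-/

set_option linter.unusedSectionVars false

namespace Vale.Agent.P159.H30

open Finset Matrix
open Vale.Agent.P159.TM.H104 (EM Lg li Gr Ex)
open Vale.Agent.P159.H37
open Vale.Agent.P159.H963 (nwt Pn em_nwt ev_nwt Gn Neu)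
open Vale.Agent.P159.TM.Spec (V Rng GT)
open Vale.Agent.P159.TM.SpecC (wT)
open Vale.Agent.P159.TM.H459 (sn sd ball mem_ball card_ball_le sd_symm sd_tri)
open Vale.Agent.P159.TM.H705 (pt dB bx sn_pt_sub)
open Vale.Agent.P159.H358 (src li_src val_shift)
open Vale.Agent.P159.H864 (lapM TI yt)
open Vale.Agent.P159.H640
open Vale.Agent.P159.H692 (Xf)

noncomputable section

/-- the difference of the forms is the difference of the local forms -/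
theorem Xf_sub {N M n : ℕ} [NeZero N] [NeZero M] {b t a : ℝ} (hb : 0 ≤ b) (ht : 0 < t)
    (hn : n ≤ N) (hn' : n ≤ M) {j : ℕ → ℕ → ℝ} {f : V N → ℝ} {g : V M → ℝ} {D F : ℝ}
    (hJ : Jf N t a f = src N n j) (hJ' : Jf M t a g = src M n j)
    (hD : qf lapM f = D) (hD' : qf lapM g = D) (hF : ∑ x, f x ^ 2 = F) (hF' : ∑ x, g x ^ 2 = F) :
    Xf N b t a f - Xf M b t a g = An M b t (src M n j) - An N b t (src N n j) := by
  rw [Xf_An hb ht, Xf_An hb ht, hJ, hJ', hD, hD', hF, hF', sum_src_sq hn, sum_src_sq hn']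
  ring

/-- the scaling factor -/
def r0 (b2 a S : ℝ) : ℝ := 1 / (4 * √((1 + |b2|) * (1 + a ^ 2) * S))

section sc

variable {b2 a S : ℝ}

theorem Kb_pos : 0 < (1 + |b2|) * (1 + a ^ 2) := by positivity

theorem Kb_one : 1 ≤ (1 + |b2|) * (1 + a ^ 2) := by
  have h1 := abs_nonneg b2
  nlinarith [mul_nonneg h1 (sq_nonneg a), sq_nonneg a]

theorem r0_pos (hS : 0 < S) : 0 < r0 b2 a S := by
  unfold r0
  have := Kb_pos (b2 := b2) (a := a)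
  positivity

theorem r0_sq (hS : 0 < S) : (4 * r0 b2 a S) ^ 2 = 1 / ((1 + |b2|) * (1 + a ^ 2) * S) := by
  unfold r0
  have hp : 0 < (1 + |b2|) * (1 + a ^ 2) * S := mul_pos Kb_pos hS
  have h1 : (4 * (1 / (4 * √((1 + |b2|) * (1 + a ^ 2) * S)))) ^ 2 =
      1 / (√((1 + |b2|) * (1 + a ^ 2) * S)) ^ 2 := by
    have : 0 < √((1 + |b2|) * (1 + a ^ 2) * S) := Real.sqrt_pos.2 hp
    field_simp
  rw [h1, Real.sq_sqrt hp.le]

theorem r0_sqrt (hS : 0 < S) : r0 b2 a S * √S ≤ 1 := by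
  have h1 : (r0 b2 a S * √S) ^ 2 ≤ 1 := by
    have h2 := r0_sq (b2 := b2) (a := a) hS
    have h3 : (r0 b2 a S * √S) ^ 2 = (4 * r0 b2 a S) ^ 2 / 16 * S := by
      rw [mul_pow, Real.sq_sqrt hS.le]
      ring
    rw [h3, h2]
    have h4 := Kb_one (b2 := b2) (a := a)
    have h5 : 1 / ((1 + |b2|) * (1 + a ^ 2) * S) / 16 * S = 1 / (16 * ((1 + |b2|) * (1 + a ^ 2))) := by
      field_simp
    rw [h5, div_le_one (by positivity)]
    linarith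
  exact (sq_le_one_iff₀ (mul_nonneg (r0_pos hS).le (Real.sqrt_nonneg _))).1 h1

/-- the energy of the scaled source -/
theorem en_r0 {N : ℕ} [NeZero N] {b t : ℝ} (hb : 0 ≤ b) (ht : 0 < t) (hb2 : b ≤ b2) (hS : 0 < S)
    {f : V N → ℝ} (h : qf lapM f + t * ∑ x, f x ^ 2 ≤ S) :
    Lg (wt N b t) ((4 * r0 b2 a S) • Jf N t a f) - Lg (wt N b t) 0 ≤ 1 := by
  have hD := H692.D_nonneg f
  have hF : 0 ≤ ∑ x, f x ^ 2 := Finset.sum_nonneg fun _ _ => sq_nonneg _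
  have htF := mul_nonneg ht.le hF
  have hK := Kb_one (b2 := b2) (a := a)
  have hp : 0 < (1 + |b2|) * (1 + a ^ 2) * S := mul_pos Kb_pos hS
  have hb3 : b ≤ |b2| := hb2.trans (le_abs_self b2)
  have hb0 := abs_nonneg b2
  have ha := sq_nonneg a
  set D := qf lapM f with hDd
  set F := ∑ x, f x ^ 2 with hFd
  have h1 : a ^ 2 * D ≤ (1 + |b2|) * (1 + a ^ 2) * S := by
    have a1 : a ^ 2 * D ≤ (1 + a ^ 2) * S :=
      mul_le_mul (by linarith) (by linarith) hD (by positivity)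
    have a2 : (1 + a ^ 2) * S ≤ (1 + |b2|) * ((1 + a ^ 2) * S) := by
      have : 0 ≤ |b2| * ((1 + a ^ 2) * S) := by positivity
      linarith
    linarith
  have h2 : b * a ^ 2 * D + t * F / 2 ≤ (1 + |b2|) * (1 + a ^ 2) * S := by
    have a1 : b * a ^ 2 * D ≤ (1 + |b2|) * (1 + a ^ 2) * D := by
      refine mul_le_mul_of_nonneg_right ?_ hD
      nlinarith
    have a2 : t * F / 2 ≤ (1 + |b2|) * (1 + a ^ 2) * (t * F) := by
      have : 1 * (t * F) ≤ (1 + |b2|) * (1 + a ^ 2) * (t * F) := mul_le_mul_of_nonneg_right hK htF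
      linarith
    calc b * a ^ 2 * D + t * F / 2 ≤ (1 + |b2|) * (1 + a ^ 2) * (D + t * F) := by linarith
      _ ≤ _ := mul_le_mul_of_nonneg_left h (by positivity)
  have h3 := en_Jf hb ht a (4 * r0 b2 a S) f (by
    rw [r0_sq hS, mul_assoc, one_div, inv_mul_le_iff₀ hp, mul_one]
    exact h1)
  refine h3.trans ?_
  rw [r0_sq hS, one_div, inv_mul_le_iff₀ hp, mul_one]
  exact h2

end sc

/-- **the torus step of the form `Xf`**, constants as hypotheses -/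
theorem xk_mid (n : ℕ) (hn3 : 3 ≤ n) (b2 a0 : ℝ) {c C c8 C8 : ℝ} (hc : 0 < c) (hC : 1 ≤ C)
    (hc8 : 0 < c8) (hC8 : 0 < C8) : ∃ K c' : ℝ, ∃ B1 : ℕ, 0 < K ∧ 0 < c' ∧ 1 ≤ B1 ∧
    ∀ {N M ξ ρ : ℕ} [NeZero N] [NeZero M] {b τ ω y E a A S D F : ℝ} {j : ℕ → ℕ → ℝ} {f : V N → ℝ}
      {g : V M → ℝ}, b ≤ b2 →
    OT N b τ ξ c C ω → OT M b τ ξ c C ω → L8 N M b τ ξ c8 C8 → ξ ≤ N →
    8 ≤ ρ → (2 * B1 + 6) * ρ ^ 2 * ξ ≤ N → (2 * B1 + 6) * ρ ^ 2 * ξ ≤ M →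
    0 ≤ y → (N : ℝ) * y ≤ ξ → (M : ℝ) * y ≤ ξ → QA N b τ ξ y a0 → QA M b τ ξ y a0 →
    (∀ i k, j i k ≠ 0 → 2 * dB (pc (ρ * ξ) (B1 * ρ ^ 2 * ξ)) (i, k) ≤ ρ * ξ) →
    Jf N τ a f = src N (cn (ρ * ξ) (B1 * ρ ^ 2 * ξ)) j →
    Jf M τ a g = src M (cn (ρ * ξ) (B1 * ρ ^ 2 * ξ)) j →
    qf lapM f = D → qf lapM g = D → ∑ x, f x ^ 2 = F → ∑ x, g x ^ 2 = F →
    D + τ * F ≤ S → 0 < S → 0 < A → (∀ i k, |j i k| ≤ A * √S / (ξ : ℝ) ^ 2) →
    0 < E → E ≤ 1 → K * (ZA N M ξ ρ A c' + ω ^ 2) ≤ E →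
    |Xf N b τ a f - Xf M b τ a g| ≤ K * (1 + a ^ 2) * S * E ^ (1 - 2 / (n : ℝ)) := by
  obtain ⟨K1, hK1, H⟩ := tk_core n hn3
  obtain ⟨B0, hB0⟩ := exists_nat_ge (403 / c8)
  have hB : 403 ≤ c8 * ((B0 + 1 : ℕ) : ℝ) := by
    rw [div_le_iff₀ hc8] at hB0
    push_cast
    nlinarith
  have hC0 : 0 < C := by linarith
  set K0 := 4 * C * Real.exp ((4 * (100 + 98 * |a0|) + 17) / 2) * (4 / c + 1) + 100 * C8 + 8
    with hK0
  have hKp : 0 < K0 := by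
    rw [hK0]
    positivity
  refine ⟨K0 + 16 * (1 + |b2|) * K1, min (c / 4) 1, B0 + 1, by positivity,
    lt_min (by positivity) one_pos, by omega, ?_⟩
  intro N M ξ ρ _ _ b τ ω y E a A S D F j f g hb2 hN hM h8 hNξ hρ hBN hBM hy hNy hMy hQN hQM hsup
    hJ hJ' hD hD' hF hF' hS hS0 hA hj hE0 hE1 hE
  have hb := hN.hb
  have hτ := hN.τ0
  have hξR := hN.ξ0
  have hξ := hN.hξ
  have hρ0 : 0 < ρ := by omega
  obtain ⟨w1, w2⟩ := win_fit (B0 := B0) hξ hρ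
  have hXN := Rs_chT (r := (B0 + 1) * ρ ^ 2 * ξ) hb hτ hξ hρ0 hy (yρ_le hξ hy hBN hNy) hQN
  have hXM := Rs_chT (r := (B0 + 1) * ρ ^ 2 * ξ) hb hτ hξ hρ0 hy (yρ_le hξ hy hBM hMy) hQM
  have e1 := err_tot (M := M) (ω := ω) (c' := min (c / 4) 1) hξ hρ0 hNξ hA.le hC0 hc hC8 hB
    (min_le_left _ _) (min_le_right _ _) (100 + 98 * |a0|)
  have hZω : 0 ≤ ZA N M ξ ρ A (min (c / 4) 1) + ω ^ 2 :=
    add_nonneg (ZA_nonneg _ _ _ _ hA.le _) (sq_nonneg _)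
  have f1 := e1.trans (le_trans (mul_le_mul_of_nonneg_right
    (by linarith [mul_pos (mul_pos (by norm_num : (0 : ℝ) < 16)
      (by positivity : (0 : ℝ) < 1 + |b2|)) hK1] : K0 ≤ K0 + 16 * (1 + |b2|) * K1) hZω) hE)
  -- the scaled source
  have hr0 := r0_pos (b2 := b2) (a := a) hS0
  have hsc : ∀ {L : ℕ} [NeZero L], src L (cn (ρ * ξ) ((B0 + 1) * ρ ^ 2 * ξ))
      (fun i k => r0 b2 a S * j i k) = r0 b2 a S • src L (cn (ρ * ξ) ((B0 + 1) * ρ ^ 2 * ξ)) j :=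
    fun {L} _ => src_smul _ _
  have hjs : ∀ i k, |r0 b2 a S * j i k| ≤ A / (ξ : ℝ) ^ 2 := by
    intro i k
    rw [abs_mul, abs_of_pos hr0]
    calc r0 b2 a S * |j i k| ≤ r0 b2 a S * (A * √S / (ξ : ℝ) ^ 2) :=
          mul_le_mul_of_nonneg_left (hj i k) hr0.le
      _ = (r0 b2 a S * √S) * (A / (ξ : ℝ) ^ 2) := by ring
      _ ≤ 1 * (A / (ξ : ℝ) ^ 2) := mul_le_mul_of_nonneg_right (r0_sqrt hS0) (by positivity)
      _ = _ := one_mul _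
  have l1 : LS N b τ ξ ρ ((B0 + 1) * ρ ^ 2 * ξ) (((ρ : ℝ) + 1) * A)
      (fun i k => r0 b2 a S * j i k) := by
    refine LS.of hξ (w1.trans hBN) (fun i k hik => hsup i k (right_ne_zero_of_mul hik)) hA hjs ?_
    rw [hsc, ← hJ, smul_smul]
    exact en_r0 hb hτ hb2 hS0 (by rw [hD, hF]; exact hS)
  have l2 : LS M b τ ξ ρ ((B0 + 1) * ρ ^ 2 * ξ) (((ρ : ℝ) + 1) * A)
      (fun i k => r0 b2 a S * j i k) := by
    refine LS.of hξ (w1.trans hBM) (fun i k hik => hsup i k (right_ne_zero_of_mul hik)) hA hjs ?_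
    rw [hsc, ← hJ', smul_smul]
    exact en_r0 hb hτ hb2 hS0 (by rw [hD', hF']; exact hS)
  have hmain := H hN hM h8 hρ0 w2 (w1.trans hBN) (w1.trans hBM) hXN hXM l1 l2 hE0 hE1 f1
  rw [hsc, hsc, An_smul, An_smul, ← mul_sub, abs_mul, abs_of_nonneg (sq_nonneg _)] at hmain
  rw [Xf_sub hb hτ (w1.trans hBN) (w1.trans hBM) hJ hJ' hD hD' hF hF', abs_sub_comm]
  set T := |An N b τ (src N (cn (ρ * ξ) ((B0 + 1) * ρ ^ 2 * ξ)) j) -
    An M b τ (src M (cn (ρ * ξ) ((B0 + 1) * ρ ^ 2 * ξ)) j)| with hT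
  have h3 := r0_sq (b2 := b2) (a := a) hS0
  have hp : 0 < (1 + |b2|) * (1 + a ^ 2) * S := mul_pos Kb_pos hS0
  have h4 : (r0 b2 a S) ^ 2 = 1 / (16 * ((1 + |b2|) * (1 + a ^ 2) * S)) := by
    have : (r0 b2 a S) ^ 2 = (4 * r0 b2 a S) ^ 2 / 16 := by ring
    rw [this, h3]
    field_simp
  rw [h4, one_div, inv_mul_le_iff₀ (by positivity)] at hmain
  have hEp : 0 ≤ E ^ (1 - 2 / (n : ℝ)) := Real.rpow_nonneg hE0.le _
  calc T ≤ 16 * ((1 + |b2|) * (1 + a ^ 2) * S) * (K1 * E ^ (1 - 2 / (n : ℝ))) := hmain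
    _ = (16 * (1 + |b2|) * K1) * (1 + a ^ 2) * S * E ^ (1 - 2 / (n : ℝ)) := by ring
    _ ≤ _ := by
        refine mul_le_mul_of_nonneg_right (mul_le_mul_of_nonneg_right (mul_le_mul_of_nonneg_right
          ?_ (by positivity)) hS0.le) hEp
        linarith

end

end Vale.Agent.P159.H30
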