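import Vale.Agent.P159.H30.Tk5

/-!
P159, LINKW (C3) (helper30), part 6: the torus step of the form `Xf` from the range `Rng` at the two
scales `ξ`, `ξ / 2`, and in powers of two.
-/

set_option linter.unusedSectionVars false

namespace Vale.Agent.P159.H30

open Finset Matrix
open Vale.Agent.P159.TM.H104 (EM Lg li Gr Ex)
open Vale.Agent.P159.H37
open Vale.Agent.P159.H963 (nwt Pn em_nwt ev_nwt Gn Neu)
open Vale.Agent.P159.TM.Spec (V Rng GT)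
open Vale.Agent.P159.TM.SpecC (wT)
open Vale.Agent.P159.TM.H459 (sn sd ball mem_ball card_ball_le sd_symm sd_tri)
open Vale.Agent.P159.TM.H705 (pt dB bx sn_pt_sub)
open Vale.Agent.P159.H358 (src li_src val_shift)
open Vale.Agent.P159.H864 (lapM TI yt)
open Vale.Agent.P159.H640
open Vale.Agent.P159.H692 (Xf)
open Vale.Agent.P159.H972 (tn)

noncomputable section

/-- **the torus step of the form `Xf`** from `Rng`, the thresholds `ys`, `X` do not depend on the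
exponent `n` -/
theorem xk {b1 : ℝ} (hb1 : 0 < b1) (b2 a0 : ℝ) :
    ∃ W₀ : ℝ, ∀ W : ℝ, W₀ ≤ W → ∃ ys : ℝ, ∃ X : ℕ, 0 < ys ∧ 1 ≤ X ∧ ∀ n : ℕ, 3 ≤ n →
    ∃ K c : ℝ, ∃ B1 : ℕ, 0 < K ∧ 0 < c ∧ 1 ≤ B1 ∧
    ∀ (N M ξ ρ : ℕ) [NeZero N] [NeZero M] (b y Y τ E a A S D F : ℝ) (j : ℕ → ℕ → ℝ)
      (f : V N → ℝ) (g : V M → ℝ),
      2 ∣ ξ → Rng b1 b2 a0 W ys X N b ξ y → Rng b1 b2 a0 W ys X N b (ξ / 2) y →
      Rng b1 b2 a0 W ys X M b ξ y → Rng b1 b2 a0 W ys X M b (ξ / 2) y →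
      (N : ℝ) * y ≤ c * ξ → (M : ℝ) * y ≤ c * ξ →
      1 / (ξ : ℝ) ^ 2 ≤ τ → τ ≤ 4 / (ξ : ℝ) ^ 2 →
      8 ≤ ρ → (2 * B1 + 6) * ρ ^ 2 * ξ ≤ N → (2 * B1 + 6) * ρ ^ 2 * ξ ≤ M →
      yt N b τ ≤ Y → yt M b τ ≤ Y → 4 * (((N : ℝ) ^ 2 + (M : ℝ) ^ 2) / (ξ : ℝ) ^ 2 * Y) ≤ 1 →
      (∀ i k, j i k ≠ 0 → 2 * dB (pc (ρ * ξ) (B1 * ρ ^ 2 * ξ)) (i, k) ≤ ρ * ξ) →
      Jf N τ a f = src N (cn (ρ * ξ) (B1 * ρ ^ 2 * ξ)) j →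
      Jf M τ a g = src M (cn (ρ * ξ) (B1 * ρ ^ 2 * ξ)) j →
      qf lapM f = D → qf lapM g = D → ∑ x, f x ^ 2 = F → ∑ x, g x ^ 2 = F →
      D + τ * F ≤ S → 0 < S → 0 < A → (∀ i k, |j i k| ≤ A * √S / (ξ : ℝ) ^ 2) →
      0 < E → E ≤ 1 →
      K * (ZA N M ξ ρ A c + (((N : ℝ) ^ 2 + (M : ℝ) ^ 2) / (ξ : ℝ) ^ 2 * Y) ^ 2) ≤ E →
      |Xf N b τ a f - Xf M b τ a g| ≤ K * (1 + a ^ 2) * S * E ^ (1 - 2 / (n : ℝ)) := by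
  obtain ⟨W1, c1, C1, ys1, X1, hc1, hC1, hys1, hX1, hfar⟩ := H612.lb4t hb1 b2 a0
  obtain ⟨W2, hhat⟩ := H358.hat_t hb1 b2 a0
  refine ⟨max W1 W2, fun W hW => ?_⟩
  have hW1 : W1 ≤ W := (le_max_left _ _).trans hW
  have hW2 : W2 ≤ W := (le_max_right _ _).trans hW
  obtain ⟨c2, C2, ys2, X2, hc2, hC2, hys2, hX2, hHA⟩ := hhat W hW2
  have hs2 : 0 < √(√C2) := Real.sqrt_pos.2 (Real.sqrt_pos.2 hC2)
  refine ⟨min ys1 ys2, max X1 X2, lt_min hys1 hys2, hX1.trans (le_max_left _ _), ?_⟩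
  intro n hn3
  obtain ⟨K, c', B, hK, hc', hB, H⟩ := xk_mid n hn3 b2 a0 (c := c1) (C := C1) (c8 := c2 / 4)
    (C8 := 9 * √(√C2)) hc1 hC1 (by positivity) (by positivity)
  set cc := min (min c1 c2) (min c' 1) with hcc
  have hcc0 : 0 < cc := lt_min (lt_min hc1 hc2) (lt_min hc' one_pos)
  have k1 : cc ≤ c1 := (min_le_left _ _).trans (min_le_left _ _)
  have k2 : cc ≤ c2 := (min_le_left _ _).trans (min_le_right _ _)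
  have k3 : cc ≤ c' := (min_le_right _ _).trans (min_le_left _ _)
  have k4 : cc ≤ 1 := (min_le_right _ _).trans (min_le_right _ _)
  refine ⟨4 * K, cc, B, by positivity, hcc0, hB, ?_⟩
  intro N M ξ ρ _ _ b y Y τ E a A S D F j f g h2ξ hR hR2 hS hS2 hNy hMy hτ1 hτ2 hρ hBN hBM hYN hYM
    hQ1 hsup hJ hJ' hD hD' hF hF' hDS hS0 hA0 hjA hE0 hE1 hE
  obtain ⟨l', rfl⟩ := h2ξ
  have e2 : 2 * l' / 2 = l' := Nat.mul_div_cancel_left l' (by norm_num)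
  rw [e2] at hR2 hS2
  have hb : 0 < b := lt_of_lt_of_le hb1 hR.hb1
  have hl'0 : 0 < l' := lt_of_lt_of_le (hX1.trans (le_max_left X1 X2)) hR2.hX
  have hξ : 0 < 2 * l' := by omega
  have hξR : (0 : ℝ) < ((2 * l' : ℕ) : ℝ) := by exact_mod_cast hξ
  have hτ : 0 < τ := lt_of_lt_of_le (by positivity) hτ1
  have hy : 0 ≤ y := hR.y0
  have tr1 : ∀ {N : ℕ} [NeZero N] {ξ : ℕ}, Rng b1 b2 a0 W (min ys1 ys2) (max X1 X2) N b ξ y →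
      Rng b1 b2 a0 W ys1 X1 N b ξ y := fun h => rng_thr h (min_le_left _ _) (le_max_left _ _)
  have tr2 : ∀ {N : ℕ} [NeZero N] {ξ : ℕ}, Rng b1 b2 a0 W (min ys1 ys2) (max X1 X2) N b ξ y →
      Rng b1 b2 a0 W ys2 X2 N b ξ y := fun h => rng_thr h (min_le_right _ _) (le_max_right _ _)
  have lec : ∀ {N : ℕ} {q : ℝ}, (N : ℝ) * y ≤ cc * ((2 * l' : ℕ) : ℝ) → cc ≤ q →
      (N : ℝ) * y ≤ q * ((2 * l' : ℕ) : ℝ) := fun h hq =>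
    h.trans (mul_le_mul_of_nonneg_right hq hξR.le)
  set Q : ℝ := ((N : ℝ) ^ 2 + (M : ℝ) ^ 2) / ((2 * l' : ℕ) : ℝ) ^ 2 * Y with hQ
  have hY0 : 0 ≤ Y := (H864.yt_nonneg (N := N) hb.le hτ).trans hYN
  have hQ0 : 0 ≤ Q := by positivity
  have hQN : (N : ℝ) ^ 2 / ((2 * l' : ℕ) : ℝ) ^ 2 * Y ≤ Q := by
    rw [hQ]
    refine mul_le_mul_of_nonneg_right (div_le_div_of_nonneg_right ?_ (by positivity)) hY0
    have : 0 ≤ (M : ℝ) ^ 2 := sq_nonneg _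
    linarith
  have hQM : (M : ℝ) ^ 2 / ((2 * l' : ℕ) : ℝ) ^ 2 * Y ≤ Q := by
    rw [hQ]
    refine mul_le_mul_of_nonneg_right (div_le_div_of_nonneg_right ?_ (by positivity)) hY0
    have : 0 ≤ (N : ℝ) ^ 2 := sq_nonneg _
    linarith
  have ot : ∀ (N : ℕ) [NeZero N], Rng b1 b2 a0 W (min ys1 ys2) (max X1 X2) N b (2 * l') y →
      (N : ℝ) * y ≤ cc * ((2 * l' : ℕ) : ℝ) → yt N b τ ≤ Y →
      (N : ℝ) ^ 2 / ((2 * l' : ℕ) : ℝ) ^ 2 * Y ≤ Q → OT N b τ (2 * l') c1 C1 (2 * Q) := by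
    intro N _ hR hNy hY hQN
    exact {
      hb := hb.le
      hξ := hξ
      h1 := hτ1
      h2 := hτ2
      hC := hC1
      far := fun u v A B D hA hB hD hu hv hs =>
        hfar W hW1 N b (2 * l') y (tr1 hR) (lec hNy k1) u v A B D hA hB hD hu hv hs τ hτ1
      osc := osc_yt hb hτ hξ hτ2 hY hQN hQ1
      hω0 := by positivity
      hω := by linarith }
  have h8 : L8 N M b τ (2 * l') (c2 / 4) (9 * √(√C2)) :=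
    L8_of hb.le hτ hξ hC2 hy (hHA N b hb.le l' y τ (tr2 hR2) (tr2 hR) hτ1 hτ2)
      (hHA M b hb.le l' y τ (tr2 hS2) (tr2 hS) hτ1 hτ2) (lec hNy k2)
  have hZ : ZA N M (2 * l') ρ A c' ≤ ZA N M (2 * l') ρ A cc := by
    unfold ZA
    refine mul_le_mul_of_nonneg_left (Real.exp_le_exp.2 ?_) (by positivity)
    have : (0 : ℝ) ≤ ρ := Nat.cast_nonneg _
    nlinarith
  have hZ0 := ZA_nonneg N M (2 * l') ρ hA0.le cc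
  have hξN : 2 * l' ≤ N := Nat.le_of_dvd (NeZero.pos N) hR.hd
  have hmain := H (y := y) (ω := 2 * Q) (E := E) hR.hb2 (ot N hR hNy hYN hQN)
    (ot M hS hMy hYM hQM) h8 hξN hρ hBN hBM hy
    (by have := lec hNy k4; rwa [one_mul] at this) (by have := lec hMy k4; rwa [one_mul] at this)
    (QA_of hb hl'0 hR2.hyp.qu hτ hτ2) (QA_of hb hl'0 hS2.hyp.qu hτ hτ2) hsup hJ hJ' hD hD' hF hF'
    hDS hS0 hA0 hjA hE0 hE1 (by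
      refine le_trans ?_ hE
      have e5 : K * (ZA N M (2 * l') ρ A c' + (2 * Q) ^ 2) =
        K * ZA N M (2 * l') ρ A c' + 4 * K * Q ^ 2 := by ring
      have e6 : 4 * K * (ZA N M (2 * l') ρ A cc + Q ^ 2) =
        4 * K * ZA N M (2 * l') ρ A cc + 4 * K * Q ^ 2 := by ring
      rw [e5, e6]
      have := mul_le_mul_of_nonneg_left hZ hK.le
      have := mul_nonneg hK.le hZ0
      linarith)
  refine hmain.trans ?_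
  have hEp : 0 ≤ E ^ (1 - 2 / (n : ℝ)) := Real.rpow_nonneg hE0.le _
  refine mul_le_mul_of_nonneg_right (mul_le_mul_of_nonneg_right (mul_le_mul_of_nonneg_right
    (by linarith) (by positivity)) hS0.le) hEp

/-- **the torus step of the form `Xf`**, powers of two -/
theorem xk2 {b1 : ℝ} (hb1 : 0 < b1) (b2 a0 : ℝ) :
    ∃ W₀ : ℝ, ∀ W : ℝ, W₀ ≤ W → ∃ ys : ℝ, ∃ X : ℕ, 0 < ys ∧ 1 ≤ X ∧ ∀ n : ℕ, 3 ≤ n →
    ∃ K c : ℝ, ∃ B1 : ℕ, 0 < K ∧ 0 < c ∧ 1 ≤ B1 ∧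
    ∀ (m r r' ρ : ℕ) (b y Y τ E a A S D F : ℝ) (j : ℕ → ℕ → ℝ)
      (f : V (2 ^ r) → ℝ) (g : V (2 ^ r') → ℝ), 1 ≤ m →
      Rng b1 b2 a0 W ys X (2 ^ r) b (2 ^ m) y → Rng b1 b2 a0 W ys X (2 ^ r) b (2 ^ (m - 1)) y →
      Rng b1 b2 a0 W ys X (2 ^ r') b (2 ^ m) y → Rng b1 b2 a0 W ys X (2 ^ r') b (2 ^ (m - 1)) y →
      (2 : ℝ) ^ r * y ≤ c * 2 ^ m → (2 : ℝ) ^ r' * y ≤ c * 2 ^ m →
      tn m ≤ τ → τ ≤ 4 * tn m →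
      8 ≤ ρ → (2 * B1 + 6) * ρ ^ 2 * 2 ^ m ≤ 2 ^ r → (2 * B1 + 6) * ρ ^ 2 * 2 ^ m ≤ 2 ^ r' →
      yt (2 ^ r) b τ ≤ Y → yt (2 ^ r') b τ ≤ Y → 4 * (((4 : ℝ) ^ r + 4 ^ r') / 4 ^ m * Y) ≤ 1 →
      (∀ i k, j i k ≠ 0 → 2 * dB (pc (ρ * 2 ^ m) (B1 * ρ ^ 2 * 2 ^ m)) (i, k) ≤ ρ * 2 ^ m) →
      Jf (2 ^ r) τ a f = src (2 ^ r) (cn (ρ * 2 ^ m) (B1 * ρ ^ 2 * 2 ^ m)) j →
      Jf (2 ^ r') τ a g = src (2 ^ r') (cn (ρ * 2 ^ m) (B1 * ρ ^ 2 * 2 ^ m)) j →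
      qf lapM f = D → qf lapM g = D → ∑ x, f x ^ 2 = F → ∑ x, g x ^ 2 = F →
      D + τ * F ≤ S → 0 < S → 0 < A → (∀ i k, |j i k| ≤ A * √S * tn m) →
      0 < E → E ≤ 1 →
      K * (((2 : ℝ) ^ r + 2 ^ r') / 2 ^ m * (A + 1) * Real.exp (-(c * ρ)) +
        (((4 : ℝ) ^ r + 4 ^ r') / 4 ^ m * Y) ^ 2) ≤ E →
      |Xf (2 ^ r) b τ a f - Xf (2 ^ r') b τ a g| ≤
        K * (1 + a ^ 2) * S * E ^ (1 - 2 / (n : ℝ)) := by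
  obtain ⟨W₀, h⟩ := xk hb1 b2 a0
  refine ⟨W₀, fun W hW => ?_⟩
  obtain ⟨ys, X, hys, hX, h2⟩ := h W hW
  refine ⟨ys, X, hys, hX, fun n hn3 => ?_⟩
  obtain ⟨K, c, B1, hK, hc, hB, H⟩ := h2 n hn3
  refine ⟨K, c, B1, hK, hc, hB, ?_⟩
  intro m r r' ρ b y Y τ E a A S D F j f g hm hR hR2 hS hS2 hNy hMy hτ1 hτ2 hρ hBN hBM hYN hYM hQ
    hsup hJ hJ' hD hD' hF hF' hDS hS0 hA0 hjA hE0 hE1 hE
  have e1 : 2 ^ m / 2 = 2 ^ (m - 1) := by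
    obtain ⟨q, rfl⟩ : ∃ q, m = q + 1 := ⟨m - 1, by omega⟩
    rw [pow_succ, Nat.add_sub_cancel, Nat.mul_div_cancel _ (by norm_num)]
  have f4 : ∀ j : ℕ, (((2 ^ j : ℕ) : ℝ)) ^ 2 = (4 : ℝ) ^ j := by
    intro j
    push_cast
    rw [← pow_mul, mul_comm j 2, pow_mul]
    norm_num
  have f2 : ∀ j : ℕ, ((2 ^ j : ℕ) : ℝ) = (2 : ℝ) ^ j := by
    intro j
    push_cast
    rfl
  have h2k : (2 : ℕ) ∣ 2 ^ m := dvd_pow_self 2 (by omega)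
  exact H (2 ^ r) (2 ^ r') (2 ^ m) ρ b y Y τ E a A S D F j f g h2k hR (by rw [e1]; exact hR2) hS
    (by rw [e1]; exact hS2) (by rw [f2, f2]; exact hNy) (by rw [f2, f2]; exact hMy)
    (by rw [← tn_eq]; exact hτ1)
    (by
      have : 4 / (((2 ^ m : ℕ) : ℝ)) ^ 2 = 4 * tn m := by
        rw [tn_eq]
        ring
      rw [this]
      exact hτ2)
    hρ hBN hBM hYN hYM (by rw [f4, f4, f4]; exact hQ) hsup hJ hJ' hD hD' hF hF' hDS hS0 hA0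
    (by
      intro i k
      refine (hjA i k).trans (le_of_eq ?_)
      rw [tn_eq]
      ring) hE0 hE1 (by
      unfold ZA
      rw [f4, f4, f4, f2, f2, f2]
      exact hE)

end

end Vale.Agent.P159.H30
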