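import Vale.Agent.P159.H30.Tk6
import Vale.Agent.P159.H640.Dt16

/-!
P159, LINKW (C3) (helper30), part 7: the torus step of the form `Xf` in the numbers of LIST P_up:
relative error `e ^ (1 - κ)` between two admissible tori of size `e`.
-/

set_option linter.unusedSectionVars false

namespace Vale.Agent.P159.H30

open Finset Matrix
open Vale.Agent.P159.TM.H104 (EM Lg li Gr Ex)
open Vale.Agent.P159.H37
open Vale.Agent.P159.TM.Spec (V Rng GT)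
open Vale.Agent.P159.TM.H705 (pt dB bx sn_pt_sub)
open Vale.Agent.P159.H358 (src)
open Vale.Agent.P159.H864 (lapM TI yt)
open Vale.Agent.P159.H640
open Vale.Agent.P159.H692 (Xf)
open Vale.Agent.P159.H972 (Par lg tn RNG)

noncomputable section

lemma pw_mul {e x y : ℝ} (he : 0 < e) : e ^ x * e ^ y = e ^ (x + y) := (Real.rpow_add he x y).symm

/-- the exponent after Landau-Kolmogorov -/
lemma xk_fin {K e κ : ℝ} {n : ℕ} (he : 0 < e) (he1 : e ≤ 1) (hκ : 0 < κ) (hκ1 : κ ≤ 1)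
    (hn : 8 / κ ≤ n) (hn0 : 0 < n) (hK : 0 < K) (h : K * e ^ (κ / 4) ≤ 1) :
    K * (e ^ (1 - κ / 2)) ^ (1 - 2 / (n : ℝ)) ≤ e ^ (1 - κ) := by
  have hnR : (0 : ℝ) < n := by exact_mod_cast hn0
  have h1 : 2 / (n : ℝ) ≤ κ / 4 := by
    rw [div_le_iff₀ hnR]
    rw [div_le_iff₀ hκ] at hn
    linarith
  have h0 : 0 ≤ 2 / (n : ℝ) := by positivity
  rw [← Real.rpow_mul he.le]
  have h2 : e ^ ((1 - κ / 2) * (1 - 2 / (n : ℝ))) ≤ e ^ (κ / 4 + (1 - κ)) :=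
    Real.rpow_le_rpow_of_exponent_ge he he1 (by nlinarith)
  rw [Real.rpow_add he] at h2
  calc K * e ^ ((1 - κ / 2) * (1 - 2 / (n : ℝ))) ≤ K * (e ^ (κ / 4) * e ^ (1 - κ)) :=
        mul_le_mul_of_nonneg_left h2 hK.le
    _ = K * e ^ (κ / 4) * e ^ (1 - κ) := by ring
    _ ≤ 1 * e ^ (1 - κ) := mul_le_mul_of_nonneg_right h (Real.rpow_nonneg he.le _)
    _ = _ := one_mul _

/-- the size of the oscillation -/
lemma xk_Q {Q CG ρ1 κ e Y g : ℝ} (he : 0 < e) (he1 : e ≤ 1) (hCG : 0 < CG) (hκ : 0 < κ)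
    (hr : ρ1 ≤ κ / 32) (hY : Y ≤ e ^ (1 / 2 - κ / 8)) (hY0 : 0 ≤ Y)
    (hg0 : 0 ≤ g) (hg : g ≤ 2 * (CG * e ^ (-ρ1)) ^ 2) (hQ : Q = g * Y) :
    0 ≤ Q ∧ Q ≤ 2 * CG ^ 2 * e ^ (1 / 2 - 3 / 16 * κ) := by
  subst hQ
  refine ⟨mul_nonneg hg0 hY0, ?_⟩
  have h1 : (CG * e ^ (-ρ1)) ^ 2 ≤ CG ^ 2 * e ^ (-(κ / 16)) := by
    rw [mul_pow, pw_two he]
    refine mul_le_mul_of_nonneg_left ?_ (sq_nonneg _)
    exact Real.rpow_le_rpow_of_exponent_ge he he1 (by linarith)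
  calc g * Y ≤ (2 * (CG ^ 2 * e ^ (-(κ / 16)))) * e ^ (1 / 2 - κ / 8) :=
        mul_le_mul (by linarith) hY hY0 (by positivity)
    _ = 2 * CG ^ 2 * (e ^ (-(κ / 16)) * e ^ (1 / 2 - κ / 8)) := by ring
    _ = _ := by
        rw [pw_mul he]
        congr 2
        ring

/-- the total error -/
lemma xk_E {K CG κ e Q g A Ex c CA : ℝ} (he : 0 < e) (he1 : e ≤ 1) (hκ : 0 < κ) (hκ1 : κ ≤ 1)
    (hCG : 0 < CG)
    (hK : 0 < K) (hQ0 : 0 ≤ Q) (hQ : Q ≤ 2 * CG ^ 2 * e ^ (1 / 2 - 3 / 16 * κ))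
    (hg : g ≤ 2 * (CG * e ^ (-1 : ℝ))) (hCA : 0 ≤ CA) (hA : A = e ^ (-CA))
    (hE0 : 0 ≤ Ex) (hE : Ex ≤ Real.exp c * e ^ (CA + 3))
    (h1 : 4 * K * CG * Real.exp c * e ≤ 1 / 2)
    (h2 : 4 * K * CG ^ 4 * e ^ (κ / 8) ≤ 1 / 2) :
    K * (g * (A + 1) * Ex + Q ^ 2) ≤ e ^ (1 - κ / 2) := by
  have hA1 : 1 ≤ A := by
    rw [hA]
    exact Real.one_le_rpow_of_pos_of_le_one_of_nonpos he he1 (by linarith)
  have a1 : g * (A + 1) * Ex ≤ 4 * CG * Real.exp c * e ^ (2 : ℝ) := by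
    have e1 : e ^ (-1 : ℝ) * (e ^ (-CA) * e ^ (CA + 3)) = e ^ (2 : ℝ) := by
      rw [pw_mul he, pw_mul he]
      congr 1
      ring
    calc g * (A + 1) * Ex ≤ (2 * (CG * e ^ (-1 : ℝ))) * (A + 1) * Ex :=
          mul_le_mul_of_nonneg_right (mul_le_mul_of_nonneg_right hg (by linarith)) hE0
      _ ≤ (2 * (CG * e ^ (-1 : ℝ))) * (2 * A) * (Real.exp c * e ^ (CA + 3)) := by
          refine mul_le_mul (mul_le_mul_of_nonneg_left (by linarith) (by positivity)) hE hE0 ?_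
          have : 0 ≤ A := by linarith
          positivity
      _ = 4 * CG * Real.exp c * (e ^ (-1 : ℝ) * (A * e ^ (CA + 3))) := by ring
      _ = _ := by rw [hA, e1]
  have a2 : Q ^ 2 ≤ 4 * CG ^ 4 * (e ^ (κ / 8) * e ^ (1 - κ / 2)) := by
    have h3 : Q ^ 2 ≤ (2 * CG ^ 2 * e ^ (1 / 2 - 3 / 16 * κ)) ^ 2 := pow_le_pow_left₀ hQ0 hQ 2
    refine h3.trans (le_of_eq ?_)
    rw [mul_pow, pw_two he, pw_mul he]
    have : 2 * (1 / 2 - 3 / 16 * κ) = κ / 8 + (1 - κ / 2) := by ring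
    rw [this]
    ring
  have a3 : e ^ (2 : ℝ) ≤ e * e ^ (1 - κ / 2) := by
    have : e * e ^ (1 - κ / 2) = e ^ (1 + (1 - κ / 2)) := by
      rw [Real.rpow_add he, Real.rpow_one]
    rw [this]
    exact Real.rpow_le_rpow_of_exponent_ge he he1 (by linarith)
  have p0 : 0 ≤ e ^ (1 - κ / 2) := Real.rpow_nonneg he.le _
  calc K * (g * (A + 1) * Ex + Q ^ 2)
      ≤ K * (4 * CG * Real.exp c * (e * e ^ (1 - κ / 2)) +
          4 * CG ^ 4 * (e ^ (κ / 8) * e ^ (1 - κ / 2))) := by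
        refine mul_le_mul_of_nonneg_left (add_le_add (a1.trans ?_) a2) hK.le
        exact mul_le_mul_of_nonneg_left a3 (by positivity)
    _ = (4 * K * CG * Real.exp c * e) * e ^ (1 - κ / 2) +
          (4 * K * CG ^ 4 * e ^ (κ / 8)) * e ^ (1 - κ / 2) := by ring
    _ ≤ 1 / 2 * e ^ (1 - κ / 2) + 1 / 2 * e ^ (1 - κ / 2) :=
        add_le_add (mul_le_mul_of_nonneg_right h1 p0) (mul_le_mul_of_nonneg_right h2 p0)
    _ = _ := by ring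

/-- **the torus step of the form `Xf`** in the numbers of LIST P_up -/
theorem xkP {b1 : ℝ} (hb1 : 0 < b1) (b2 : ℝ) :
    ∃ W₀ : ℝ, ∀ W : ℝ, W₀ ≤ W → ∃ ys : ℝ, ∃ X : ℕ, 0 < ys ∧ 1 ≤ X ∧
    ∀ κ CA : ℝ, 0 < κ → κ ≤ 1 → 0 ≤ CA → ∃ B1 : ℕ, 1 ≤ B1 ∧
    ∀ (th thp : ℝ) (q0 : ℕ), 0 < th → 0 < thp → th + 4 * q0 * thp ≤ κ / 32 →
    ∃ E0 : ℝ, 0 < E0 ∧ ∀ P : Par, P.th = th → P.thp = thp → P.q0 = q0 → P.b1 = b1 → P.b2 = b2 →
      P.W = W → P.ys ≤ ys → X ≤ P.X0 → P.es ≤ E0 →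
    ∀ (b : ℝ) (m r r' : ℕ) (e Y a S D F : ℝ) (j : ℕ → ℕ → ℝ) (f : V (2 ^ r) → ℝ)
      (g : V (2 ^ r') → ℝ), 0 < e → e ≤ P.es → 1 ≤ m →
      P.TT m e r → P.TT m e r' → RNG P b m r e → RNG P b (m - 1) r e →
      RNG P b m r' e → RNG P b (m - 1) r' e →
      yt (2 ^ r) b (tn m) ≤ Y → yt (2 ^ r') b (tn m) ≤ Y → Y ≤ e ^ (1 / 2 - κ / 8) →
      (∀ i k, j i k ≠ 0 → 2 * dB (pc (rh (2 * B1 + 6) (P.kE e) * 2 ^ m)
        (B1 * rh (2 * B1 + 6) (P.kE e) ^ 2 * 2 ^ m)) (i, k) ≤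
          rh (2 * B1 + 6) (P.kE e) * 2 ^ m) →
      Jf (2 ^ r) (tn m) a f = src (2 ^ r) (cn (rh (2 * B1 + 6) (P.kE e) * 2 ^ m)
        (B1 * rh (2 * B1 + 6) (P.kE e) ^ 2 * 2 ^ m)) j →
      Jf (2 ^ r') (tn m) a g = src (2 ^ r') (cn (rh (2 * B1 + 6) (P.kE e) * 2 ^ m)
        (B1 * rh (2 * B1 + 6) (P.kE e) ^ 2 * 2 ^ m)) j →
      qf lapM f = D → qf lapM g = D → ∑ x, f x ^ 2 = F → ∑ x, g x ^ 2 = F →
      D + tn m * F ≤ S → 0 < S → (∀ i k, |j i k| ≤ e ^ (-CA) * √S * tn m) →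
      |Xf (2 ^ r) b (tn m) a f - Xf (2 ^ r') b (tn m) a g| ≤ (1 + a ^ 2) * S * e ^ (1 - κ) := by
  obtain ⟨W₀, h⟩ := xk2 hb1 b2 (5 / 2)
  refine ⟨W₀, fun W hW => ?_⟩
  obtain ⟨ys, X, hys, hX, h2⟩ := h W hW
  refine ⟨ys, X, hys, hX, fun κ CA hκ hκ1 hCA => ?_⟩
  obtain ⟨n0, hn0⟩ := exists_nat_ge (8 / κ)
  obtain ⟨K, c, B1, hK, hc, hB, H⟩ := h2 (max n0 3) (le_max_right _ _)
  refine ⟨B1, hB, fun th thp q0 hth hthp hr => ?_⟩
  set n := max n0 3 with hn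
  have hn3 : 3 ≤ n := le_max_right _ _
  have hnκ : 8 / κ ≤ (n : ℝ) := hn0.trans (by exact_mod_cast le_max_left _ _)
  set CG : ℝ := 2 ^ (1 + 4 * q0) with hCG
  have hCG0 : 0 < CG := by positivity
  have hB6 : 1 ≤ 2 * B1 + 6 := by omega
  obtain ⟨e1, he1, s1⟩ := sm_rpow (s := 1 / 16) (A := CG) (B := c) (by norm_num) hc
  obtain ⟨e2, he2, s2⟩ := sm_rpow (s := th) (A := 64 * ((2 * B1 + 6 : ℕ) : ℝ)) (B := 1 / 2) hth
    (by norm_num)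
  obtain ⟨e3, he3, s3⟩ := sm_exp (c := c / ((2 * B1 + 6 : ℕ) : ℝ)) (th := th / 2) (q := CA + 3)
    (by positivity) (by positivity)
  obtain ⟨e4, he4, s4⟩ := sm_rpow (s := 1 / 4) (A := 8 * CG ^ 2) (B := 1) (by norm_num) one_pos
  obtain ⟨e5, he5, s5⟩ := sm_rpow (s := 1) (A := 4 * K * CG * Real.exp c) (B := 1 / 2) one_pos
    (by norm_num)
  obtain ⟨e6, he6, s6⟩ := sm_rpow (s := κ / 8) (A := 4 * K * CG ^ 4) (B := 1 / 2) (by positivity)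
    (by norm_num)
  obtain ⟨e7, he7, s7⟩ := sm_rpow (s := κ / 4) (A := K) (B := 1) (by positivity) one_pos
  refine ⟨min (min (min e1 e2) (min e3 e4)) (min (min e5 e6) (min e7 1)), by positivity, ?_⟩
  intro P hPth hPthp hPq hPb1 hPb2 hPW hPys hPX hPes b m r r' e Y a S D F j f g he hee hm hTT hTT'
    hR hR2 hS hS2 hYN hYM hY hsup hJ hJ' hD hD' hF hF' hDS hS0 hjA
  have hle := hee.trans hPes
  have l1 : e ≤ e1 := hle.trans ((min_le_left _ _).trans ((min_le_left _ _).trans (min_le_left _ _)))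
  have l2 : e ≤ e2 := hle.trans ((min_le_left _ _).trans ((min_le_left _ _).trans (min_le_right _ _)))
  have l3 : e ≤ e3 := hle.trans ((min_le_left _ _).trans ((min_le_right _ _).trans (min_le_left _ _)))
  have l4 : e ≤ e4 := hle.trans ((min_le_left _ _).trans ((min_le_right _ _).trans (min_le_right _ _)))
  have l5 : e ≤ e5 := hle.trans ((min_le_right _ _).trans ((min_le_left _ _).trans (min_le_left _ _)))
  have l6 : e ≤ e6 := hle.trans ((min_le_right _ _).trans ((min_le_left _ _).trans (min_le_right _ _)))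
  have l7 : e ≤ e7 := hle.trans ((min_le_right _ _).trans ((min_le_right _ _).trans (min_le_left _ _)))
  have he1' : e ≤ 1 := hle.trans ((min_le_right _ _).trans ((min_le_right _ _).trans
    (min_le_right _ _)))
  set ρ := rh (2 * B1 + 6) (P.kE e) with hρ
  have hk : e ^ (-th) ≤ (2 : ℝ) ^ P.kE e := by
    rw [← hPth]
    exact lg_lo he
  have hρ8 : 8 ≤ ρ := rho8 hB6 he hk (s2 e he l2)
  have hfit : ∀ {r : ℕ}, P.TT m e r → (2 * B1 + 6) * ρ ^ 2 * 2 ^ m ≤ 2 ^ r := by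
    intro r hT
    have h1 := rh_le (2 * B1 + 6) (P.kE e)
    calc (2 * B1 + 6) * ρ ^ 2 * 2 ^ m ≤ 2 ^ P.kE e * 2 ^ m := Nat.mul_le_mul_right _ h1
      _ = 2 ^ (m + P.kE e) := by rw [← pow_add, add_comm]
      _ ≤ _ := Nat.pow_le_pow_right (by norm_num) hT.1
  have hratio : ∀ {r : ℕ}, P.TT m e r →
      (2 : ℝ) ^ r / 2 ^ m ≤ CG * e ^ (-(th + 4 * q0 * thp)) := by
    intro r hT
    have := TT_pow he he1' hT
    rwa [hPth, hPthp, hPq] at this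
  have q1 := hratio hTT
  have q2 := hratio hTT'
  have hκ16 : th + 4 * q0 * thp ≤ 1 / 16 := by linarith
  have hsmall : ∀ {r : ℕ}, P.TT m e r → (2 : ℝ) ^ r * e ^ (1 / 4 : ℝ) ≤ c * 2 ^ m := by
    intro r hT
    have h1 := hratio hT
    have h2 : (2 : ℝ) ^ r / 2 ^ m * e ^ (1 / 4 : ℝ) ≤ c := by
      calc (2 : ℝ) ^ r / 2 ^ m * e ^ (1 / 4 : ℝ) ≤
            CG * e ^ (-(th + 4 * q0 * thp)) * e ^ (1 / 4 : ℝ) := by gcongr
        _ = CG * e ^ (-(th + 4 * q0 * thp) + 1 / 4) := by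
            rw [mul_assoc, pw_mul he]
        _ ≤ CG * e ^ (1 / 16 : ℝ) := by
            refine mul_le_mul_of_nonneg_left ?_ hCG0.le
            exact Real.rpow_le_rpow_of_exponent_ge he he1' (by linarith)
        _ ≤ c := s1 e he l1
    have h3 : (2 : ℝ) ^ r * e ^ (1 / 4 : ℝ) = (2 : ℝ) ^ r / 2 ^ m * e ^ (1 / 4 : ℝ) * 2 ^ m := by
      field_simp
    rw [h3]
    exact mul_le_mul_of_nonneg_right h2 (by positivity)
  have hY0 : 0 ≤ Y := by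
    have hb0 : 0 < b := lt_of_lt_of_le (by rw [hPb1]; exact hb1) hR.hb1
    exact (H864.yt_nonneg (N := 2 ^ r) hb0.le (H972.tn_pos m)).trans hYN
  have hg1 : ((4 : ℝ) ^ r + 4 ^ r') / 4 ^ m ≤ 2 * (CG * e ^ (-(th + 4 * q0 * thp))) ^ 2 := by
    have f4 : ∀ j : ℕ, (4 : ℝ) ^ j = (2 ^ j) ^ 2 := by
      intro j
      rw [← pow_mul, mul_comm j 2, pow_mul]
      norm_num
    have e0 : ((4 : ℝ) ^ r + 4 ^ r') / 4 ^ m = (2 ^ r / 2 ^ m) ^ 2 + (2 ^ r' / 2 ^ m) ^ 2 := by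
      rw [f4, f4, f4]
      field_simp
    rw [e0]
    have a1 := pow_le_pow_left₀ (by positivity) q1 2
    have a2 := pow_le_pow_left₀ (by positivity) q2 2
    linarith
  obtain ⟨Q0, Q1⟩ := xk_Q (Q := ((4 : ℝ) ^ r + 4 ^ r') / 4 ^ m * Y) he he1' hCG0 hκ hr hY hY0
    (by positivity) hg1 rfl
  have hQ4 : 4 * (((4 : ℝ) ^ r + 4 ^ r') / 4 ^ m * Y) ≤ 1 := by
    have h5 : e ^ (1 / 2 - 3 / 16 * κ) ≤ e ^ (1 / 4 : ℝ) :=
      Real.rpow_le_rpow_of_exponent_ge he he1' (by linarith)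
    have h6 := s4 e he l4
    calc 4 * (((4 : ℝ) ^ r + 4 ^ r') / 4 ^ m * Y) ≤
          4 * (2 * CG ^ 2 * e ^ (1 / 2 - 3 / 16 * κ)) := by linarith
      _ ≤ 4 * (2 * CG ^ 2 * e ^ (1 / 4 : ℝ)) := by gcongr
      _ = 8 * CG ^ 2 * e ^ (1 / 4 : ℝ) := by ring
      _ ≤ 1 := h6
  have hEx := H640.rho_exp (B := 2 * B1 + 6) (k := P.kE e) (q := CA + 3) hB6 he hc hk (s3 e he l3)
  have hgl : ((2 : ℝ) ^ r + 2 ^ r') / 2 ^ m ≤ 2 * (CG * e ^ (-1 : ℝ)) := by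
    have h1 : e ^ (-(th + 4 * q0 * thp)) ≤ e ^ (-1 : ℝ) :=
      Real.rpow_le_rpow_of_exponent_ge he he1' (by linarith)
    have h3 : CG * e ^ (-(th + 4 * q0 * thp)) ≤ CG * e ^ (-1 : ℝ) :=
      mul_le_mul_of_nonneg_left h1 hCG0.le
    rw [add_div]
    linarith
  have s5' := s5 e he l5
  rw [Real.rpow_one] at s5'
  have hE := xk_E (K := K) (CG := CG) (κ := κ) (e := e) (Q := ((4 : ℝ) ^ r + 4 ^ r') / 4 ^ m * Y)
    (g := ((2 : ℝ) ^ r + 2 ^ r') / 2 ^ m) (A := e ^ (-CA))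
    (Ex := Real.exp (-(c * ρ))) (c := c) (CA := CA) he he1' hκ hκ1 hCG0 hK Q0 Q1 hgl hCA rfl
    (Real.exp_pos _).le hEx s5' (s6 e he l6)
  have hmain := H m r r' ρ b (e ^ (1 / 4 : ℝ)) Y (tn m) (e ^ (1 - κ / 2)) a (e ^ (-CA)) S D F j f g
    hm
    (by
      have := rng_thr hR hPys hPX
      rwa [hPb1, hPb2, hPW] at this)
    (by
      have := rng_thr hR2 hPys hPX
      rwa [hPb1, hPb2, hPW] at this)
    (by
      have := rng_thr hS hPys hPX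
      rwa [hPb1, hPb2, hPW] at this)
    (by
      have := rng_thr hS2 hPys hPX
      rwa [hPb1, hPb2, hPW] at this)
    (hsmall hTT) (hsmall hTT') le_rfl (by linarith [H972.tn_pos m]) hρ8 (hfit hTT) (hfit hTT')
    hYN hYM hQ4 hsup hJ hJ' hD hD' hF hF' hDS hS0 (Real.rpow_pos_of_pos he _) hjA
    (Real.rpow_pos_of_pos he _) (Real.rpow_le_one he.le he1' (by linarith)) hE
  refine hmain.trans ?_
  have h7 := xk_fin (K := K) (n := n) he he1' hκ hκ1 hnκ (by omega) hK (s7 e he l7)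
  calc K * (1 + a ^ 2) * S * (e ^ (1 - κ / 2)) ^ (1 - 2 / (n : ℝ)) =
        (1 + a ^ 2) * S * (K * (e ^ (1 - κ / 2)) ^ (1 - 2 / (n : ℝ))) := by ring
    _ ≤ _ := mul_le_mul_of_nonneg_left h7 (by positivity)

end

end Vale.Agent.P159.H30
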