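import Vale.Agent.P159.H30.Tk7
import Vale.Agent.P159.H972.Lk0

/-!
P159, LINKW (C3) (helper30), part 8: the torus step of the form `Xf` for an array `f : ℤ × ℤ → ℝ`
(letters of helper972), any position, in the letters of the states of LIST P_up.
-/

set_option linter.unusedSectionVars false

namespace Vale.Agent.P159.H30

open Finset Matrix
open Vale.Agent.P159.H37
open Vale.Agent.P159.TM.Spec (V Rng GT)
open Vale.Agent.P159.TM.H705 (pt dB bx sn_pt_sub)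
open Vale.Agent.P159.H358 (src)
open Vale.Agent.P159.H864 (lapM TI yt)
open Vale.Agent.P159.H640
open Vale.Agent.P159.H692 (Xf)
open Vale.Agent.P159.H859 (lapz enz Fsu)
open Vale.Agent.P159.H972 (Par lg tn RNG em Fit lapM_em qf_em sum_em_sq em_src Xf_shift em_add
  em_smul Good GP YBn)

noncomputable section

/-- the support is in the box of radius `R` around `q` -/
def Nr (f : ℤ × ℤ → ℝ) (q : ℤ × ℤ) (R : ℤ) : Prop :=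
  ∀ c, f c ≠ 0 → |c.1 - q.1| ≤ R ∧ |c.2 - q.2| ≤ R

lemma Nr.lapz {f : ℤ × ℤ → ℝ} {q : ℤ × ℤ} {R : ℤ} (h : Nr f q R) : Nr (lapz f) q (R + 1) := by
  intro c hc
  by_contra hn
  refine hc ?_
  have key : ∀ d : ℤ × ℤ, |d.1 - c.1| ≤ 1 → |d.2 - c.2| ≤ 1 → f d = 0 := by
    intro d h1 h2
    by_contra h0
    have h3 := h d h0
    refine hn ?_
    rw [abs_le] at h1 h2 h3
    rw [abs_le] at h3
    rw [abs_le, abs_le]
    omega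
  have k0 := key c (by simp) (by simp)
  have k1 := key (c + (1, 0)) (by simp) (by simp)
  have k2 := key (c - (1, 0)) (by simp) (by simp)
  have k3 := key (c + (0, 1)) (by simp) (by simp)
  have k4 := key (c - (0, 1)) (by simp) (by simp)
  unfold H859.lapz
  rw [k0, k1, k2, k3, k4]
  ring

lemma Nr.shift {f : ℤ × ℤ → ℝ} {q : ℤ × ℤ} {R : ℤ} (h : Nr f q R) (p : ℤ × ℤ) :
    Nr (fun c => f (c + (q - p))) p R := by
  intro c hc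
  have h1 := h _ hc
  simp only [Prod.fst_add, Prod.snd_add, Prod.fst_sub, Prod.snd_sub] at h1
  have e1 : c.1 + (q.1 - p.1) - q.1 = c.1 - p.1 := by ring
  have e2 : c.2 + (q.2 - p.2) - q.2 = c.2 - p.2 := by ring
  rw [e1, e2] at h1
  exact h1

/-- the local source of an array -/
def Jz (t a : ℝ) (f : ℤ × ℤ → ℝ) (c : ℤ × ℤ) : ℝ := t * f c + a * lapz f c

lemma Jf_em {N : ℕ} [NeZero N] {f : ℤ × ℤ → ℝ} (h : Fit N f) (t a : ℝ) :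
    Jf N t a (em N f) = em N (Jz t a f) := by
  unfold Jf
  rw [lapM_em h]
  rfl

lemma Nr.Jz {f : ℤ × ℤ → ℝ} {q : ℤ × ℤ} {R : ℤ} (h : Nr f q R) (t a : ℝ) :
    Nr (Jz t a f) q (R + 1) := by
  intro c hc
  by_cases h1 : f c = 0
  · have h2 : H859.lapz f c ≠ 0 := by
      intro h2
      refine hc ?_
      unfold H30.Jz
      rw [h1, h2]
      ring
    exact h.lapz c h2
  · have := h c h1
    omega

/-- **(C3)**: the torus step of the local form, any array, any position -/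
theorem xk_em {b1 : ℝ} (hb1 : 0 < b1) (b2 : ℝ) :
    ∃ W₀ : ℝ, ∀ W : ℝ, W₀ ≤ W → ∃ ys : ℝ, ∃ X : ℕ, 0 < ys ∧ 1 ≤ X ∧
    ∀ κ CA : ℝ, 0 < κ → κ ≤ 1 → 0 ≤ CA →
    ∀ (th thp : ℝ) (q0 : ℕ), 0 < th → 0 < thp → th + 4 * q0 * thp ≤ κ / 32 →
    ∃ E0 : ℝ, 0 < E0 ∧ ∀ P : Par, P.th = th → P.thp = thp → P.q0 = q0 → P.b1 = b1 → P.b2 = b2 →
      P.W = W → P.ys ≤ ys → X ≤ P.X0 → P.es ≤ E0 →
    ∀ (b : ℝ) (m r r' : ℕ) (e Y a S : ℝ) (f : ℤ × ℤ → ℝ) (q : ℤ × ℤ), 0 < e → e ≤ P.es →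
      P.TT m e r → P.TT m e r' → RNG P b m r e → RNG P b (m - 1) r e →
      RNG P b m r' e → RNG P b (m - 1) r' e →
      yt (2 ^ r) b (tn m) ≤ Y → yt (2 ^ r') b (tn m) ≤ Y → Y ≤ e ^ (1 / 2 - κ / 8) →
      Fit (2 ^ r) f → Fit (2 ^ r') f → Nr f q (3 * 2 ^ m) →
      enz f + tn m * ∑' c, f c ^ 2 ≤ S → 0 < S →
      (∀ c, |tn m * f c + a * lapz f c| ≤ e ^ (-CA) * √S * tn m) →
      |Xf (2 ^ r) b (tn m) a (em (2 ^ r) f) - Xf (2 ^ r') b (tn m) a (em (2 ^ r') f)| ≤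
        (1 + a ^ 2) * S * e ^ (1 - κ) := by
  obtain ⟨W₀, h⟩ := xkP hb1 b2
  refine ⟨W₀, fun W hW => ?_⟩
  obtain ⟨ys, X, hys, hX, h2⟩ := h W hW
  refine ⟨ys, max X 2, hys, hX.trans (le_max_left _ _), fun κ CA hκ hκ1 hCA th thp q0 hth hthp hr => ?_⟩
  obtain ⟨B1, hB1, h3⟩ := h2 κ CA hκ hκ1 hCA
  obtain ⟨E0, hE0, H⟩ := h3 th thp q0 hth hthp hr
  obtain ⟨e2, he2, s2⟩ := sm_rpow (s := th) (A := 64 * ((2 * B1 + 6 : ℕ) : ℝ)) (B := 1 / 2) hth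
    (by norm_num)
  refine ⟨min E0 e2, lt_min hE0 he2, ?_⟩
  intro P hPth hPthp hPq hPb1 hPb2 hPW hPys hPX hPes b m r r' e Y a S f q he hee hTT hTT' hR hR2
    hS hS2 hYN hYM hY hf hf' hq hDS hS0 hJ
  have hb : 0 < b := lt_of_lt_of_le (by rw [hPb1]; exact hb1) hR.hb1
  have hm : 1 ≤ m := by
    by_contra h0
    have hm0 : m = 0 := by omega
    have h4 := hR.hX
    rw [hm0, pow_zero] at h4
    have h5 : 2 ≤ P.X0 := (le_max_right X 2).trans hPX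
    omega
  set ρ := rh (2 * B1 + 6) (P.kE e) with hρ
  have hk : e ^ (-th) ≤ (2 : ℝ) ^ P.kE e := by
    rw [← hPth]
    exact lg_lo he
  have hρ8 : 8 ≤ ρ := rho8 (by omega) he hk (s2 e he (hee.trans (hPes.trans (min_le_right _ _))))
  have hfit : ∀ {r : ℕ}, P.TT m e r → (2 * B1 + 6) * ρ ^ 2 * 2 ^ m ≤ 2 ^ r := by
    intro r hT
    have h1 := rh_le (2 * B1 + 6) (P.kE e)
    calc (2 * B1 + 6) * ρ ^ 2 * 2 ^ m ≤ 2 ^ P.kE e * 2 ^ m := Nat.mul_le_mul_right _ h1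
      _ = 2 ^ (m + P.kE e) := by rw [← pow_add, add_comm]
      _ ≤ _ := Nat.pow_le_pow_right (by norm_num) hT.1
  -- the window
  have h2m : 1 ≤ 2 ^ m := Nat.one_le_two_pow
  have hρm : 8 * 2 ^ m ≤ ρ * 2 ^ m := Nat.mul_le_mul_right _ hρ8
  obtain ⟨B0, rfl⟩ : ∃ B0, B1 = B0 + 1 := ⟨B1 - 1, by omega⟩
  obtain ⟨w1, w2⟩ := win_fit (B0 := B0) (ξ := 2 ^ m) (ρ := ρ) (by positivity) hρ8
  set wr := (B0 + 1) * ρ ^ 2 * 2 ^ m with hwr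
  have hcn : cn (ρ * 2 ^ m) wr = 4 * (ρ * 2 ^ m) + 2 * wr + 2 := rfl
  have hcm : cm (ρ * 2 ^ m) wr = 2 * (ρ * 2 ^ m) + wr + 1 := rfl
  set c0 := cm (ρ * 2 ^ m) wr with hc0
  set n0 := cn (ρ * 2 ^ m) wr with hn0
  have hn0r : ∀ {r : ℕ}, P.TT m e r → n0 ≤ 2 ^ r := fun hT => w1.trans (hfit hT)
  -- the shifted array
  set f' : ℤ × ℤ → ℝ := fun c => f (c + (q - ((c0 : ℤ), (c0 : ℤ)))) with hf'd
  have hnr : Nr f' ((c0 : ℤ), (c0 : ℤ)) (3 * 2 ^ m) := hq.shift _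
  have h2mz : (1 : ℤ) ≤ 2 ^ m := by exact_mod_cast h2m
  have hρmz : 8 * (2 : ℤ) ^ m ≤ (ρ : ℤ) * 2 ^ m := by exact_mod_cast hρm
  have hc0z : (c0 : ℤ) = 2 * ((ρ : ℤ) * 2 ^ m) + wr + 1 := by
    rw [hcm]
    push_cast
    ring
  have hn0z : (n0 : ℤ) = 4 * ((ρ : ℤ) * 2 ^ m) + 2 * wr + 2 := by
    rw [hcn]
    push_cast
    ring
  have hbox : ∀ {g : ℤ × ℤ → ℝ}, Nr g ((c0 : ℤ), (c0 : ℤ)) (3 * 2 ^ m + 1) →
      ∀ c : ℤ × ℤ, g c ≠ 0 → 0 < c.1 ∧ c.1 + 1 < n0 ∧ 0 < c.2 ∧ c.2 + 1 < n0 := by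
    intro g hg c hc
    have h4 := hg c hc
    simp only [abs_le] at h4
    have h5 : (0 : ℤ) ≤ (wr : ℤ) := Int.natCast_nonneg _
    generalize (ρ : ℤ) * 2 ^ m = R at *
    generalize (2 : ℤ) ^ m = M at *
    omega
  have hJN : Nr (Jz (tn m) a f') ((c0 : ℤ), (c0 : ℤ)) (3 * 2 ^ m + 1) := hnr.Jz _ _
  have hnr1 : Nr f' ((c0 : ℤ), (c0 : ℤ)) (3 * 2 ^ m + 1) := fun c hc => by
    have := hnr c hc
    omega
  have hfr : ∀ {r : ℕ}, P.TT m e r → Fit (2 ^ r) f' := by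
    intro r hT c hc
    have h4 := hbox hnr1 c hc
    have h5 : (n0 : ℤ) ≤ ((2 ^ r : ℕ) : ℤ) := by exact_mod_cast hn0r hT
    omega
  have hsrc : ∀ {r : ℕ}, P.TT m e r → Jf (2 ^ r) (tn m) a (em (2 ^ r) f') =
      H358.src (2 ^ r) n0 (fun i k => Jz (tn m) a f' ((i : ℤ), (k : ℤ))) := by
    intro r hT
    rw [Jf_em (hfr hT)]
    refine (em_src fun c hc => ?_).symm
    have h4 := hbox hJN c hc
    omega
  have hen : enz f' = enz f := H859.enz_trz f _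
  have hsq : ∑' c, f' c ^ 2 = ∑' c, f c ^ 2 := H859.tsum_trz (fun c => f c ^ 2) _
  have hmain := H P hPth hPthp hPq hPb1 hPb2 hPW hPys ((le_max_left X 2).trans hPX)
    (hPes.trans (min_le_left _ _)) b m r r' e Y a S (enz f) (∑' c, f c ^ 2)
    (fun i k => Jz (tn m) a f' ((i : ℤ), (k : ℤ))) (em (2 ^ r) f') (em (2 ^ r') f') he hee hm
    hTT hTT' hR hR2 hS hS2 hYN hYM hY ?_ (hsrc hTT) (hsrc hTT') ?_ ?_ ?_ ?_ hDS hS0 ?_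
  · rw [← Xf_shift hb (H972.tn_pos m) (q - ((c0 : ℤ), (c0 : ℤ))) hf (hfr hTT),
      ← Xf_shift hb (H972.tn_pos m) (q - ((c0 : ℤ), (c0 : ℤ))) hf' (hfr hTT')]
    exact hmain
  · intro i k hik
    have h4 := hJN _ hik
    simp only [abs_le] at h4
    unfold dB pc
    rw [← hc0]
    simp only
    have h5 : (ρ : ℤ) * 2 ^ m = ((ρ * 2 ^ m : ℕ) : ℤ) := by push_cast; ring
    have h6 : (2 : ℤ) ^ m = ((2 ^ m : ℕ) : ℤ) := by push_cast; ring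
    rw [h6] at h4
    generalize ρ * 2 ^ m = R at *
    generalize 2 ^ m = M at *
    rcases max_cases (((i : ℤ) - (c0 : ℤ)).natAbs) (((k : ℤ) - (c0 : ℤ)).natAbs) with h7 | h7
    · rw [h7.1]
      omega
    · rw [h7.1]
      omega
  · rw [qf_em (hfr hTT), hen]
  · rw [qf_em (hfr hTT'), hen]
  · rw [sum_em_sq (hfr hTT), hsq]
  · rw [sum_em_sq (hfr hTT'), hsq]
  · intro i k
    have h4 := hJ (((i : ℤ), (k : ℤ)) + (q - ((c0 : ℤ), (c0 : ℤ))))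
    have h5 : Jz (tn m) a f' ((i : ℤ), (k : ℤ)) =
        tn m * f (((i : ℤ), (k : ℤ)) + (q - ((c0 : ℤ), (c0 : ℤ)))) +
          a * lapz f (((i : ℤ), (k : ℤ)) + (q - ((c0 : ℤ), (c0 : ℤ)))) := by
      have h6 := congrFun (H972.lapz_shift (q - ((c0 : ℤ), (c0 : ℤ))) f) ((i : ℤ), (k : ℤ))
      unfold H30.Jz
      rw [hf'd, h6]
    rw [h5]
    exact h4

/-- **(C3)** in the letters of the states -/
theorem xk_good {b1 : ℝ} (hb1 : 0 < b1) (b2 : ℝ) :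
    ∃ W₀ : ℝ, ∀ W : ℝ, W₀ ≤ W → ∃ ys : ℝ, ∃ X : ℕ, 0 < ys ∧ 1 ≤ X ∧
    ∀ κ CA : ℝ, 0 < κ → κ ≤ 1 → 0 ≤ CA →
    ∀ (th thp : ℝ) (q0 : ℕ), 0 < th → 0 < thp → th + 4 * q0 * thp ≤ κ / 32 →
    ∃ E0 : ℝ, 0 < E0 ∧ ∀ P : Par, P.th = th → P.thp = thp → P.q0 = q0 → P.b1 = b1 → P.b2 = b2 →
      P.W = W → P.ys ≤ ys → X ≤ P.X0 → P.es ≤ E0 →
    ∀ (b : ℝ) (m r r' : ℕ) (e ε Y a S : ℝ) (f : ℤ × ℤ → ℝ) (q : ℤ × ℤ),
      Good P b m ε → YBn P b m ε Y → Y ^ 2 ≤ ε → ε ≤ e → e ≤ P.es →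
      P.TT m e r → P.TT m e r' →
      Fit (2 ^ r) f → Fit (2 ^ r') f → Nr f q (3 * 2 ^ m) →
      enz f + tn m * ∑' c, f c ^ 2 ≤ S → 0 < S →
      (∀ c, |tn m * f c + a * lapz f c| ≤ e ^ (-CA) * √S * tn m) →
      |Xf (2 ^ r) b (tn m) a (em (2 ^ r) f) - Xf (2 ^ r') b (tn m) a (em (2 ^ r') f)| ≤
        (1 + a ^ 2) * S * e ^ (1 - κ) := by
  obtain ⟨W₀, h⟩ := xk_em hb1 b2
  refine ⟨W₀, fun W hW => ?_⟩
  obtain ⟨ys, X, hys, hX, h2⟩ := h W hW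
  refine ⟨ys, X, hys, hX, fun κ CA hκ hκ1 hCA th thp q0 hth hthp hr => ?_⟩
  obtain ⟨E0, hE0, H⟩ := h2 κ CA hκ hκ1 hCA th thp q0 hth hthp hr
  refine ⟨E0, hE0, ?_⟩
  intro P hPth hPthp hPq hPb1 hPb2 hPW hPys hPX hPes b m r r' e ε Y a S f q hG hYB hYε hεe hee hTT
    hTT' hf hf' hq hDS hS0 hJ
  obtain ⟨τ, a', -, -, hGP⟩ := hG
  have hε : 0 < ε := lt_of_lt_of_le (pow_pos hYB.1 2) hYε
  have he : 0 < e := lt_of_lt_of_le hε hεe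
  have he1 : e ≤ 1 := hee.trans (P.es1.trans (by norm_num))
  have hgp := hGP e hεe hee
  obtain ⟨hR, hR2⟩ := hgp.rng r (Or.inl hTT)
  obtain ⟨hS, hS2⟩ := hgp.rng r' (Or.inl hTT')
  have hY1 : Y ≤ e ^ (1 / 2 - κ / 8) := by
    have h3 : Y ^ 2 ≤ (e ^ (1 / 2 : ℝ)) ^ 2 := by
      rw [pw_two he]
      norm_num
      exact hYε.trans hεe
    have h4 : Y ≤ e ^ (1 / 2 : ℝ) := le_of_sq_le_sq h3 (Real.rpow_nonneg he.le _)
    exact h4.trans (Real.rpow_le_rpow_of_exponent_ge he he1 (by linarith))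
  have he2 : e ≤ e ^ (1 / 2 - κ / 8) := by
    calc e = e ^ (1 : ℝ) := (Real.rpow_one e).symm
      _ ≤ _ := Real.rpow_le_rpow_of_exponent_ge he he1 (by linarith)
  have hYe : max Y e ≤ e ^ (1 / 2 - κ / 8) := max_le hY1 he2
  exact H P hPth hPthp hPq hPb1 hPb2 hPW hPys hPX hPes b m r r' e (max Y e) a S f q he hee hTT
    hTT' hR hR2 hS hS2 (hYB.2.1 e hεe hee r hTT.1) (hYB.2.1 e hεe hee r' hTT'.1) hYe hf hf' hq
    hDS hS0 hJ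

end

end Vale.Agent.P159.H30
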