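import Vale.Agent.P159.H30.Box
import Vale.Agent.P159.TM.H859.LogC

/-!
SANDWICH, part 4 (helper30): the source `(t - Δ/Y) W` on the torus; lattice Laplacian, summation by
parts, the splitting of the energy into the free box and the edges which wrap around.
-/

open MeasureTheory Filter Topology

namespace Vale.Agent.P159.H30

open Vale.Agent.P159 Vale.Agent.P159.H353 Vale.Agent.P159.R2.H254 Vale.Agent.P159.T1.H934
open Vale.Agent.P159.TM Vale.Agent.P159.TM.H22
open Vale.Agent.P159.TM.H859 (dirE)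

section tor

variable {N : ℕ} [NeZero N]

/-- minus the lattice Laplacian -/
def nL (W : ZMod N × ZMod N → ℝ) (x : ZMod N × ZMod N) : ℝ :=
  4 * W x - W (x + (1, 0)) - W (x - (1, 0)) - W (x + (0, 1)) - W (x - (0, 1))

/-- summation by parts in one direction -/
lemma sbp1 (W u : ZMod N × ZMod N → ℝ) (e : ZMod N × ZMod N) :
    ∑ x, (W (x + e) - W x) * (u (x + e) - u x) = ∑ x, (2 * W x - W (x + e) - W (x - e)) * u x := by
  have h1 : ∑ x, W (x + e) * u (x + e) = ∑ x, W x * u x :=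
    Equiv.sum_comp (Equiv.addRight e) fun x => W x * u x
  have h2 : ∑ x, W x * u (x + e) = ∑ x, W (x - e) * u x := by
    rw [← Equiv.sum_comp (Equiv.addRight e) fun x => W (x - e) * u x]
    refine Finset.sum_congr rfl fun x _ => ?_
    simp only [Equiv.coe_addRight, add_sub_cancel_right]
  have h3 : ∀ x, (W (x + e) - W x) * (u (x + e) - u x) =
      W (x + e) * u (x + e) - W (x + e) * u x - W x * u (x + e) + W x * u x := fun x => by ring
  have h4 : ∀ x, (2 * W x - W (x + e) - W (x - e)) * u x =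
      W x * u x - W (x + e) * u x - W (x - e) * u x + W x * u x := fun x => by ring
  simp only [h3, h4, Finset.sum_add_distrib, Finset.sum_sub_distrib, h1, h2]

lemma sbp (W u : ZMod N × ZMod N → ℝ) : ∑ x, nL W x * u x =
    ∑ x, ((W (x + (1, 0)) - W x) * (u (x + (1, 0)) - u x) +
      (W (x + (0, 1)) - W x) * (u (x + (0, 1)) - u x)) := by
  rw [Finset.sum_add_distrib, sbp1, sbp1, ← Finset.sum_add_distrib]
  refine Finset.sum_congr rfl fun x _ => ?_
  unfold nL
  ring

lemma sbp_self (W : ZMod N × ZMod N → ℝ) : ∑ x, nL W x * W x = dirE W := by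
  rw [sbp]
  unfold dirE
  exact Finset.sum_congr rfl fun x _ => by ring

/-- the source `(t - Δ/Y) W` -/
noncomputable def JW (t Y : ℝ) (W : ZMod N × ZMod N → ℝ) (x : ZMod N × ZMod N) : ℝ :=
  t * W x + Y⁻¹ * nL W x

/-- the quadratic form of `t - Δ/Y` -/
noncomputable def QW (t Y : ℝ) (W : ZMod N × ZMod N → ℝ) : ℝ := t * ∑ x, W x ^ 2 + Y⁻¹ * dirE W

lemma dirE_nonneg (W : ZMod N × ZMod N → ℝ) : 0 ≤ dirE W :=
  Finset.sum_nonneg fun _ _ => add_nonneg (sq_nonneg _) (sq_nonneg _)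

lemma JW_self (t Y : ℝ) (W : ZMod N × ZMod N → ℝ) : ∑ x, JW t Y W x * W x = QW t Y W := by
  unfold JW QW
  have h : ∀ x, (t * W x + Y⁻¹ * nL W x) * W x = t * W x ^ 2 + Y⁻¹ * (nL W x * W x) :=
    fun x => by ring
  simp only [h, Finset.sum_add_distrib, ← Finset.mul_sum, sbp_self]

end tor

/-! ### the splitting -/

/-- differences along the edges of the box -/
noncomputable def gB {N : ℕ} (u : Fa N → ℝ) (e : Eb N) : ℝ := u (blf e) - u (brt e)

/-- differences along the edges which wrap around -/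
noncomputable def gW {N : ℕ} (u : Fa N → ℝ) : Ew N → ℝ :=
  Sum.elim (fun j => u (0, j) - u (Fin.last N, j)) fun i => u (i, 0) - u (i, Fin.last N)

lemma sum_cs {N : ℕ} (f : ZMod (N + 1) → ℝ) : ∑ i : ZMod (N + 1), f i =
    (∑ i : Fin N, f (i.castSucc : Fin (N + 1))) + f (Fin.last N : Fin (N + 1)) :=
  Fin.sum_univ_castSucc (fun i : Fin (N + 1) => f i)

lemma split (N : ℕ) (W u : ZMod (N + 1) × ZMod (N + 1) → ℝ) :
    ∑ x, ((W (x + (1, 0)) - W x) * (u (x + (1, 0)) - u x) +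
      (W (x + (0, 1)) - W x) * (u (x + (0, 1)) - u x)) =
    ∑ e : Eb N, gB W e * gB u e + ∑ f : Ew N, gW W f * gW u f := by
  rw [Finset.sum_add_distrib, Fintype.sum_sum_type, Fintype.sum_sum_type]
  have e1 : ∑ x : ZMod (N + 1) × ZMod (N + 1), (W (x + (1, 0)) - W x) * (u (x + (1, 0)) - u x) =
      (∑ p : Fin N × Fin (N + 1), gB W (Sum.inl p) * gB u (Sum.inl p)) +
        ∑ j : Fin (N + 1), gW W (Sum.inl j) * gW u (Sum.inl j) := by
    have e2 : ∑ x : ZMod (N + 1) × ZMod (N + 1), (W (x + (1, 0)) - W x) *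
        (u (x + (1, 0)) - u x) =
        ∑ i : ZMod (N + 1), ∑ j : ZMod (N + 1), (W (i + 1, j) - W (i, j)) *
          (u (i + 1, j) - u (i, j)) := by
      rw [Fintype.sum_prod_type]
      refine Finset.sum_congr rfl fun i _ => Finset.sum_congr rfl fun j _ => ?_
      rw [Prod.mk_add_mk, add_zero]
    rw [e2, sum_cs, Fintype.sum_prod_type]
    refine congrArg₂ (· + ·) ?_ ?_
    · refine Finset.sum_congr rfl fun i _ => Finset.sum_congr rfl fun j _ => ?_
      rw [succ_zmod i]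
      show (W ((i.succ : Fin (N + 1)), j) - W ((i.castSucc : Fin (N + 1)), j)) *
        (u ((i.succ : Fin (N + 1)), j) - u ((i.castSucc : Fin (N + 1)), j)) =
        (W ((i.castSucc : Fin (N + 1)), j) - W ((i.succ : Fin (N + 1)), j)) *
        (u ((i.castSucc : Fin (N + 1)), j) - u ((i.succ : Fin (N + 1)), j))
      ring
    · refine Finset.sum_congr rfl fun j _ => ?_
      rw [last_zmod]
      rfl
  have e4 : ∑ x : ZMod (N + 1) × ZMod (N + 1), (W (x + (0, 1)) - W x) * (u (x + (0, 1)) - u x) =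
      (∑ p : Fin (N + 1) × Fin N, gB W (Sum.inr p) * gB u (Sum.inr p)) +
        ∑ j : Fin (N + 1), gW W (Sum.inr j) * gW u (Sum.inr j) := by
    have e2 : ∑ x : ZMod (N + 1) × ZMod (N + 1), (W (x + (0, 1)) - W x) *
        (u (x + (0, 1)) - u x) =
        ∑ i : Fin (N + 1), ∑ j : ZMod (N + 1), (W ((i : ZMod (N + 1)), j + 1) - W (i, j)) *
          (u ((i : ZMod (N + 1)), j + 1) - u (i, j)) := by
      rw [Fintype.sum_prod_type]
      refine Finset.sum_congr rfl fun i _ => Finset.sum_congr rfl fun j _ => ?_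
      rw [Prod.mk_add_mk, add_zero]
    rw [e2, Fintype.sum_prod_type, ← Finset.sum_add_distrib]
    refine Finset.sum_congr rfl fun i _ => ?_
    rw [sum_cs]
    refine congrArg₂ (· + ·) ?_ ?_
    · refine Finset.sum_congr rfl fun j _ => ?_
      rw [succ_zmod j]
      rfl
    · rw [last_zmod]
      rfl
  rw [e1, e4]
  ring

/-- the source `(t - Δ/Y) W` on integer heights -/
lemma lin_JW (N : ℕ) (t Y : ℝ) (W : ZMod (N + 1) × ZMod (N + 1) → ℝ)
    (h : ZMod (N + 1) × ZMod (N + 1) → ℤ) :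
    H22.lin (JW t Y W) h = H22.lin (fun x => t * W x) h +
      H22.lin (fun e => Y⁻¹ * gB W e) (curH N h) + H22.lin (fun f => Y⁻¹ * gW W f) (wrapH N h) := by
  have h1 := (sbp (N := N + 1) W (fun x => (h x : ℝ))).trans (split N W fun x => (h x : ℝ))
  have e1 : H22.lin (JW t Y W) h = H22.lin (fun x => t * W x) h +
      Y⁻¹ * ∑ x : ZMod (N + 1) × ZMod (N + 1), nL W x * (h x : ℝ) := by
    unfold H22.lin JW
    rw [Finset.mul_sum, ← Finset.sum_add_distrib]
    exact Finset.sum_congr rfl fun x _ => by ring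
  have e3 : ∑ e : Eb N, gB W e * gB (fun x => (h x : ℝ)) e =
      ∑ e : Eb N, gB W e * (curH N h e : ℝ) := by
    refine Finset.sum_congr rfl fun e _ => ?_
    show gB W e * ((h (blf e) : ℝ) - (h (brt e) : ℝ)) = gB W e * ((h (blf e) - h (brt e) : ℤ) : ℝ)
    push_cast
    rfl
  have e4 : ∑ f : Ew N, gW W f * gW (fun x => (h x : ℝ)) f =
      ∑ f : Ew N, gW W f * (wrapH N h f : ℝ) := by
    refine Finset.sum_congr rfl fun f _ => ?_
    congr 1
    rcases f with j | i
    · show (h (0, j) : ℝ) - (h (Fin.last N, j) : ℝ) = ((h (0, j) - h (Fin.last N, j) : ℤ) : ℝ)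
      push_cast
      rfl
    · show (h (i, 0) : ℝ) - (h (i, Fin.last N) : ℝ) = ((h (i, 0) - h (i, Fin.last N) : ℤ) : ℝ)
      push_cast
      rfl
  have h2 := h1.trans (congrArg₂ (· + ·) e3 e4)
  rw [e1, h2]
  rw [mul_add, Finset.mul_sum, Finset.mul_sum, ← add_assoc]
  unfold H22.lin
  simp only [mul_assoc]

/-- **the torus with the source `(t - Δ/Y) W`** -/
theorem Zs_JW (N : ℕ) {b t : ℝ} (hb : 0 < b) (ht : 0 < t) (Y : ℝ)
    (W : ZMod (N + 1) × ZMod (N + 1) → ℝ) :
    H37.Zs (H37.wt (N + 1) b t) (JW t Y W) ≤ Real.exp (t * (∑ x, W x ^ 2) / 2) *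
        H968.hE N b (fun h => Real.exp (H968.lin (fun e => Y⁻¹ * gB W e) h)) *
        Real.exp (∑ f : Ew N, b * (Real.cosh (Y⁻¹ * gW W f) - 1)) *
        H37.Zs (H37.wt (N + 1) b t) (0 : SpecC.Tor (N + 1) → ℝ) := by
  have h := torus_le N hb ht (fun x => t * W x) (fun e => Y⁻¹ * gB W e) fun f => Y⁻¹ * gW W f
  have e2 : ∑' h : Fa N → ℤ, wtor N b t h * Real.exp (H22.lin (0 : Fa N → ℝ) h) =
      ∑' h, wtor N b t h := tsum_congr fun h => by rw [lin_zero, Real.exp_zero, mul_one]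
  have g1 : H37.Zs (H37.wt (N + 1) b t) (JW t Y W) = ∑' h, wtor N b t h *
      Real.exp (H22.lin (fun x => t * W x) h +
        H22.lin (fun e => Y⁻¹ * gB W e) (curH N h) +
        H22.lin (fun f => Y⁻¹ * gW W f) (wrapH N h)) := by
    refine (Zs_eq N b t _).trans (tsum_congr fun h => ?_)
    exact congrArg (fun z => wtor N b t h * Real.exp z) (lin_JW N t Y W h)
  have g0 : H37.Zs (H37.wt (N + 1) b t) (0 : SpecC.Tor (N + 1) → ℝ) = ∑' h, wtor N b t h :=
    (Zs_eq N b t _).trans e2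
  have e5 : (∑ x : Fa N, (t * W x) ^ 2) / (2 * t) = t * (∑ x : Fa N, W x ^ 2) / 2 := by
    have : ∀ x : Fa N, (t * W x) ^ 2 = t ^ 2 * W x ^ 2 := fun x => by ring
    simp only [this]
    rw [← Finset.mul_sum]
    field_simp
  rw [e5] at h
  rw [g1, g0]
  exact h

end Vale.Agent.P159.H30
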