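import Vale.Agent.P159.H30.Crn
import Vale.Agent.P159.H316.Zb14
import Vale.Agent.P159.H316.St1
import Vale.Agent.P159.H316.Yb2
import Vale.Agent.P159.H816.Tyin
import Vale.Agent.P159.H375.AclD
import Vale.Agent.P159.H879.StartV
import Vale.Agent.P159.H767.Nr16

/-!
P159 / V (helper30): CRK, part 1: the zero background relation at the V cells, order of constants.
-/

open MeasureTheory Finset Matrix Filter Topology

set_option linter.unusedSectionVars false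

namespace Vale.Agent.P159.H30.Crk

open Vale.Agent.P159.TM.Spec (V)
open Vale.Agent.P159.TM.SpecC (wT)
open Vale.Agent.P159.H864 (yt yt_nonneg)
open Vale.Agent.P159.H896 (om)
open Vale.Agent.P159.H363 (acl)
open Vale.Agent.P159.H462 (Dom)
open Vale.Agent.P159.H316 (omh omt Yn TyIn)
open Vale.Agent.P159.H889 (Cx Cw lam)
open Vale.Agent.P159.H972 (Par lg tn Good GP)
open Vale.Agent.P159.H801 (Ev PS)
open Vale.Agent.P159.H767 (Lv Sm1 sm1_ev lv_of_cx)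
open Vale.Agent.P159.H640 (lg_lo lg_hi sm_rpow)

noncomputable section

/-- the numbers in the order of constants -/
theorem nz_ev {b1 b2 pf : ℝ} (C c : ℝ) (hc : 0 < c) (Q : ℕ) :
    Ev b1 b2 pf Q fun P c1 => 0 < c1 ∧ 800 * c1 ≤ P.thp ∧ P.thp ≤ 1 / 10 ∧ 400 * P.th ≤ P.thp ∧
      2 ≤ c * P.C0 ∧ ∀ e, 0 < e → e ≤ P.es → Nz C P.thp P.th c1 e := by
  refine Ev.of ⟨0, fun W _ => ⟨1, one_pos, fun ys _ _ => ⟨0, fun X0 _ => ⟨1, one_pos,
    fun x1 _ _ => ⟨1 / 10, by norm_num, fun thp hthp0 hthp => ⟨thp / 400, by positivity,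
    fun th hth0 hth => ⟨2 / c, fun C0 hC0 => ⟨thp / 800, by positivity, fun c1 hc10 hc1 => ?_⟩⟩⟩⟩⟩⟩⟩⟩
  obtain ⟨E0, hE0, h⟩ := nz_ex (C := C) hthp0 hthp (th := th) (by linarith) hc10
  refine ⟨E0, hE0, fun P hP => ?_⟩
  rw [hP.ethp, hP.eth, hP.eC0]
  refine ⟨hc10, by linarith, hthp, by linarith, ?_, fun e he hle => h e he (hle.trans hP.ees)⟩
  rw [div_le_iff₀ hc] at hC0
  linarith

/-- the cells: `t l ^ 2 = lam ^ 2` -/
lemma tn_cell {n s : ℕ} : tn n * ((2 ^ s : ℕ) : ℝ) ^ 2 = ((2 : ℝ) ^ s / 2 ^ n) ^ 2 := by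
  unfold H972.tn
  push_cast
  have : (4 : ℝ) ^ n = (2 ^ n) ^ 2 := by
    rw [← pow_mul, mul_comm, pow_mul]
    norm_num
  rw [this]
  field_simp

lemma tn_torus {n r : ℕ} (h : n ≤ r) : tn n * ((2 ^ r : ℕ) : ℝ) ^ 2 = 4 ^ (r - n) := by
  unfold H972.tn
  push_cast
  have e1 : ((2 : ℝ) ^ r) ^ 2 = 4 ^ r := by
    rw [← pow_mul, mul_comm, pow_mul]
    norm_num
  have e2 : (4 : ℝ) ^ r = 4 ^ (r - n) * 4 ^ n := by rw [← pow_add, Nat.sub_add_cancel h]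
  rw [e1, e2]
  field_simp

/-- the size of the activity at the base mass -/
theorem omt_le {b : ℝ} (hb : 0 < b) {n r : ℕ} (hr : n + 2 ≤ r) {Y : ℝ}
    (hy : yt (2 ^ r) b (4 * tn n) ≤ Y) (hs : 4 * 4 ^ (r - n) * Y ≤ 1) :
    omt (2 ^ r) b (4 * tn n) ≤ 2 * 4 ^ (r - n) * Y := by
  have htn := H972.tn_pos n
  have hNN := tn_torus (n := n) (r := r) (by omega)
  have hcard : (Fintype.card (V (2 ^ r)) : ℝ) = ((2 ^ r : ℕ) : ℝ) ^ 2 := by
    show ((Fintype.card (ZMod (2 ^ r) × ZMod (2 ^ r)) : ℕ) : ℝ) = _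
    rw [Fintype.card_prod, ZMod.card]
    push_cast
    ring
  have e4 : 4 * tn n * ((2 ^ r : ℕ) : ℝ) ^ 2 = 4 * 4 ^ (r - n) := by rw [mul_assoc, hNN]
  have h16 : (16 : ℝ) ≤ 4 ^ (r - n) := by
    calc (16 : ℝ) = 4 ^ 2 := by norm_num
      _ ≤ 4 ^ (r - n) := pow_le_pow_right₀ (by norm_num) (by omega)
  have hyt0 : 0 ≤ yt (2 ^ r) b (4 * tn n) := yt_nonneg hb.le (by positivity)
  have h1 := (H316.om_le_yt (N := 2 ^ r) hb (t := 4 * tn n) (by positivity) (by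
    rw [e4]
    exact (mul_le_mul_of_nonneg_left hy (by positivity)).trans hs)).2
  rw [e4] at h1
  rw [H316.omt_eq hb.le (by positivity : (0 : ℝ) < 4 * tn n), hcard, e4]
  have hπ := Real.pi_lt_d2
  have hπ0 := Real.pi_pos
  have h2 : Real.exp (2 * Real.pi ^ 2 / (4 * 4 ^ (r - n))) ≤ 2 := by
    have h3 : 2 * Real.pi ^ 2 / (4 * 4 ^ (r - n)) ≤ 1 / 2 := by
      rw [div_le_iff₀ (by positivity)]
      nlinarith
    have h4 : Real.exp (1 / 2) ≤ 2 := by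
      have h5 : Real.exp (1 / 2) ^ 2 ≤ 2 ^ 2 := by
        rw [← Real.exp_nat_mul]
        have := Real.exp_one_lt_d9
        norm_num
        linarith
      exact le_of_pow_le_pow_left₀ two_ne_zero (by norm_num) h5
    exact (Real.exp_le_exp.2 h3).trans h4
  have hom : 0 ≤ om (wT b (2 ^ r)) ((4 * tn n) • (1 : Matrix (V (2 ^ r)) (V (2 ^ r)) ℝ)) 1 :=
    H896.om_nonneg (H896.wm_t (N := 2 ^ r) hb.le (by positivity)) 1
  calc Real.exp (2 * Real.pi ^ 2 / (4 * 4 ^ (r - n))) *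
        om (wT b (2 ^ r)) ((4 * tn n) • (1 : Matrix (V (2 ^ r)) (V (2 ^ r)) ℝ)) 1
      ≤ 2 * (4 * 4 ^ (r - n) * yt (2 ^ r) b (4 * tn n) / 4) :=
        mul_le_mul h2 h1 hom (by norm_num)
    _ ≤ 2 * (4 * 4 ^ (r - n) * Y / 4) := by gcongr
    _ = _ := by ring

/-- the activity times the torus number -/
lemma four_y {C thp th c1 e y Y : ℝ} {k x : ℕ} (h : Nz C thp th c1 e) (hthp : 0 < thp)
    (he : 0 < e) (hy : 0 < y) (hye : y ^ (39 / 20 : ℝ) ≤ e) (hw2 : x ≤ 4 * lg thp e)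
    (hk : 8 * k ≤ x) (hY : Y ≤ e ^ (-(thp / 20)) * y) : 4 * 4 ^ k * Y ≤ 1 := by
  have he1 : e ≤ 1 := h.a8.trans (by norm_num)
  have hy1 : y ≤ e ^ (20 / 39 : ℝ) := by
    have h1 : (y ^ (39 / 20 : ℝ)) ^ (20 / 39 : ℝ) ≤ e ^ (20 / 39 : ℝ) :=
      Real.rpow_le_rpow (by positivity) hye (by norm_num)
    rwa [← Real.rpow_mul hy.le, show (39 / 20 : ℝ) * (20 / 39) = 1 by norm_num,
      Real.rpow_one] at h1
  have h2 : (4 : ℝ) ^ k ≤ 2 * e ^ (-thp) := by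
    refine (k_four hk).trans ?_
    have h3 := X_hi hthp.le he he1 hw2
    have h4 : ((2 : ℝ) ^ x) ^ (1 / 4 : ℝ) ≤ (16 * e ^ (-(4 * thp))) ^ (1 / 4 : ℝ) :=
      Real.rpow_le_rpow (by positivity) h3 (by norm_num)
    rw [Real.mul_rpow (by norm_num) (by positivity), ← Real.rpow_mul he.le] at h4
    have h5 : (16 : ℝ) ^ (1 / 4 : ℝ) = 2 := by
      rw [show (16 : ℝ) = 2 ^ (4 : ℝ) by norm_num, ← Real.rpow_mul (by norm_num)]
      norm_num
    have e1 : -(4 * thp) * (1 / 4) = -thp := by ring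
    rwa [e1, h5] at h4
  have h6 : Y ≤ e ^ (-(thp / 20)) * e ^ (20 / 39 : ℝ) := by
    refine hY.trans ?_
    gcongr
  have e2 : e ^ (-thp) * (e ^ (-(thp / 20)) * e ^ (20 / 39 : ℝ)) =
      e ^ (20 / 39 - 21 / 20 * thp) := by
    rw [← Real.rpow_add he, ← Real.rpow_add he]
    congr 1
    ring
  calc 4 * 4 ^ k * Y ≤ 4 * 4 ^ k * (e ^ (-(thp / 20)) * e ^ (20 / 39 : ℝ)) := by gcongr
    _ ≤ 4 * (2 * e ^ (-thp)) * (e ^ (-(thp / 20)) * e ^ (20 / 39 : ℝ)) := by gcongr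
    _ = 8 * (e ^ (-thp) * (e ^ (-(thp / 20)) * e ^ (20 / 39 : ℝ))) := by ring
    _ ≤ 1 := by
      rw [e2]
      exact h.a6

/-- **the zero background relation at the V cells** -/
theorem zb_ev {b b1 b2 : ℝ} (hb1 : 0 < b1) (h1 : b1 ≤ b) (hel : helicity b = 2 / Real.pi)
    (K : ℝ) (Q : ℕ) :
    ∃ N0 : ℕ, Ev b1 b2 (9 / 10) Q fun P c1 => ∀ C1, 1 ≤ C1 → P.C0 ≤ C1 → C1 ≤ K * P.C0 →
      ∀ (n m s r1 : ℕ) (e e' y : ℝ) [NeZero (2 ^ r1 / 2 ^ s)], N0 ≤ n →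
      Cx P b C1 c1 n s e y → Cw P n m e e' →
      m ≤ n + 10 * (r1 - n) + 9 → n + 8 * (r1 - n) ≤ m → n ≤ r1 →
      P.TT n e r1 ∧ r1 + 2 ≤ m ∧ ∀ Y, yt (2 ^ r1) b (4 * tn n) ≤ Y →
        Y ≤ e ^ (-(P.thp / 20)) * y →
      ∃ T, tn n ≤ T ∧ T ≤ 4 * tn n ∧ omh (2 ^ r1) (2 ^ s) b T (4 * tn m) ≤
        Yn (2 ^ r1) b + (2 : ℝ) ^ (-(((m : ℝ) - n) / 19)) * Y + (e * y) ^ 2 * e := by
  have hb0 : 0 < b := hb1.trans_le h1
  obtain ⟨C, c, hC, hc, hz⟩ := H316.zb_num hb0 (c0 := 1 / b) (by positivity)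
  obtain ⟨d, N1, hd, hom⟩ := H879.om_crit hb0 hel (δ := 1) one_pos
  refine ⟨N1, ((nz_ev C c hc Q).and ((sm1_ev K Q).and
    (H816.ev_tyK hb1 h1 (by norm_num) Q (k := 2) two_pos))).mono ?_⟩
  rintro P c1 hA ⟨⟨hc10, hc8, hthp, hth, hcC, hnz⟩, ⟨_, _, _, _, hsm⟩, hty⟩
  intro C1 hC1 hC0 hCK n m s r1 e e' y _ hn hX hW hm1 hm2 hr1
  have L := lv_of_cx hX
  have hs := hsm C1 hC1 hCK e hX.e0 hX.es
  have hsn := L.sn hs hC1
  have hns := L.ns hs hC1 hc10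
  have he := hX.e0
  have hy := hX.y0
  have Z := hnz e he hX.es
  have he1 : e ≤ 1 := Z.a8.trans (by norm_num)
  have hy1 := L.y1 hs
  have hthp0 := P.thp0
  have hw1 : lg P.thp e ≤ 20 * (m - n) := by
    have := hW.w1
    unfold H972.Par.w at this
    omega
  have hw2 : m - n ≤ 4 * lg P.thp e := by
    have := hW.w2
    unfold H972.Par.w at this
    omega
  have hnm : n ≤ m := by
    have := hW.w1
    omega
  have hk : 8 * (r1 - n) ≤ m - n := by omega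
  have hk' : m - n ≤ 10 * (r1 - n) + 9 := by omega
  have hx29 : 29 ≤ m - n := by
    have a1 := X_lo he hw1
    have a2 : (2 : ℝ) ^ 29 ≤ e ^ (-(P.thp / 20)) := by
      have h3 := mul_le_mul_of_nonneg_right Z.a4 (Real.rpow_nonneg he.le (-(P.thp / 20)))
      rwa [mul_assoc, ← Real.rpow_add he, add_neg_cancel, Real.rpow_zero, mul_one, one_mul] at h3
    exact (pow_le_pow_iff_right₀ one_lt_two).1 (a2.trans a1)
  have hkE : P.kE e ≤ r1 - n := kE_le P.th0.le he he1 hw1 hk' Z.a5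
  have hTT : P.TT n e r1 := by
    refine ⟨by omega, ?_⟩
    have h3 : 1 * (4 * P.w e) ≤ P.q0 * (4 * P.w e) :=
      Nat.mul_le_mul_right _ (by have := hA.hq; omega)
    have h4 : lg P.thp e = P.w e := rfl
    omega
  refine ⟨hTT, by omega, fun Y hY hYy => ?_⟩
  have htn := H972.tn_pos n
  have htm := H972.tn_pos m
  have hlp : (0 : ℝ) < lam n s := by unfold H889.lam; positivity
  have hlam := L.lam hs hC1
  have hXL := nz_L Z hC.le hthp0 (by linarith) he hc10 hc8 hw1 hw2 hns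
  obtain ⟨τ, a', _, _, hGP⟩ := hX.G
  have hNs : (2 : ℕ) ^ s ∣ 2 ^ r1 := pow_dvd_pow 2 (hsn.trans hr1)
  have hcell := tn_cell (n := n) (s := s)
  have htor := tn_torus (n := n) (r := r1) hr1
  obtain ⟨T, hT1, hT2, hT3⟩ := hz (2 ^ r1) (2 ^ s) hNs (tn n) (4 * tn m) (e ^ (2 * P.thp))
    (e ^ (2 * P.thp)) (m - n) (r1 - n) (n - s) htn
    (by
      rw [htor]
      calc (9 : ℝ) ≤ 4 ^ 2 := by norm_num
        _ ≤ 4 ^ (r1 - n) := pow_le_pow_right₀ (by norm_num) (by omega))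
    (le_of_eq htor) hk
    (by
      rw [mul_assoc, hcell]
      have h5 := Z.a8
      have h6 : 0 < (2 : ℝ) ^ s / 2 ^ n := by positivity
      nlinarith)
    (by
      rw [hcell]
      have e1 : (4 : ℝ) ^ (n - s) = (2 ^ (n - s)) ^ 2 := by
        rw [← pow_mul, mul_comm, pow_mul]
        norm_num
      have e2 : (2 : ℝ) ^ n = 2 ^ (n - s) * 2 ^ s := by rw [← pow_add, Nat.sub_add_cancel hsn]
      rw [e1, ← mul_pow, e2]
      have : (2 : ℝ) ^ (n - s) * (2 ^ s / (2 ^ (n - s) * 2 ^ s)) = 1 := by field_simp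
      rw [this]
      norm_num)
    (by omega) (by positivity)
    (by
      unfold H972.tn
      have e1 : (4 : ℝ) ^ m = 4 ^ (m - n) * 4 ^ n := by rw [← pow_add, Nat.sub_add_cancel hnm]
      rw [e1]
      apply le_of_eq
      field_simp)
    (fun ts h1 h2 => hty n e τ a' he hX.es (hGP e le_rfl hX.es) r1 hTT s (L.sE hs hC1 hC0 P.C00.le) hX.ns
      (by rw [← Nat.cast_sub hsn]; exact hns) ts h1 h2)
    (fun ts h1 h2 => H375.dom_acl hb0 hNs (htn.trans_le h1) le_rfl)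
    (fun r hr _ => by
      have h5 := hom (2 ^ r1) (hn.trans (hr1.trans (Nat.lt_two_pow_self).le)) r hr
      refine lt_of_lt_of_le ?_ h5
      positivity)
    (nz_half hXL) (by positivity) (by positivity)
  refine ⟨T, hT1, hT2, hT3.trans ?_⟩
  have hY0 : 0 ≤ Y := (yt_nonneg hb0.le (by positivity)).trans hY
  have g1 := omt_le hb0 (n := n) (r := r1) (by omega) hY
    (four_y Z hthp0 he hy hX.y1 hw2 hk hYy)
  have g2 := nz_err Z hC.le hthp0 (by linarith) he hw2 hk hXL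
  have g3 := nz_fs Z hC.le hthp0 (by linarith) he hy hy1 hw2 hk hlp hX.s2 hc
    (hcC.trans (mul_le_mul_of_nonneg_left hC0 hc.le))
  have e1 : √(tn n * ((2 ^ r1 : ℕ) : ℝ) ^ 2) = 2 ^ (r1 - n) := by
    rw [htor]
    have : (4 : ℝ) ^ (r1 - n) = (2 ^ (r1 - n)) ^ 2 := by
      rw [← pow_mul, mul_comm, pow_mul]
      norm_num
    rw [this, Real.sqrt_sq (by positivity)]
  have e2 : ((m - n : ℕ) : ℝ) = (m : ℝ) - n := Nat.cast_sub hnm
  have hlam' : lam n s = (2 : ℝ) ^ s / 2 ^ n := rfl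
  rw [e1, hcell, ← hlam']
  have g4 : omt (2 ^ r1) b (4 * tn n) *
      (C * ((((n - s : ℕ) : ℝ) + ((m - n : ℕ) : ℝ) + 1) / (√2) ^ (m - n)) + 4 * e ^ (2 * P.thp) +
        8 * e ^ (2 * P.thp)) ≤ (2 : ℝ) ^ (-(((m - n : ℕ) : ℝ) / 19)) * Y := by
    have h5 : 0 ≤ C * ((((n - s : ℕ) : ℝ) + ((m - n : ℕ) : ℝ) + 1) / (√2) ^ (m - n)) +
        4 * e ^ (2 * P.thp) + 8 * e ^ (2 * P.thp) := by positivity
    refine (mul_le_mul_of_nonneg_right g1 h5).trans ?_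
    have h6 := mul_le_mul_of_nonneg_right g2 hY0
    linarith
  rw [e2] at g4
  rw [e2]
  linarith

end

end Vale.Agent.P159.H30.Crk
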